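import Vale.Agent.P161.Gauss
import Mathlib.Probability.Distributions.Gaussian.Fernique

/-!
# A hierarchy of dyadic Gaussian increments
-/

open MeasureTheory ProbabilityTheory Real
open scoped ENNReal Classical

noncomputable section

namespace Vale.Agent.P161

variable {ι κ : Type*}

/-- Reading a family of independent Gaussians along an injection gives independent Gaussians. -/
theorem reindex_mp {f : κ → ι} (hf : Function.Injective f) :
    MeasurePreserving (fun x : ι → ℝ => fun k => x (f k)) (gN ι) (gN κ) := by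
  refine ⟨by fun_prop, Measure.eq_infinitePi _ fun s t ht => ?_⟩
  rw [Measure.map_apply (by fun_prop) (.pi s.countable_toSet fun i _ => ht i)]
  set t' : ι → Set ℝ := Function.extend f t (fun _ => Set.univ) with ht'
  have : (fun x : ι → ℝ => fun k => x (f k)) ⁻¹' (Set.pi (s : Set κ) t) =
      Set.pi ((s.image f : Finset ι) : Set ι) t' := by
    ext x
    simp [ht', hf.extend_apply]
  rw [this, gN, Measure.infinitePi_pi, Finset.prod_image fun a _ b _ h => hf h]
  · exact Finset.prod_congr rfl fun k _ => by rw [ht', hf.extend_apply]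
  · intro i hi
    obtain ⟨k, -, rfl⟩ := Finset.mem_image.1 hi
    rw [ht', hf.extend_apply]
    exact ht k

/-- Merge two families. -/
def merge (p : (ι → ℝ) × (ι → ℝ)) : ι × Bool → ℝ := fun q => if q.2 then p.2 q.1 else p.1 q.1

theorem merge_mp : MeasurePreserving (merge (ι := ι)) ((gN ι).prod (gN ι)) (gN (ι × Bool)) := by
  have hm : Measurable (merge (ι := ι)) := by
    refine measurable_pi_lambda _ fun q => ?_
    simp only [merge]
    split_ifs <;> fun_prop
  refine ⟨hm, Measure.eq_infinitePi _ fun s t ht => ?_⟩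
  rw [Measure.map_apply hm (.pi s.countable_toSet fun i _ => ht i)]
  set sF := (s.filter (fun q => q.2 = false)).image Prod.fst with hsF
  set sT := (s.filter (fun q => q.2 = true)).image Prod.fst with hsT
  have : merge (ι := ι) ⁻¹' (Set.pi (s : Set (ι × Bool)) t) =
      (Set.pi (sF : Set ι) fun i => t (i, false)) ×ˢ (Set.pi (sT : Set ι) fun i => t (i, true)) := by
    ext p
    simp only [Set.mem_preimage, Set.mem_pi, Set.mem_prod, Finset.mem_coe, hsF, hsT,
      Finset.mem_image, Finset.mem_filter]
    constructor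
    · intro h
      constructor
      · rintro i ⟨⟨j, b⟩, ⟨hs, rfl⟩, rfl⟩
        simpa [merge] using h _ hs
      · rintro i ⟨⟨j, b⟩, ⟨hs, rfl⟩, rfl⟩
        simpa [merge] using h _ hs
    · rintro ⟨h1, h2⟩ ⟨i, b⟩ hs
      cases b
      · simpa [merge] using h1 i ⟨(i, false), ⟨hs, rfl⟩, rfl⟩
      · simpa [merge] using h2 i ⟨(i, true), ⟨hs, rfl⟩, rfl⟩
  rw [this, Measure.prod_prod, gN, Measure.infinitePi_pi _ (fun i _ => ht _),
    Measure.infinitePi_pi _ (fun i _ => ht _), hsF, hsT, Finset.prod_image, Finset.prod_image,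
    ← Finset.prod_filter_mul_prod_filter_not s (fun q => q.2 = false)]
  · congr 1
    · exact Finset.prod_congr rfl fun q hq => by rw [← (Finset.mem_filter.1 hq).2]
    · refine Finset.prod_congr (by simp) fun q hq => ?_
      rw [show (q.1, true) = q from Prod.ext rfl ((Bool.eq_true_of_not_eq_false (Finset.mem_filter.1 hq).2).symm)]
  · rintro ⟨a, b⟩ ha ⟨a', b'⟩ ha' h
    simp_all
  · rintro ⟨a, b⟩ ha ⟨a', b'⟩ ha' h
    simp_all

/-- Replace the coordinates in the set `S`. -/
def cut (S : Set ι) (p : (ι → ℝ) × (ι → ℝ)) : ι → ℝ := fun i => if i ∈ S then p.2 i else p.1 i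

theorem cut_mp (S : Set ι) : MeasurePreserving (cut S) ((gN ι).prod (gN ι)) (gN ι) := by
  have hm : Measurable (cut S) := by
    refine measurable_pi_lambda _ fun i => ?_
    simp only [cut]
    split_ifs <;> fun_prop
  refine ⟨hm, Measure.eq_infinitePi _ fun s t ht => ?_⟩
  rw [Measure.map_apply hm (.pi s.countable_toSet fun i _ => ht i)]
  have : cut S ⁻¹' (Set.pi (s : Set ι) t) =
      (Set.pi ((s.filter (· ∉ S) : Finset ι) : Set ι) t) ×ˢ
        (Set.pi ((s.filter (· ∈ S) : Finset ι) : Set ι) t) := by
    ext p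
    simp only [Set.mem_preimage, Set.mem_pi, Set.mem_prod, Finset.mem_coe, Finset.mem_filter, cut]
    constructor
    · intro h
      exact ⟨fun i hi => by simpa [hi.2] using h i hi.1, fun i hi => by simpa [hi.2] using h i hi.1⟩
    · rintro ⟨h1, h2⟩ i hi
      by_cases hS : i ∈ S
      · simpa [hS] using h2 i ⟨hi, hS⟩
      · simpa [hS] using h1 i ⟨hi, hS⟩
  rw [this, Measure.prod_prod, gN, Measure.infinitePi_pi _ (fun i _ => ht i),
    Measure.infinitePi_pi _ (fun i _ => ht i), mul_comm, Finset.prod_filter_mul_prod_filter_not]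

/-- Split a coarse increment and a fresh Gaussian into two fine increments. -/
def rotPair (y : Bool → ℝ) : Bool → ℝ :=
  fun b => if b then (y false - y true) / √2 else (y false + y true) / √2

theorem rotPair_mp : MeasurePreserving rotPair (gN Bool) (gN Bool) := by
  have hm : Measurable rotPair := by
    refine measurable_pi_lambda _ fun b => ?_
    simp only [rotPair]
    split_ifs <;> fun_prop
  refine ⟨hm, ?_⟩
  -- the product of two Gaussians is invariant under the rotation by a quarter of a straight angle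
  set q : ℝ × ℝ → (Bool → ℝ) := fun p b => if b then p.2 else p.1 with hq
  have hqm : Measurable q := by
    refine measurable_pi_lambda _ fun b => ?_
    simp only [hq]
    split_ifs <;> fun_prop
  have hlaw : ((gaussianReal 0 1).prod (gaussianReal 0 1)).map q = gN Bool := by
    refine Measure.eq_infinitePi _ fun s t ht => ?_
    rw [Measure.map_apply hqm (.pi s.countable_toSet fun i _ => ht i)]
    have : q ⁻¹' (Set.pi (s : Set Bool) t) =
        (if false ∈ s then t false else Set.univ) ×ˢ (if true ∈ s then t true else Set.univ) := by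
      ext p
      simp only [hq, Set.mem_preimage, Set.mem_pi, Finset.mem_coe, Set.mem_prod]
      by_cases hf : false ∈ s <;> by_cases ht' : true ∈ s <;>
        simp [hf, ht', Bool.forall_bool]
    rw [this, Measure.prod_prod, ← Fintype.prod_ite_mem s, Fintype.prod_bool, mul_comm]
    congr 1 <;> split_ifs <;> simp
  have hrot := IsGaussian.map_rotation_eq_self (μ := gaussianReal 0 1)
    (by simp only [id_eq]; exact integral_id_gaussianReal) (π / 4)
  have hflip : (gaussianReal 0 1).map (fun x : ℝ => -x) = gaussianReal 0 1 := by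
    rw [gaussianReal_map_neg, neg_zero]
  rw [← hlaw, Measure.map_map hm hqm]
  have hneg : ((gaussianReal 0 1).prod (gaussianReal 0 1)).map (fun p : ℝ × ℝ => (p.1, -p.2)) =
      (gaussianReal 0 1).prod (gaussianReal 0 1) := by
    have := (Measure.map_prod_map (gaussianReal 0 1) (gaussianReal 0 1) (f := id) (g := fun x => -x)
      measurable_id measurable_neg).symm
    rw [Measure.map_id, hflip] at this
    exact this
  conv_rhs => rw [← hneg]
  rw [Measure.map_map hqm (by fun_prop)]
  conv_rhs => rw [← hrot]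
  rw [Measure.map_map (by fun_prop) (by fun_prop)]
  congr 1
  funext p b
  have hs : √(2 : ℝ) ≠ 0 := by positivity
  have h2 : √(2 : ℝ) * √2 = 2 := Real.mul_self_sqrt (by norm_num)
  cases b <;>
    simp [rotPair, hq, ContinuousLinearMap.rotation_apply, Real.cos_pi_div_four,
      Real.sin_pi_div_four] <;> field_simp <;> rw [sq, h2] <;> ring

theorem rotPairs_mp :
    MeasurePreserving (fun (x : ι × Bool → ℝ) q => rotPair (fun b => x (q.1, b)) q.2)
      (gN (ι × Bool)) (gN (ι × Bool)) := by
  have h1 : MeasurePreserving (MeasurableEquiv.curry ι Bool ℝ) (gN (ι × Bool))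
      (Measure.infinitePi fun _ : ι => gN Bool) :=
    ⟨(MeasurableEquiv.curry ι Bool ℝ).measurable,
      Measure.infinitePi_map_curry fun _ _ => gaussianReal 0 1⟩
  have h2 : MeasurePreserving (fun (y : ι → Bool → ℝ) i => rotPair (y i))
      (Measure.infinitePi fun _ : ι => gN Bool) (Measure.infinitePi fun _ : ι => gN Bool) := by
    refine ⟨measurable_pi_lambda _ fun i => rotPair_mp.measurable.comp (measurable_pi_apply i), ?_⟩
    rw [Measure.infinitePi_map_pi (fun _ => gN Bool) (fun _ => rotPair_mp.measurable)]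
    simp only [rotPair_mp.map_eq]
  exact (h1.symm _).comp (h2.comp h1)

variable {V : Type*}

/-- The labels: one Gaussian for every level, step and vertex. -/
abbrev Lab (V : Type*) := ℕ × (ℕ × V)

/-- The increments at dyadic level `j`. -/
def noise : ℕ → (Lab V → ℝ) → (ℕ × V → ℝ)
  | 0, ξ => fun p => ξ (0, p)
  | j + 1, ξ => fun p =>
    rotPair (fun b => if b then ξ (j + 1, (p.1 / 2, p.2)) else noise j ξ (p.1 / 2, p.2))
      (decide (p.1 % 2 = 1))

theorem noise_add (j k : ℕ) (v : V) (ξ : Lab V → ℝ) :
    noise j ξ (k, v) = (noise (j + 1) ξ (2 * k, v) + noise (j + 1) ξ (2 * k + 1, v)) / √2 := by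
  have hs : √(2 : ℝ) ≠ 0 := by positivity
  have h2 : √(2 : ℝ) * √2 = 2 := Real.mul_self_sqrt (by norm_num)
  simp only [noise, rotPair, show 2 * k / 2 = k by omega, show 2 * k % 2 = 0 by omega,
    show (2 * k + 1) / 2 = k by omega, show (2 * k + 1) % 2 = 1 by omega]
  simp
  field_simp
  rw [sq, h2]
  ring

theorem noise_dep (j : ℕ) {ξ ξ' : Lab V → ℝ} (h : ∀ q : Lab V, q.1 ≤ j → ξ q = ξ' q) :
    noise j ξ = noise j ξ' := by
  induction j with
  | zero => funext p; exact h _ le_rfl
  | succ j ih =>
    funext p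
    simp only [noise, ih fun q hq => h q (by omega), h (j + 1, (p.1 / 2, p.2)) le_rfl]

theorem noise_mp (j : ℕ) : MeasurePreserving (noise (V := V) j) (gN (Lab V)) (gN (ℕ × V)) := by
  induction j with
  | zero => exact reindex_mp fun a b h => (Prod.ext_iff.1 h).2
  | succ j ih =>
    set g : (Lab V → ℝ) → (ℕ × V → ℝ) := fun ξ p => ξ (j + 1, p) with hg
    have hgmp : MeasurePreserving g (gN (Lab V)) (gN (ℕ × V)) :=
      reindex_mp fun a b h => (Prod.ext_iff.1 h).2
    set F : (Lab V → ℝ) → (ℕ × V → ℝ) × (ℕ × V → ℝ) := fun ξ => (noise j ξ, g ξ) with hF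
    have hjoint : MeasurePreserving F (gN (Lab V)) ((gN (ℕ × V)).prod (gN (ℕ × V))) := by
      refine ⟨ih.measurable.prodMk hgmp.measurable, ?_⟩
      rw [← (cut_mp (ι := Lab V) {q | q.1 = j + 1}).map_eq,
        Measure.map_map (ih.measurable.prodMk hgmp.measurable) (cut_mp _).measurable]
      have : F ∘ cut (ι := Lab V) {q | q.1 = j + 1} = Prod.map (noise j) g := by
        funext p
        refine Prod.ext (noise_dep j fun q hq => ?_) (funext fun r => ?_)
        · simp [cut, show q.1 ≠ j + 1 by omega]
        · simp [hF, hg, cut]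
      rw [this, ← Measure.map_prod_map _ _ ih.measurable hgmp.measurable, ih.map_eq, hgmp.map_eq]
    set e : ℕ × V → (ℕ × V) × Bool := fun p => ((p.1 / 2, p.2), decide (p.1 % 2 = 1)) with he
    have hinj : Function.Injective e := by
      rintro ⟨a, v⟩ ⟨b, w⟩ h
      simp only [he, Prod.mk.injEq, decide_eq_decide] at h
      obtain ⟨⟨h1, rfl⟩, h3⟩ := h
      have h4 : a % 2 = b % 2 := by
        rcases Nat.mod_two_eq_zero_or_one a with ha | ha <;>
          rcases Nat.mod_two_eq_zero_or_one b with hb | hb <;> simp_all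
      rw [Prod.mk.injEq]
      exact ⟨by omega, rfl⟩
    have hall := (reindex_mp hinj).comp ((rotPairs_mp (ι := ℕ × V)).comp (merge_mp.comp hjoint))
    exact hall

theorem noise_relabel {g : V → V} (j : ℕ) (ξ : Lab V → ℝ) (p : ℕ × V) :
    noise j (fun q => ξ (q.1, (q.2.1, g q.2.2))) p = noise j ξ (p.1, g p.2) := by
  induction j generalizing p with
  | zero => rfl
  | succ j ih => simp only [noise, ih]

end Vale.Agent.P161
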