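import Vale.Agent.P161.Scheme
import Vale.Agent.P161.Noise

/-!
# Comparing the schemes across step size, time and volume
-/

open MeasureTheory Finset Real Filter Topology
open scoped ENNReal Classical

noncomputable section

namespace Vale.Agent.P161

variable {V : Type*} {G : SimpleGraph V} {d : ℕ} {θ δ : ℝ}

/-- The step size at dyadic level `j`. -/
def dt (j : ℕ) : ℝ := (1 / 2) ^ j

/-- The number of steps up to time `T` at level `j`. -/
def steps (T j : ℕ) : ℕ := T * 2 ^ j

theorem dt_pos (j : ℕ) : 0 < dt j := pow_pos (by norm_num) j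

theorem dt_le_one (j : ℕ) : dt j ≤ 1 := pow_le_one₀ (by norm_num) (by norm_num)

theorem steps_mul_dt (T j : ℕ) : (steps T j : ℝ) * dt j = T := by
  simp only [steps, dt, Nat.cast_mul, Nat.cast_pow, Nat.cast_ofNat, mul_assoc, ← mul_pow]
  norm_num

theorem dt_succ (j : ℕ) : dt (j + 1) = dt j / 2 := by
  simp only [dt, pow_succ]; ring

theorem steps_succ (T j : ℕ) : steps T (j + 1) = 2 * steps T j := by
  simp only [steps, pow_succ]; ring

theorem steps_mono {T T' : ℕ} (h : T ≤ T') (j : ℕ) : steps T j ≤ steps T' j :=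
  Nat.mul_le_mul_right _ h

theorem tendsto_sqrt_dt : Tendsto (fun j => √(dt j)) atTop (𝓝 0) := by
  have : Tendsto dt atTop (𝓝 0) :=
    tendsto_pow_atTop_nhds_zero_of_lt_one (by norm_num) (by norm_num)
  simpa using this.sqrt

theorem measurable_tanh' : Measurable Real.tanh := by
  rw [funext Real.tanh_eq_sinh_div_cosh]
  exact Real.measurable_sinh.div Real.measurable_cosh

theorem abs_tanh_le (x : ℝ) : |Real.tanh x| ≤ 1 := (Real.abs_tanh_lt_one x).le

theorem abs_tanh_sub_le (x y : ℝ) : |Real.tanh x - Real.tanh y| ≤ |x - y| := by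
  have hd : ∀ t : ℝ, HasDerivAt Real.tanh (1 / Real.cosh t ^ 2) t := by
    intro t
    rw [funext Real.tanh_eq_sinh_div_cosh]
    refine ((Real.hasDerivAt_sinh t).div (Real.hasDerivAt_cosh t)
      (Real.cosh_pos t).ne').congr_deriv ?_
    rw [← sq, ← sq, Real.cosh_sq t]
    ring
  have := convex_univ.norm_image_sub_le_of_norm_hasDerivWithin_le (C := 1)
    (fun t _ => (hd t).hasDerivWithinAt) (fun t _ => ?_) (Set.mem_univ y) (Set.mem_univ x)
  · simpa [Real.norm_eq_abs] using this
  · rw [Real.norm_eq_abs, abs_of_nonneg (by positivity), div_le_one (by positivity)]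
    exact one_le_pow₀ (Real.one_le_cosh t)

/-- The value at time `T` of the scheme in the volume `D`. -/
def endVal (G : SimpleGraph V) (θ : ℝ) (D : Finset V) (T j : ℕ) (v : V) (z : ℕ × V → ℝ) : ℝ :=
  Real.tanh (scheme G θ D (dt j) z (steps T j) v)

theorem measurable_endVal (D : Finset V) (T j : ℕ) (v : V) : Measurable (endVal G θ D T j v) :=
  measurable_tanh'.comp ((measurable_pi_apply v).comp (measurable_scheme D _ _))

theorem abs_endVal (D : Finset V) (T j : ℕ) (v : V) (z : ℕ × V → ℝ) :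
    |endVal G θ D T j v z| ≤ 1 := abs_tanh_le _

theorem integrable_endVal (D : Finset V) (T j : ℕ) (v : V) {μ : Measure (ℕ × V → ℝ)}
    [IsFiniteMeasure μ] : Integrable (endVal G θ D T j v) μ :=
  integrable_of_bdd (measurable_endVal D T j v) (abs_endVal D T j v)

/-- The error in replacing the scheme by the exact chain. -/
def err (D : Finset V) (T j : ℕ) : ℝ := √(dt j) * (16 * (D.card : ℝ) ^ 2 * T + 1)

theorem err_nonneg (D : Finset V) (T j : ℕ) : 0 ≤ err D T j := by unfold err; positivity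

theorem tendsto_err (D : Finset V) (T : ℕ) : Tendsto (err D T) atTop (𝓝 0) := by
  have h := tendsto_sqrt_dt.mul_const (16 * (D.card : ℝ) ^ 2 * T + 1)
  rw [zero_mul] at h
  exact h

theorem eventually_small (D : Finset V) (T : ℕ) :
    ∀ᶠ j in atTop, 4 * (D.card : ℝ) * dt j ≤ 1 ∧ 16 * (D.card : ℝ) ^ 2 * T * dt j ≤ 1 := by
  have h : Tendsto dt atTop (𝓝 0) :=
    tendsto_pow_atTop_nhds_zero_of_lt_one (by norm_num) (by norm_num)
  have h1 := (h.const_mul (4 * (D.card : ℝ))).eventually_le_const (u := 1) (by simp)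
  have h2 := (h.const_mul (16 * (D.card : ℝ) ^ 2 * T)).eventually_le_const (u := 1) (by simp)
  exact h1.and h2

theorem transfer_le (hT : RTree G d) (h0 : 0 ≤ θ) (h1 : θ < 1) {D : Finset V} (hD : Conn G D)
    {T j k : ℕ} (hk : k ≤ steps T j)
    (hs : 4 * (D.card : ℝ) * dt j ≤ 1 ∧ 16 * (D.card : ℝ) ^ 2 * T * dt j ≤ 1)
    {F : (ℕ × V → ℝ) → ℝ} (hF : Measurable F) {B : ℝ} (hB : ∀ x, |F x| ≤ B) :
    |∫ z, F (xmap G θ D (dt j) k z) ∂gN (ℕ × V) -
      ∫ x, F x * lDens G θ D (dt j) k x ∂gN (ℕ × V)| ≤ B * err D T j := by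
  refine transfer hT h0 h1 (dt_pos j) hD ?_ hs.1 hs.2 hF hB
  rw [← steps_mul_dt T j]
  exact mul_le_mul_of_nonneg_right (by exact_mod_cast hk) (dt_pos j).le

theorem integral_abs_le {α : Type*} [MeasurableSpace α] {μ : Measure α} [IsProbabilityMeasure μ]
    {h : α → ℝ} (hm : Measurable h) {B : ℝ} (hB : ∀ x, |h x| ≤ B) {c : ℝ} (hc : 0 < c) :
    ∫ x, |h x| ∂μ ≤ (∫ x, h x ^ 2 ∂μ) / (2 * c) + c / 2 := by
  have i2 : Integrable (fun x => h x ^ 2) μ :=
    integrable_of_bdd (hm.pow_const 2) (B := B ^ 2) fun x => by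
      rw [abs_pow]; exact pow_le_pow_left₀ (abs_nonneg _) (hB x) 2
  calc ∫ x, |h x| ∂μ ≤ ∫ x, (h x ^ 2 / (2 * c) + c / 2) ∂μ := by
        refine integral_mono (integrable_of_bdd hm hB).abs
          ((i2.div_const _).add (integrable_const _)) fun x => ?_
        rw [div_add' _ _ _ (by positivity), le_div_iff₀ (by positivity)]
        nlinarith [sq_nonneg (|h x| - c), sq_abs (h x)]
    _ = _ := by rw [integral_add (i2.div_const _) (integrable_const _), integral_div]; simp

/-! ## The exact chain at different times and in different volumes -/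

/-- The second moment of the magnetization at `w` under the exact chain. -/
def qv (G : SimpleGraph V) (θ : ℝ) (D : Finset V) (δ : ℝ) (k : ℕ) (w : V) : ℝ :=
  ∫ x, lDens G θ D δ k x * mag G θ D (fieldOf D δ x k) w ^ 2 ∂gN (ℕ × V)

theorem measurable_magField (D : Finset V) (δ : ℝ) (k : ℕ) (w : V) :
    Measurable (fun x : ℕ × V → ℝ => mag G θ D (fieldOf D δ x k) w) :=
  (measurable_mag D w).comp (measurable_fieldOf D δ k)

theorem magField_dep (D : Finset V) (δ : ℝ) (k : ℕ) (w : V) :
    DependsOn (fun x : ℕ × V → ℝ => mag G θ D (fieldOf D δ x k) w)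
      (coords D k : Set (ℕ × V)) := fun x y h => by
  simp only [fieldOf_congr (δ := δ) h]

theorem gap_eq (hT : RTree G d) (h0 : 0 ≤ θ) (h1 : θ < 1) (hδ : 0 ≤ δ) {D D' : Finset V}
    (hD : Conn G D) (hD' : Conn G D') (hsub : D ⊆ D') {k k' : ℕ} (hk : k ≤ k') {w : V}
    (hw : w ∈ D) :
    ∫ x, lDens G θ D' δ k' x *
      (mag G θ D' (fieldOf D' δ x k') w - mag G θ D (fieldOf D δ x k) w) ^ 2 ∂gN (ℕ × V) =
    qv G θ D' δ k' w - qv G θ D δ k w := by
  set m := fun x : ℕ × V → ℝ => mag G θ D (fieldOf D δ x k) w with hm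
  set m' := fun x : ℕ × V → ℝ => mag G θ D' (fieldOf D' δ x k') w with hm'
  have hmm : Measurable m := measurable_magField D δ k w
  have hmm' : Measurable m' := measurable_magField D' δ k' w
  have hmb : ∀ x, |m x| ≤ 1 := fun x => abs_mag_le h0 h1 D _ w
  have hmb' : ∀ x, |m' x| ≤ 1 := fun x => abs_mag_le h0 h1 D' _ w
  have hf : ∀ A : Finset V, sp (A ∩ D) w = sp A w := fun A => by simp [sp, hw]
  have hsq : ∀ x, |m x ^ 2| ≤ 1 := fun x => by
    rw [abs_pow]; exact pow_le_one₀ (abs_nonneg _) (hmb x)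
  have hsq' : ∀ x, |m' x ^ 2| ≤ 1 := fun x => by
    rw [abs_pow]; exact pow_le_one₀ (abs_nonneg _) (hmb' x)
  have e1 := int_out hT h0 h1 hδ hD hD' hsub hk (f := fun _ => 1) (fun _ => rfl)
    (g := fun x => m x ^ 2) (hmm.pow_const 2) (B := 1) hsq
    (fun x y h => by simp only [hm, fieldOf_congr (δ := δ) h])
  have e2 := int_out hT h0 h1 hδ hD hD' hsub hk (f := fun A => sp A w) hf (g := m) hmm (B := 1) hmb
    (magField_dep D δ k w)
  simp only [post_eq_avg h0 h1 _ _ _ (fun A => sp A w), ← mag.eq_def] at e2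
  have i1 : Integrable (fun x => lDens G θ D' δ k' x * m' x ^ 2) (gN (ℕ × V)) :=
    (integrable_bdd_post D' δ k' _ (hmm'.pow_const 2) hsq').congr
      (ae_of_all _ fun x => mul_comm _ _)
  have i2 : Integrable (fun x => lDens G θ D' δ k' x * (m' x * m x)) (gN (ℕ × V)) :=
    (integrable_bdd_post D' δ k' _ (hmm'.mul hmm) (B := 1) fun x => by
      rw [Pi.mul_apply, abs_mul]; exact mul_le_one₀ (hmb' x) (abs_nonneg _) (hmb x)).congr
      (ae_of_all _ fun x => mul_comm _ _)
  have i3 : Integrable (fun x => lDens G θ D' δ k' x * m x ^ 2) (gN (ℕ × V)) :=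
    (integrable_bdd_post D' δ k' _ (hmm.pow_const 2) hsq).congr
      (ae_of_all _ fun x => mul_comm _ _)
  have f1 : ∫ x, lDens G θ D' δ k' x * m x ^ 2 ∂gN (ℕ × V) = qv G θ D δ k w := by
    rw [show (fun x => lDens G θ D' δ k' x * m x ^ 2) =
      fun x => m x ^ 2 * post G θ D' δ k' (fun _ => 1) x from funext fun x => mul_comm _ _, e1]
    exact integral_congr_ae (ae_of_all _ fun x => mul_comm _ _)
  have f2 : ∫ x, lDens G θ D' δ k' x * (m' x * m x) ∂gN (ℕ × V) = qv G θ D δ k w := by
    rw [show (fun x => lDens G θ D' δ k' x * (m' x * m x)) =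
      fun x => m x * (lDens G θ D' δ k' x * mag G θ D' (fieldOf D' δ x k') w) from
        funext fun x => by simp only [hm']; ring, e2]
    exact integral_congr_ae (ae_of_all _ fun x => by simp only [hm]; ring)
  have e : ∀ x, lDens G θ D' δ k' x * (m' x - m x) ^ 2 =
      lDens G θ D' δ k' x * m' x ^ 2 - 2 * (lDens G θ D' δ k' x * (m' x * m x)) +
        lDens G θ D' δ k' x * m x ^ 2 := fun x => by ring
  rw [show (fun x => lDens G θ D' δ k' x *
      (mag G θ D' (fieldOf D' δ x k') w - mag G θ D (fieldOf D δ x k) w) ^ 2) = _ from funext e,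
    integral_add (f := fun x => lDens G θ D' δ k' x * m' x ^ 2 -
      2 * (lDens G θ D' δ k' x * (m' x * m x))) (i1.sub (i2.const_mul 2)) i3,
    integral_sub i1 (i2.const_mul 2), integral_const_mul, f1, f2]
  simp only [qv, hm']
  ring

theorem qv_mono (hT : RTree G d) (h0 : 0 ≤ θ) (h1 : θ < 1) (hδ : 0 ≤ δ) {D D' : Finset V}
    (hD : Conn G D) (hD' : Conn G D') (hsub : D ⊆ D') {k k' : ℕ} (hk : k ≤ k') {w : V}
    (hw : w ∈ D) : qv G θ D δ k w ≤ qv G θ D' δ k' w := by
  rw [← sub_nonneg, ← gap_eq hT h0 h1 hδ hD hD' hsub hk hw]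
  exact integral_nonneg fun x => mul_nonneg (lDens_pos h0 h1 _ _ _ _).le (sq_nonneg _)

theorem qv_le_one (hT : RTree G d) (h0 : 0 ≤ θ) (h1 : θ < 1) (hδ : 0 ≤ δ) {D : Finset V}
    (hD : Conn G D) (k : ℕ) (w : V) : qv G θ D δ k w ≤ 1 := by
  rw [← integral_lDens (G := G) hT h0 h1 hδ hD k]
  refine integral_mono_of_nonneg (ae_of_all _ fun x => mul_nonneg (lDens_pos h0 h1 _ _ _ _).le
    (sq_nonneg _)) (integrable_post D δ k _) (ae_of_all _ fun x => ?_)
  refine mul_le_of_le_one_right (lDens_pos h0 h1 _ _ _ _).le ?_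
  rw [← sq_abs]; exact pow_le_one₀ (abs_nonneg _) (abs_mag_le h0 h1 D _ w)

theorem fieldOf_refine (D : Finset V) (j k : ℕ) (ξ : Lab V → ℝ) :
    fieldOf D (dt j) (noise j ξ) k = fieldOf D (dt (j + 1)) (noise (j + 1) ξ) (2 * k) := by
  funext v
  simp only [fieldOf]
  split_ifs with hv
  · induction k with
    | zero => simp
    | succ k ih =>
      rw [show 2 * (k + 1) = 2 * k + 1 + 1 by ring, Finset.sum_range_succ, Finset.sum_range_succ,
        Finset.sum_range_succ, mul_add, ih, noise_add, dt_succ,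
        Real.sqrt_div (dt_pos j).le]
      ring
  · rfl

theorem qv_refine (D : Finset V) (j k : ℕ) (w : V) :
    qv G θ D (dt j) k w = qv G θ D (dt (j + 1)) (2 * k) w := by
  have hm : ∀ δ k, Measurable (fun x : ℕ × V → ℝ =>
      lDens G θ D δ k x * mag G θ D (fieldOf D δ x k) w ^ 2) := fun δ k =>
    (measurable_post D δ k _).mul ((measurable_magField D δ k w).pow_const 2)
  simp only [qv]
  conv_lhs => rw [← (noise_mp j).map_eq, integral_map (noise_mp j).measurable.aemeasurable
    (hm _ _).aestronglyMeasurable]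
  conv_rhs => rw [← (noise_mp (j + 1)).map_eq, integral_map (noise_mp (j + 1)).measurable.aemeasurable
    (hm _ _).aestronglyMeasurable]
  refine integral_congr_ae (ae_of_all _ fun ξ => ?_)
  simp only [lDens, post, fieldOf_refine D j k ξ]
  congr 2
  rw [dt_succ]; push_cast; ring_nf

/-- The Riemann sum of `qv` up to time `T`. -/
def qSum (G : SimpleGraph V) (θ : ℝ) (D : Finset V) (T j : ℕ) (w : V) : ℝ :=
  dt j * ∑ k ∈ range (steps T j), qv G θ D (dt j) k w

theorem qSum_le (hT : RTree G d) (h0 : 0 ≤ θ) (h1 : θ < 1) {D : Finset V} (hD : Conn G D)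
    (T j : ℕ) (w : V) : qSum G θ D T j w ≤ T := by
  calc qSum G θ D T j w ≤ dt j * ∑ _k ∈ range (steps T j), (1 : ℝ) :=
        mul_le_mul_of_nonneg_left (Finset.sum_le_sum fun k _ =>
          qv_le_one hT h0 h1 (dt_pos j).le hD k w) (dt_pos j).le
    _ = T := by
        rw [Finset.sum_const, Finset.card_range, nsmul_eq_mul, mul_one, mul_comm, steps_mul_dt]

theorem sum_range_two_mul (f : ℕ → ℝ) (n : ℕ) :
    ∑ k ∈ range (2 * n), f k = ∑ k ∈ range n, (f (2 * k) + f (2 * k + 1)) := by
  induction n with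
  | zero => simp
  | succ n ih =>
    rw [show 2 * (n + 1) = 2 * n + 1 + 1 by ring, Finset.sum_range_succ, Finset.sum_range_succ,
      Finset.sum_range_succ, ih]
    ring

theorem qSum_succ (hT : RTree G d) (h0 : 0 ≤ θ) (h1 : θ < 1) {D : Finset V} (hD : Conn G D)
    (T j : ℕ) {w : V} (hw : w ∈ D) : qSum G θ D T j w ≤ qSum G θ D T (j + 1) w := by
  simp only [qSum]
  rw [steps_succ, sum_range_two_mul, dt_succ, Finset.mul_sum, Finset.mul_sum]
  refine Finset.sum_le_sum fun k _ => ?_
  have h := qv_mono (G := G) hT h0 h1 (dt_pos (j + 1)).le hD hD subset_rfl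
    (k := 2 * k) (k' := 2 * k + 1) (by omega) hw
  rw [qv_refine D j k w, dt_succ]
  rw [dt_succ] at h
  have := dt_pos j
  nlinarith

theorem qSum_mono (hT : RTree G d) (h0 : 0 ≤ θ) (h1 : θ < 1) {D D' : Finset V}
    (hD : Conn G D) (hD' : Conn G D') (hsub : D ⊆ D') {T j j' : ℕ} (hj : j ≤ j') {w : V}
    (hw : w ∈ D) : qSum G θ D T j w ≤ qSum G θ D' T j' w := by
  have h : qSum G θ D T j w ≤ qSum G θ D T j' w := by
    induction j', hj using Nat.le_induction with
    | base => rfl
    | succ n _ ih => exact ih.trans (qSum_succ hT h0 h1 hD T n hw)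
  exact h.trans (mul_le_mul_of_nonneg_left (Finset.sum_le_sum fun k _ =>
    qv_mono hT h0 h1 (dt_pos j').le hD hD' hsub le_rfl hw) (dt_pos j').le)

/-- The magnetization depends little on far away observations. -/
theorem qSum_saturates (hT : RTree G d) (h0 : 0 ≤ θ) (h1 : θ < 1) (T : ℕ) (w : V) {η : ℝ}
    (hη : 0 < η) : ∃ (D0 : Finset V) (j0 : ℕ), ∀ D D' : Finset V, Conn G D → Conn G D' →
      D0 ⊆ D → D ⊆ D' → ∀ j, j0 ≤ j → qSum G θ D' T j w - qSum G θ D T j w ≤ η := by
  set S : Set ℝ := {s | ∃ (D : Finset V) (j : ℕ), Conn G D ∧ w ∈ D ∧ qSum G θ D T j w = s} with hS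
  have hne : S.Nonempty := ⟨_, {w}, 0, conn_singleton w, Finset.mem_singleton_self w, rfl⟩
  have hbdd : BddAbove S := ⟨T, fun s ⟨D, j, hD, _, hs⟩ => hs ▸ qSum_le hT h0 h1 hD T j w⟩
  obtain ⟨s, ⟨D0, j0, hD0, hw0, rfl⟩, hs⟩ := exists_lt_of_lt_csSup hne (sub_lt_self (sSup S) hη)
  refine ⟨D0, j0, fun D D' hD hD' h0D hDD' j hj => ?_⟩
  have e1 : qSum G θ D' T j w ≤ sSup S := le_csSup hbdd ⟨D', j, hD', hDD' (h0D hw0), rfl⟩
  have e2 := qSum_mono (T := T) hT h0 h1 hD0 hD h0D hj hw0
  linarith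

/-! ## Refining the step -/

theorem refine_step (hT : RTree G d) (h0 : 0 ≤ θ) (h1 : θ < 1) {D : Finset V} (hD : Conn G D)
    (T j : ℕ) {v : V} (hv : v ∈ D) :
    ∫ ξ, |endVal G θ D T j v (noise j ξ) - endVal G θ D T (j + 1) v (noise (j + 1) ξ)| ∂gN (Lab V) ≤
      exp (T * D.card) * T * (D.card : ℝ) ^ 2 * √(dt j) := by
  set n := steps T j with hn
  set δ := dt j with hδdef
  have hδ : 0 < δ := dt_pos j
  set N : ℝ := (D.card : ℝ) with hN
  have hpt : ∀ ξ, |endVal G θ D T j v (noise j ξ) - endVal G θ D T (j + 1) v (noise (j + 1) ξ)| ≤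
      exp (T * N) * ∑ i ∈ range n, δ / 2 * N *
        ∑ w ∈ D, (δ / 2 + √(δ / 2) * |noise (j + 1) ξ (2 * i, w)|) := by
    intro ξ
    refine (abs_tanh_sub_le _ _).trans ?_
    rw [dt_succ, steps_succ]
    refine (Finset.single_le_sum (f := fun v => |scheme G θ D δ (noise j ξ) n v -
      scheme G θ D (δ / 2) (noise (j + 1) ξ) (2 * n) v|) (fun _ _ => abs_nonneg _) hv).trans ?_
    refine (scheme_refine hT h0 h1 hδ.le hD (fun k u => noise_add j k u ξ) n).trans ?_
    refine mul_le_mul_of_nonneg_right ?_ (Finset.sum_nonneg fun i _ =>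
      mul_nonneg (by positivity) (Finset.sum_nonneg fun w _ => by positivity))
    calc (1 + δ * N) ^ n ≤ exp (δ * N) ^ n :=
          pow_le_pow_left₀ (by positivity) ((add_comm _ _).trans_le (add_one_le_exp _)) n
      _ = exp (T * N) := by
          rw [← Real.exp_nat_mul, ← mul_assoc, hn, hδdef, steps_mul_dt]
  have hint : ∀ i w, Integrable (fun ξ : Lab V → ℝ => |noise (j + 1) ξ (2 * i, w)|) (gN (Lab V)) :=
    fun i w => (noise_mp (j + 1)).integrable_comp_of_integrable (integrable_abs_coord (2 * i, w))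
  have hval : ∀ i w, ∫ ξ : Lab V → ℝ, |noise (j + 1) ξ (2 * i, w)| ∂gN (Lab V) ≤ 1 := by
    intro i w
    refine le_trans (le_of_eq ?_) (integral_abs_coord_le (ι := ℕ × V) (2 * i, w))
    conv_rhs => rw [← (noise_mp (j + 1)).map_eq, integral_map (noise_mp (j + 1)).measurable.aemeasurable
      (measurable_pi_apply _).abs.aestronglyMeasurable]
  have hterm : ∀ i w, Integrable (fun ξ : Lab V → ℝ =>
      δ / 2 + √(δ / 2) * |noise (j + 1) ξ (2 * i, w)|) (gN (Lab V)) := fun i w =>
    (integrable_const _).add ((hint i w).const_mul _)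
  have hRi : Integrable (fun ξ : Lab V → ℝ => exp (T * N) * ∑ i ∈ range n, δ / 2 * N *
      ∑ w ∈ D, (δ / 2 + √(δ / 2) * |noise (j + 1) ξ (2 * i, w)|)) (gN (Lab V)) :=
    (integrable_finsetSum _ fun i _ =>
      (integrable_finsetSum _ fun w _ => hterm i w).const_mul _).const_mul _
  refine (integral_mono_of_nonneg (ae_of_all _ fun _ => abs_nonneg _) hRi
    (ae_of_all _ hpt)).trans ?_
  rw [integral_const_mul, integral_finsetSum _ (fun i _ =>
    (integrable_finsetSum _ fun w _ => hterm i w).const_mul _)]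
  have hb : ∀ i ∈ range n, ∫ ξ : Lab V → ℝ, δ / 2 * N *
      ∑ w ∈ D, (δ / 2 + √(δ / 2) * |noise (j + 1) ξ (2 * i, w)|) ∂gN (Lab V) ≤
      δ * N ^ 2 * √δ := by
    intro i _
    rw [integral_const_mul, integral_finsetSum _ (fun w _ => hterm i w)]
    have : ∀ w ∈ D, ∫ ξ : Lab V → ℝ, (δ / 2 + √(δ / 2) * |noise (j + 1) ξ (2 * i, w)|)
        ∂gN (Lab V) ≤ 2 * √δ := by
      intro w _
      rw [integral_add (integrable_const _) ((hint i w).const_mul _), integral_const_mul]
      have h2 : √(δ / 2) ≤ √δ := Real.sqrt_le_sqrt (by linarith)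
      have h3 : δ ≤ √δ := (Real.le_sqrt hδ.le hδ.le).2 (by nlinarith [dt_le_one j])
      simp only [integral_const, probReal_univ, smul_eq_mul, one_mul]
      nlinarith [mul_le_mul_of_nonneg_left (hval i w) (Real.sqrt_nonneg (δ / 2))]
    refine (mul_le_mul_of_nonneg_left (Finset.sum_le_sum this) (by positivity)).trans (le_of_eq ?_)
    rw [Finset.sum_const, nsmul_eq_mul, hN]
    ring
  refine (mul_le_mul_of_nonneg_left (Finset.sum_le_sum hb) (exp_pos _).le).trans (le_of_eq ?_)
  rw [Finset.sum_const, Finset.card_range, nsmul_eq_mul, ← mul_assoc (n : ℝ), ← mul_assoc (n : ℝ),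
    hn, hδdef, steps_mul_dt]
  ring

/-- At a fixed volume and time the scheme is Cauchy in the level. -/
theorem refine_cauchy (hT : RTree G d) (h0 : 0 ≤ θ) (h1 : θ < 1) {D : Finset V} (hD : Conn G D)
    (T : ℕ) {v : V} (hv : v ∈ D) {ε : ℝ} (hε : 0 < ε) :
    ∃ j0, ∀ j m, j0 ≤ j → j ≤ m →
      ∫ ξ, |endVal G θ D T j v (noise j ξ) - endVal G θ D T m v (noise m ξ)| ∂gN (Lab V) ≤ ε := by
  set K := exp (T * D.card) * T * (D.card : ℝ) ^ 2 with hK
  have hK0 : 0 ≤ K := by rw [hK]; positivity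
  set q := √(1 / 2 : ℝ) with hq
  have hq1 : q < 1 := by rw [hq, Real.sqrt_lt' one_pos]; norm_num
  have hq0 : 0 ≤ q := Real.sqrt_nonneg _
  have hsd : ∀ j, √(dt j) = q ^ j := fun j => by
    rw [hq, dt]
    induction j with
    | zero => simp
    | succ j ih => rw [pow_succ, Real.sqrt_mul (by positivity), ih, pow_succ]
  have hlim : Tendsto (fun j => K / (1 - q) * q ^ j) atTop (𝓝 0) := by
    simpa using (tendsto_pow_atTop_nhds_zero_of_lt_one hq0 hq1).const_mul (K / (1 - q))
  obtain ⟨j0, hj0⟩ := eventually_atTop.1 (hlim.eventually_le_const hε)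
  refine ⟨j0, fun j m hj hm => le_trans ?_ (hj0 j hj)⟩
  have key : ∫ ξ, |endVal G θ D T j v (noise j ξ) - endVal G θ D T m v (noise m ξ)| ∂gN (Lab V) ≤
      K / (1 - q) * (q ^ j - q ^ m) := by
    induction m, hm using Nat.le_induction with
    | base => simp
    | succ m _ ih =>
      have hi : ∀ a b, Integrable (fun ξ : Lab V → ℝ =>
          |endVal G θ D T a v (noise a ξ) - endVal G θ D T b v (noise b ξ)|) (gN (Lab V)) :=
        fun a b => integrable_of_bdd (((measurable_endVal D T a v).comp (noise_mp a).measurable).sub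
          ((measurable_endVal D T b v).comp (noise_mp b).measurable)).abs (B := 2) fun ξ => by
            rw [abs_abs]
            have e1 := abs_endVal (G := G) (θ := θ) D T a v (noise a ξ)
            have e2 := abs_endVal (G := G) (θ := θ) D T b v (noise b ξ)
            exact (abs_sub _ _).trans (by linarith)
      refine le_trans (integral_mono (hi _ _) ((hi j m).add (hi m (m + 1))) fun ξ =>
        abs_sub_le _ _ _) ?_
      rw [Pi.add_def, integral_add (hi _ _) (hi _ _)]
      refine (add_le_add ih (refine_step hT h0 h1 hD T m hv)).trans (le_of_eq ?_)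
      rw [← hK, hsd, pow_succ]
      have : 1 - q ≠ 0 := by linarith
      field_simp
      ring
  refine key.trans (mul_le_mul_of_nonneg_left ?_ (div_nonneg hK0 (by linarith)))
  linarith [pow_nonneg hq0 m]

/-! ## Changing the time -/

theorem time_compare (hT : RTree G d) (h0 : 0 ≤ θ) (h1 : θ < 1) {D : Finset V} (hD : Conn G D)
    {v : V} (hv : v ∈ D) {T T' : ℕ} (hTT : T ≤ T') {j : ℕ}
    (hs : 4 * (D.card : ℝ) * dt j ≤ 1 ∧ 16 * (D.card : ℝ) ^ 2 * T' * dt j ≤ 1) :
    ∫ z, |endVal G θ D T j v z - endVal G θ D T' j v z| ∂gN (ℕ × V) ≤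
      exp (-((T : ℝ) / 2)) + exp (-((T' : ℝ) / 2)) + 2 * err D T' j := by
  set δ := dt j with hδdef
  have hδ : 0 ≤ δ := (dt_pos j).le
  set n := steps T j with hn
  set n' := steps T' j with hn'
  have hnn : n ≤ n' := steps_mono hTT j
  set t := fun k (x : ℕ × V → ℝ) => Real.tanh (fieldOf D δ x k v) with ht
  have htm : ∀ k, Measurable (t k) := fun k =>
    measurable_tanh'.comp ((measurable_pi_apply v).comp (measurable_fieldOf D δ k))
  set F := fun x => |t n x - t n' x| with hF
  have hFm : Measurable F := ((htm n).sub (htm n')).abs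
  have hFB : ∀ x, |F x| ≤ 2 := fun x => by
    rw [hF, abs_abs]
    have e1 := abs_tanh_le (fieldOf D δ x n v)
    have e2 := abs_tanh_le (fieldOf D δ x n' v)
    exact (abs_sub _ _).trans (by simp only [ht] at *; linarith)
  have hz : ∀ z, |endVal G θ D T j v z - endVal G θ D T' j v z| = F (xmap G θ D δ n' z) := by
    intro z
    simp only [hF, ht, endVal, ← hδdef, ← hn, ← hn', scheme_eq hδ D z hnn,
      scheme_eq hδ D z (le_refl n')]
  simp only [hz]
  have h2 := (abs_le.1 (transfer_le hT h0 h1 hD (le_refl n') hs hFm hFB)).2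
  set m := fun k (x : ℕ × V → ℝ) => mag G θ D (fieldOf D δ x k) v with hm
  have hmb : ∀ k x, |m k x| ≤ 1 := fun k x => abs_mag_le h0 h1 D _ v
  have hmm : ∀ k, Measurable (m k) := fun k => measurable_magField D δ k v
  have hLi : ∀ k, Integrable (lDens G θ D δ k) (gN (ℕ × V)) := fun k => integrable_post D δ k _
  have hprod : ∀ k k', Integrable (fun x => lDens G θ D δ k' x * (1 - m k' x * t k x))
      (gN (ℕ × V)) := by
    intro k k'
    refine (integrable_bdd_post D δ k' (fun _ => 1) (((hmm k').mul (htm k)).const_sub 1)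
      (B := 2) fun x => ?_).congr (ae_of_all _ fun x => mul_comm _ _)
    refine (abs_sub _ _).trans ?_
    rw [abs_one, Pi.mul_apply, abs_mul]
    linarith [mul_le_one₀ (hmb k' x) (abs_nonneg _) (abs_tanh_le (fieldOf D δ x k v))]
  have hpt : ∀ x, F x * lDens G θ D δ n' x ≤
      lDens G θ D δ n' x * (1 - m n' x * t n x) + lDens G θ D δ n' x * (1 - m n' x * t n' x) := by
    intro x
    rw [mul_comm (F x), ← mul_add]
    refine mul_le_mul_of_nonneg_left ?_ (lDens_pos h0 h1 D δ n' x).le
    have a1 := abs_le.1 (hmb n' x)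
    have a2 := abs_le.1 (abs_tanh_le (fieldOf D δ x n v))
    have a3 := abs_le.1 (abs_tanh_le (fieldOf D δ x n' v))
    simp only [hF, ht]
    rw [abs_le]
    constructor <;> nlinarith
  have key : ∫ x, lDens G θ D δ n' x * (1 - m n' x * t n x) ∂gN (ℕ × V) =
      ∫ x, lDens G θ D δ n x * (1 - m n x * t n x) ∂gN (ℕ × V) := by
    have tdep : DependsOn (t n) (coords D n : Set (ℕ × V)) := fun x y h => by
      simp only [ht, fieldOf_congr (δ := δ) h]
    have hf : ∀ A : Finset V, 1 * sp (A ∩ D) v = 1 * sp A v := fun A => by simp [sp, hv]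
    have e := int_out hT h0 h1 hδ hD hD subset_rfl hnn (f := fun A => 1 * sp A v) hf
      (g := t n) (htm n) (B := 1) (fun x => abs_tanh_le _) tdep
    simp only [one_mul, post_eq_avg h0 h1 _ _ _ (fun A => sp A v), ← mag.eq_def] at e
    have i : ∀ k, Integrable (fun x => t n x * (lDens G θ D δ k x * m k x)) (gN (ℕ × V)) :=
      fun k => (integrable_bdd_post D δ k _ ((htm n).mul (hmm k)) (B := 1) fun x => by
        rw [Pi.mul_apply, abs_mul]; exact mul_le_one₀ (abs_tanh_le _) (abs_nonneg _) (hmb k x)).congr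
          (ae_of_all _ fun x => by simp only [lDens, Pi.mul_apply]; ring)
    have e2 : ∀ k x, lDens G θ D δ k x * (1 - m k x * t n x) =
        lDens G θ D δ k x - t n x * (lDens G θ D δ k x * m k x) := fun k x => by ring
    simp only [e2]
    rw [integral_sub (hLi n') (i n'), integral_sub (hLi n) (i n),
      integral_lDens hT h0 h1 hδ hD, integral_lDens hT h0 h1 hδ hD]
    simp only [hm]
    rw [e]
  have h3 : ∫ x, F x * lDens G θ D δ n' x ∂gN (ℕ × V) ≤
      exp (-((T : ℝ) / 2)) + exp (-((T' : ℝ) / 2)) := by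
    refine (integral_mono (integrable_bdd_post D δ n' _ hFm hFB)
      ((hprod n n').add (hprod n' n')) hpt).trans ?_
    rw [Pi.add_def, integral_add (hprod n n') (hprod n' n'), key, ← steps_mul_dt T j,
      ← steps_mul_dt T' j]
    exact add_le_add (tanh_approx hT h0 h1 hδ hD hv n) (tanh_approx hT h0 h1 hδ hD hv n')
  linarith

/-! ## Changing the volume -/

/-- The noise recovered from the observed increments by the scheme in volume `D`. -/
def back (G : SimpleGraph V) (θ : ℝ) (D : Finset V) (δ : ℝ) (x : ℕ × V → ℝ) : ℕ × V → ℝ :=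
  fun p => if p.2 ∈ D then x p - √δ * mag G θ D (fieldOf D δ x p.1) p.2 else x p

theorem measurable_back (D : Finset V) (δ : ℝ) : Measurable (back G θ D δ) := by
  refine measurable_pi_lambda _ fun p => ?_
  simp only [back]
  split_ifs
  · exact (measurable_pi_apply p).sub (measurable_const.mul (measurable_magField D δ p.1 p.2))
  · exact measurable_pi_apply p

theorem scheme_back (hδ : 0 ≤ δ) (D : Finset V) (x : ℕ × V → ℝ) (k : ℕ) :
    scheme G θ D δ (back G θ D δ x) k = fieldOf D δ x k := by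
  induction k with
  | zero => funext v; simp [scheme, fieldOf]
  | succ k ih =>
    funext v
    simp only [scheme, ih]
    by_cases hv : v ∈ D
    · rw [if_pos hv, back, if_pos hv]
      simp only [show fieldOf D δ x k v = √δ * ∑ j ∈ range k, x (j, v) from if_pos hv,
        show fieldOf D δ x (k + 1) v = √δ * ∑ j ∈ range (k + 1), x (j, v) from if_pos hv]
      rw [Finset.sum_range_succ, mul_add]
      have hs := Real.mul_self_sqrt hδ
      linear_combination (-(mag G θ D (fieldOf D δ x k) v)) * hs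
    · simp [fieldOf, hv]

theorem back_xmap (hδ : 0 ≤ δ) (D : Finset V) (z : ℕ × V → ℝ) {n : ℕ} {p : ℕ × V}
    (hp : p ∈ coords D n) : back G θ D δ (xmap G θ D δ n z) p = z p := by
  rw [mem_coords] at hp
  rw [back, if_pos hp.2, ← scheme_eq hδ D z (k := p.1) (n := n) (by omega), xmap, if_pos hp]
  ring

theorem back_congr {D : Finset V} {n : ℕ} {x y : ℕ × V → ℝ}
    (h : ∀ p ∈ coords D n, x p = y p) {p : ℕ × V} (hp : p ∈ coords D n) :
    back G θ D δ x p = back G θ D δ y p := by
  have hp' := mem_coords.1 hp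
  simp only [back, if_pos hp'.2]
  rw [fieldOf_congr fun q hq => h q (mem_coords.2
    ⟨by have := (mem_coords.1 hq).1; omega, (mem_coords.1 hq).2⟩), h p hp]

theorem tail_sum_le (hT : RTree G d) (v : V) {a b : ℝ} (ha : 0 ≤ a) (hab : a < b)
    (hb : ((d : ℝ) - 1) * b ^ 2 < 1) (D : Finset V) (r : ℕ) :
    ∑ w ∈ D.filter (fun w => w ∉ ball G v r), (a ^ G.dist v w) ^ 2 ≤
      2 / (1 - ((d : ℝ) - 1) * b ^ 2) * ((a / b) ^ 2) ^ r := by
  have hb0 : 0 < b := ha.trans_lt hab
  have hr : 0 ≤ (a / b) ^ 2 := sq_nonneg _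
  have hr1 : (a / b) ^ 2 ≤ 1 := pow_le_one₀ (div_nonneg ha hb0.le) ((div_le_one hb0).2 hab.le)
  calc ∑ w ∈ D.filter (fun w => w ∉ ball G v r), (a ^ G.dist v w) ^ 2
      ≤ ∑ w ∈ D.filter (fun w => w ∉ ball G v r), ((a / b) ^ 2) ^ r * (b ^ 2) ^ G.dist v w := by
        refine Finset.sum_le_sum fun w hw => ?_
        rw [Finset.mem_filter, mem_ball hT] at hw
        have e : (a ^ G.dist v w) ^ 2 = ((a / b) ^ 2) ^ G.dist v w * (b ^ 2) ^ G.dist v w := by
          rw [← mul_pow, ← mul_pow, div_mul_cancel₀ _ hb0.ne', ← pow_mul, ← pow_mul]; ring_nf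
        rw [e]
        exact mul_le_mul_of_nonneg_right (pow_le_pow_of_le_one hr hr1 (by omega)) (by positivity)
    _ ≤ _ := by
        rw [← Finset.mul_sum, mul_comm]
        exact mul_le_mul_of_nonneg_right (sum_pow_dist_le hT v (sq_nonneg b) hb _) (pow_nonneg hr r)

/-- Standing assumptions: `θ` is below the threshold, with room `θ < a < b`. -/
structure Params (d : ℕ) (θ a b : ℝ) : Prop where
  θ0 : 0 ≤ θ
  θa : θ < a
  ab : a < b
  sub : ((d : ℝ) - 1) * b ^ 2 < 1

theorem Params.θ1 {a b : ℝ} (hP : Params d θ a b) (hT : RTree G d) : θ < 1 := by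
  have hd : (3 : ℝ) ≤ d := by exact_mod_cast hT.three
  by_contra h
  have : 1 ≤ b := by linarith [hP.θa, hP.ab]
  nlinarith [hP.sub, one_le_pow₀ (n := 2) this]

theorem endVal_lip {a b : ℝ} (hT : RTree G d) (hP : Params d θ a b) {D : Finset V} (hD : Conn G D)
    {T j : ℕ} {v : V} (hv : v ∈ D) (z z' : ℕ × V → ℝ) :
    |endVal G θ D T j v z - endVal G θ D T j v z'| ≤
      exp (T * (2 / (1 - ((d : ℝ) - 1) * (a * θ)) * a / (a - θ))) * √(dt j) *
        ∑ p ∈ coords D (steps T j), a ^ G.dist v p.2 * |z p - z' p| := by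
  set C := 2 / (1 - ((d : ℝ) - 1) * (a * θ)) * a / (a - θ) with hC
  have hd : (3 : ℝ) ≤ d := by exact_mod_cast hT.three
  have ha : 0 ≤ a := hP.θ0.trans hP.θa.le
  have haθ : ((d : ℝ) - 1) * (a * θ) < 1 := by
    have h1 : a * θ ≤ b ^ 2 := by
      rw [sq]
      exact mul_le_mul hP.ab.le (hP.θa.trans hP.ab).le hP.θ0 (ha.trans hP.ab.le)
    nlinarith [hP.sub]
  have hC0 : 0 ≤ C := by
    have := hP.θa
    rw [hC]
    exact div_nonneg (mul_nonneg (div_nonneg (by norm_num) (by linarith)) ha) (by linarith)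
  refine (abs_tanh_sub_le _ _).trans ((scheme_lip hT hP.θ0 (hP.θ1 hT) (dt_pos j).le hD ha hC0
    (fun v w => ?_) z z' _ v hv).trans ?_)
  · calc ∑ u ∈ D, θ ^ G.dist v u * a ^ G.dist u w = ∑ u ∈ D, a ^ G.dist w u * θ ^ G.dist u v :=
          Finset.sum_congr rfl fun u _ => by
            rw [SimpleGraph.dist_comm (u := u) (v := v), SimpleGraph.dist_comm (u := w)]; ring
      _ ≤ C * a ^ G.dist w v := sum_conv_le hT hP.θ0 hP.θa haθ D w v
      _ = C * a ^ G.dist v w := by rw [SimpleGraph.dist_comm]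
  · refine mul_le_mul_of_nonneg_right (mul_le_mul_of_nonneg_right ?_ (Real.sqrt_nonneg _))
      (Finset.sum_nonneg fun p _ => mul_nonneg (pow_nonneg ha _) (abs_nonneg _))
    calc (1 + dt j * C) ^ steps T j ≤ exp (dt j * C) ^ steps T j :=
          pow_le_pow_left₀ (by have := dt_pos j; positivity)
            ((add_comm _ _).trans_le (add_one_le_exp _)) _
      _ = exp (T * C) := by rw [← Real.exp_nat_mul, ← mul_assoc, steps_mul_dt]

theorem endVal_dep (D : Finset V) (T j : ℕ) (v : V) :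
    DependsOn (endVal G θ D T j v) (coords D (steps T j) : Set (ℕ × V)) := fun x y h => by
  simp only [endVal, scheme_congr h]

/-- The scheme is well approximated by functions of the noise in a ball. -/
theorem smoothing {a b : ℝ} (hT : RTree G d) (hP : Params d θ a b) {D : Finset V} (hD : Conn G D)
    {T j : ℕ} {v : V} (hv : v ∈ D) (r : ℕ) {c : ℝ} (hc : 0 < c) :
    ∫ z, |endVal G θ D T j v z - resamp (coords D (steps T j) \ coords (ball G v r) (steps T j))
        (endVal G θ D T j v) z| ∂gN (ℕ × V) ≤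
      (exp (T * (2 / (1 - ((d : ℝ) - 1) * (a * θ)) * a / (a - θ))) ^ 2 * T *
        (2 / (1 - ((d : ℝ) - 1) * b ^ 2) * ((a / b) ^ 2) ^ r)) / (2 * c) + c / 2 := by
  set E := exp (T * (2 / (1 - ((d : ℝ) - 1) * (a * θ)) * a / (a - θ))) with hE
  set n := steps T j with hn
  set S := coords D n \ coords (ball G v r) n with hS
  set f := endVal G θ D T j v with hf
  have hfm : Measurable f := measurable_endVal D T j v
  have hB : ∀ x, |f x| ≤ 1 := abs_endVal D T j v
  refine (integral_abs_le (B := 2) (hfm.sub (measurable_resamp S hfm)) (fun x => ?_) hc).trans ?_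
  · refine (abs_sub _ _).trans ?_
    linarith [hB x, abs_resamp_le S hB x]
  refine add_le_add (div_le_div_of_nonneg_right ?_ (by positivity)) le_rfl
  refine (integral_sq_sub_resamp_le S hfm hB (L := fun p => E * √(dt j) * a ^ G.dist v p.2) ?_).trans ?_
  · intro i hi z x y
    refine (endVal_lip hT hP hD hv _ _).trans (le_of_eq ?_)
    have hi' : i ∈ coords D (steps T j) := (Finset.mem_sdiff.1 hi).1
    rw [Finset.sum_eq_single i (fun p _ hp => by simp [hp]) (fun h => absurd hi' h)]
    simp only [Function.update_self]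
    ring
  · have hsub : S ⊆ (range n) ×ˢ D.filter (fun w => w ∉ ball G v r) := by
      intro p hp
      simp only [hS, Finset.mem_sdiff, mem_coords, not_and] at hp
      simp only [Finset.mem_product, Finset.mem_range, Finset.mem_filter]
      exact ⟨hp.1.1, hp.1.2, hp.2 hp.1.1⟩
    refine (Finset.sum_le_sum_of_subset_of_nonneg hsub fun p _ _ => sq_nonneg _).trans ?_
    rw [Finset.sum_product]
    simp only [mul_pow, ← Finset.mul_sum, Finset.sum_const, Finset.card_range, nsmul_eq_mul,
      Real.sq_sqrt (dt_pos j).le]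
    have := tail_sum_le hT v (hP.θ0.trans hP.θa.le) hP.ab hP.sub D r
    calc E ^ 2 * dt j * ((n : ℝ) * ∑ w ∈ D.filter (fun w => w ∉ ball G v r), (a ^ G.dist v w) ^ 2)
        = E ^ 2 * ((n : ℝ) * dt j) * ∑ w ∈ D.filter (fun w => w ∉ ball G v r),
            (a ^ G.dist v w) ^ 2 := by ring
      _ ≤ E ^ 2 * T * (2 / (1 - ((d : ℝ) - 1) * b ^ 2) * ((a / b) ^ 2) ^ r) := by
        rw [hn, steps_mul_dt]
        exact mul_le_mul_of_nonneg_left this (by positivity)

theorem space_bound {a b : ℝ} (hT : RTree G d) (hP : Params d θ a b) {D D' : Finset V}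
    (hD : Conn G D) (hD' : Conn G D') (hsub : D ⊆ D') {T j : ℕ} {v : V} (r : ℕ)
    (hball : ball G v r ⊆ D) {c c' : ℝ} (hc : 0 < c) (hc' : 0 < c')
    (hs : 4 * (D'.card : ℝ) * dt j ≤ 1 ∧ 16 * (D'.card : ℝ) ^ 2 * T * dt j ≤ 1) :
    ∫ z, |endVal G θ D' T j v z - endVal G θ D T j v z| ∂gN (ℕ × V) ≤
      2 * ((exp (T * (2 / (1 - ((d : ℝ) - 1) * (a * θ)) * a / (a - θ))) ^ 2 * T *
        (2 / (1 - ((d : ℝ) - 1) * b ^ 2) * ((a / b) ^ 2) ^ r)) / (2 * c) + c / 2) +
      2 * (err D' T j + err D T j) +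
      exp (T * (2 / (1 - ((d : ℝ) - 1) * (a * θ)) * a / (a - θ))) * ∑ w ∈ ball G v r,
        ((qSum G θ D' T j w - qSum G θ D T j w + 4 * T * err D' T j) / (2 * c') + T * c' / 2) := by
  set E := exp (T * (2 / (1 - ((d : ℝ) - 1) * (a * θ)) * a / (a - θ))) with hE
  have hθ1 := hP.θ1 hT
  have ha : 0 ≤ a := hP.θ0.trans hP.θa.le
  have ha1 : a ≤ 1 := by
    have hd : (3 : ℝ) ≤ d := by exact_mod_cast hT.three
    by_contra h
    have : 1 ≤ b := by linarith [hP.ab]
    nlinarith [hP.sub, one_le_pow₀ (n := 2) this]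
  have hv : v ∈ D := hball (self_mem_ball hT v r)
  set δ := dt j with hδdef
  have hδ : 0 ≤ δ := (dt_pos j).le
  set n := steps T j with hn
  set S := coords D n \ coords (ball G v r) n with hS
  set f := endVal G θ D T j v with hf
  set g := resamp S f with hg
  set x' := xmap G θ D' δ n with hx'
  set zt := fun z => back G θ D δ (x' z) with hzt
  have hfm : Measurable f := measurable_endVal D T j v
  have hgm : Measurable g := measurable_resamp S hfm
  have hfB : ∀ x, |f x| ≤ 1 := abs_endVal D T j v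
  have hgB : ∀ x, |g x| ≤ 1 := abs_resamp_le S hfB
  have hztm : Measurable zt := (measurable_back D δ).comp (measurable_xmap D' δ n)
  have hkey : ∀ z, endVal G θ D' T j v z = f (zt z) := by
    intro z
    simp only [hf, endVal, hzt, hx', ← hδdef, ← hn, scheme_back hδ D, scheme_eq hδ D' z (le_refl n)]
    simp [fieldOf, hv, hsub hv]
  set F := fun x => |f (back G θ D δ x) - g (back G θ D δ x)| with hF
  have hFm : Measurable F := ((hfm.comp (measurable_back D δ)).sub (hgm.comp (measurable_back D δ))).abs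
  have hFB : ∀ x, |F x| ≤ 2 := fun x => by
    rw [hF, abs_abs]; exact (abs_sub _ _).trans (by linarith [hfB (back G θ D δ x), hgB (back G θ D δ x)])
  have hfdep : DependsOn f (coords D n : Set (ℕ × V)) := endVal_dep D T j v
  have hgdep : DependsOn g (coords D n : Set (ℕ × V)) :=
    (dependsOn_resamp S hfdep).mono fun p hp => hp.1
  have hFdep : DependsOn F (coords D n : Set (ℕ × V)) := fun x y h => by
    simp only [hF]
    rw [hfdep fun p hp => back_congr h hp, hgdep fun p hp => back_congr h hp]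
  have hs' : 4 * (D.card : ℝ) * dt j ≤ 1 ∧ 16 * (D.card : ℝ) ^ 2 * T * dt j ≤ 1 := by
    have hc : (D.card : ℝ) ≤ D'.card := by exact_mod_cast Finset.card_le_card hsub
    have := dt_pos j
    constructor
    · refine le_trans ?_ hs.1; gcongr
    · refine le_trans ?_ hs.2; gcongr
  have hsm := smoothing hT hP hD (T := T) (j := j) hv r hc
  rw [← hE, ← hn, ← hS, ← hf, ← hg] at hsm
  set Sm := E ^ 2 * T * (2 / (1 - ((d : ℝ) - 1) * b ^ 2) * ((a / b) ^ 2) ^ r) / (2 * c) + c / 2
  -- the part where the noise is replaced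
  have I1 : ∫ z, |f (zt z) - g (zt z)| ∂gN (ℕ × V) ≤ Sm + 2 * err D' T j + 2 * err D T j := by
    have e1 := (abs_le.1 (transfer_le hT hP.θ0 hθ1 hD' (le_refl n) hs hFm hFB)).2
    have e2 : ∫ x, F x * lDens G θ D' δ n x ∂gN (ℕ × V) = ∫ x, F x * lDens G θ D δ n x ∂gN (ℕ × V) :=
      int_out hT hP.θ0 hθ1 hδ hD hD' hsub le_rfl (f := fun _ => 1) (fun _ => rfl) hFm hFB hFdep
    have e3 := (abs_le.1 (transfer_le hT hP.θ0 hθ1 hD (le_refl n) hs' hFm hFB)).1
    have e4 : ∀ z, F (xmap G θ D δ n z) = |f z - g z| := fun z => by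
      simp only [hF]
      rw [hfdep fun p hp => back_xmap hδ D z hp, hgdep fun p hp => back_xmap hδ D z hp]
    simp only [← hδdef, e4] at e1 e3
    have e5 : (fun z => |f (zt z) - g (zt z)|) = fun z => F (xmap G θ D' δ n z) := rfl
    rw [e5]
    linarith
  -- the part where the function of the ball is compared
  set Δ := fun (p : ℕ × V) (z : ℕ × V → ℝ) =>
    mag G θ D' (fieldOf D' δ (x' z) p.1) p.2 - mag G θ D (fieldOf D δ (x' z) p.1) p.2 with hΔ
  have hΔm : ∀ p, Measurable (Δ p) := fun p =>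
    ((measurable_magField D' δ p.1 p.2).sub (measurable_magField D δ p.1 p.2)).comp
      (measurable_xmap D' δ n)
  have hΔB : ∀ p z, |Δ p z| ≤ 2 := fun p z => by
    have e1 := abs_mag_le (G := G) hP.θ0 hθ1 D' (fieldOf D' δ (x' z) p.1) p.2
    have e2 := abs_mag_le (G := G) hP.θ0 hθ1 D (fieldOf D δ (x' z) p.1) p.2
    exact (abs_sub _ _).trans (by linarith)
  have hpt : ∀ z, |g (zt z) - g z| ≤ E * δ * ∑ p ∈ coords (ball G v r) n, |Δ p z| := by
    intro z
    simp only [hg, resamp]
    have hii : ∀ y, Integrable (fun z' => f (splice S (y, z'))) (gN (ℕ × V)) := fun y =>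
      integrable_of_bdd (hfm.comp ((measurable_splice S).comp measurable_prodMk_left))
        (fun _ => hfB _)
    rw [← integral_sub (hii _) (hii _), ← Real.norm_eq_abs]
    refine (norm_integral_le_of_norm_le_const (ae_of_all _ fun z' => ?_)).trans
      (le_of_eq (by rw [probReal_univ, mul_one]))
    rw [Real.norm_eq_abs]
    refine (endVal_lip hT hP hD hv _ _).trans ?_
    rw [← hE, ← hn, mul_assoc E, mul_assoc E]
    refine mul_le_mul_of_nonneg_left ?_ (exp_pos _).le
    rw [Finset.mul_sum, Finset.mul_sum, ← Finset.sum_subset (s₁ := coords (ball G v r) n) (fun p hp => ?_)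
      (fun p hp hnp => ?_)]
    · refine Finset.sum_le_sum fun p hp => ?_
      have hp' := mem_coords.1 hp
      have hnS : p ∉ S := fun h => (Finset.mem_sdiff.1 h).2 hp
      have hpD : p.2 ∈ D := hball hp'.2
      have e : zt z p - z p = √δ * Δ p z := by
        simp only [hzt, back, if_pos hpD, hΔ]
        rw [show x' z p = z p + √δ * mag G θ D' (fieldOf D' δ (x' z) p.1) p.2 by
          simp only [hx']
          rw [← scheme_eq hδ D' z (k := p.1) (n := n) (by omega), xmap, if_pos ⟨hp'.1, hsub hpD⟩]]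
        ring
      have e' : splice S (zt z, z') p - splice S (z, z') p = √δ * Δ p z := by
        simp only [splice, if_neg hnS]; exact e
      rw [e', abs_mul, abs_of_nonneg (Real.sqrt_nonneg _)]
      calc √δ * (a ^ G.dist v p.2 * (√δ * |Δ p z|)) = (a ^ G.dist v p.2) * (δ * |Δ p z|) := by
            linear_combination (a ^ G.dist v p.2 * |Δ p z|) * Real.mul_self_sqrt hδ
        _ ≤ δ * |Δ p z| :=
            mul_le_of_le_one_left (mul_nonneg hδ (abs_nonneg _)) (pow_le_one₀ ha ha1)
    · exact mem_coords.2 ⟨(mem_coords.1 hp).1, hball (mem_coords.1 hp).2⟩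
    · have : p ∈ S := Finset.mem_sdiff.2 ⟨hp, hnp⟩
      simp [splice, this]
  have hΔi : ∀ p, Integrable (fun z => |Δ p z|) (gN (ℕ × V)) := fun p =>
    (integrable_of_bdd (hΔm p) (hΔB p)).abs
  have hsum : ∀ p ∈ coords (ball G v r) n, ∫ z, |Δ p z| ∂gN (ℕ × V) ≤
      (qv G θ D' δ p.1 p.2 - qv G θ D δ p.1 p.2 + 4 * err D' T j) / (2 * c') + c' / 2 := by
    intro p hp
    obtain ⟨hp1, hp2⟩ := mem_coords.1 hp
    refine (integral_abs_le (hΔm p) (hΔB p) hc').trans
      (add_le_add (div_le_div_of_nonneg_right ?_ (by positivity)) le_rfl)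
    have hw : p.2 ∈ D := hball hp2
    set H := fun x : ℕ × V → ℝ =>
      (mag G θ D' (fieldOf D' δ x p.1) p.2 - mag G θ D (fieldOf D δ x p.1) p.2) ^ 2 with hH
    have hHm : Measurable H :=
      ((measurable_magField D' δ p.1 p.2).sub (measurable_magField D δ p.1 p.2)).pow_const 2
    have hHB : ∀ x, |H x| ≤ 4 := fun x => by
      rw [hH, abs_pow]
      have := (abs_sub (mag G θ D' (fieldOf D' δ x p.1) p.2) (mag G θ D (fieldOf D δ x p.1) p.2)).trans
        (add_le_add (abs_mag_le hP.θ0 hθ1 _ _ _) (abs_mag_le hP.θ0 hθ1 _ _ _))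
      calc _ ≤ ((1 : ℝ) + 1) ^ 2 := pow_le_pow_left₀ (abs_nonneg _) this 2
        _ = 4 := by norm_num
    have e := (abs_le.1 (transfer_le hT hP.θ0 hθ1 hD' (le_refl n) hs hHm hHB)).2
    have e2 : ∫ x, H x * lDens G θ D' δ n x ∂gN (ℕ × V) =
        qv G θ D' δ p.1 p.2 - qv G θ D δ p.1 p.2 := by
      rw [← gap_eq hT hP.θ0 hθ1 hδ hD hD' hsub (le_refl p.1) hw]
      have hdep : DependsOn H (coords D' p.1 : Set (ℕ × V)) := fun x y h => by
        simp only [hH]
        rw [fieldOf_congr (δ := δ) h, fieldOf_congr (δ := δ) (D := D) fun q hq =>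
          h q (mem_coords.2 ⟨(mem_coords.1 hq).1, hsub (mem_coords.1 hq).2⟩)]
      have := int_out hT hP.θ0 hθ1 hδ hD' hD' subset_rfl hp1.le (f := fun _ => 1) (fun _ => rfl)
        hHm hHB hdep
      simp only [lDens]
      rw [this]
      exact integral_congr_ae (ae_of_all _ fun x => by simp only [hH, lDens]; ring)
    have e3 : (fun z => Δ p z ^ 2) = fun z => H (xmap G θ D' δ n z) := rfl
    simp only [← hδdef] at e
    rw [e3]
    linarith
  have I2 : ∫ z, |g (zt z) - g z| ∂gN (ℕ × V) ≤ E * ∑ w ∈ ball G v r,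
      ((qSum G θ D' T j w - qSum G θ D T j w + 4 * T * err D' T j) / (2 * c') + T * c' / 2) := by
    refine (integral_mono_of_nonneg (ae_of_all _ fun _ => abs_nonneg _)
      ((integrable_finsetSum _ fun p _ => hΔi p).const_mul _) (ae_of_all _ hpt)).trans ?_
    rw [integral_const_mul, integral_finsetSum _ (fun p _ => hΔi p), mul_assoc]
    refine mul_le_mul_of_nonneg_left ?_ (exp_pos _).le
    refine (mul_le_mul_of_nonneg_left (Finset.sum_le_sum hsum) hδ).trans (le_of_eq ?_)
    simp only [coords, Finset.sum_product, qSum, ← hn, ← hδdef]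
    rw [Finset.sum_comm, Finset.mul_sum]
    refine Finset.sum_congr rfl fun w _ => ?_
    have hnd : (n : ℝ) * δ = T := steps_mul_dt T j
    simp only [Finset.sum_add_distrib, ← Finset.sum_div, Finset.sum_sub_distrib, Finset.sum_const,
      Finset.card_range, nsmul_eq_mul, ← hnd]
    ring
  have hi : Integrable (fun z => |f (zt z) - g (zt z)|) (gN (ℕ × V)) :=
    integrable_of_bdd ((hfm.comp hztm).sub (hgm.comp hztm)).abs (B := 2) fun z => by
      rw [abs_abs]; exact (abs_sub _ _).trans (by linarith [hfB (zt z), hgB (zt z)])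
  have hi2 : Integrable (fun z => |g (zt z) - g z|) (gN (ℕ × V)) :=
    integrable_of_bdd ((hgm.comp hztm).sub hgm).abs (B := 2) fun z => by
      rw [abs_abs]; exact (abs_sub _ _).trans (by linarith [hgB (zt z), hgB z])
  have hi3 : Integrable (fun z => |f z - g z|) (gN (ℕ × V)) :=
    integrable_of_bdd (hfm.sub hgm).abs (B := 2) fun z => by
      rw [abs_abs]; exact (abs_sub _ _).trans (by linarith [hfB z, hgB z])
  calc ∫ z, |endVal G θ D' T j v z - f z| ∂gN (ℕ × V)
      ≤ ∫ z, ((|f (zt z) - g (zt z)| + |g (zt z) - g z|) + |f z - g z|) ∂gN (ℕ × V) := by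
        refine integral_mono_of_nonneg (ae_of_all _ fun _ => abs_nonneg _)
          ((hi.add hi2).add hi3) (ae_of_all _ fun z => ?_)
        show |endVal G θ D' T j v z - f z| ≤ _
        rw [hkey]
        calc |f (zt z) - f z| = |(f (zt z) - g (zt z)) + (g (zt z) - g z) + (-(f z - g z))| := by
              congr 1; ring
          _ ≤ _ := (abs_add_three _ _ _).trans (by rw [abs_neg])
    _ ≤ _ := by
        rw [integral_add (f := fun z => |f (zt z) - g (zt z)| + |g (zt z) - g z|) (hi.add hi2) hi3,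
          integral_add hi hi2]
        linarith

/-- Enlarging a large volume changes little. -/
theorem space_compare {a b : ℝ} (hT : RTree G d) (hP : Params d θ a b) (T : ℕ) (v : V) {ε : ℝ}
    (hε : 0 < ε) : ∃ R0 : ℕ, ∀ D D' : Finset V, Conn G D → Conn G D' → ball G v R0 ⊆ D → D ⊆ D' →
      ∀ᶠ j in atTop, ∫ z, |endVal G θ D' T j v z - endVal G θ D T j v z| ∂gN (ℕ × V) ≤ ε := by
  set E := exp (T * (2 / (1 - ((d : ℝ) - 1) * (a * θ)) * a / (a - θ))) with hE
  set c := ε / 8 with hc
  have hcpos : 0 < c := by positivity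
  have hρ : (a / b) ^ 2 < 1 := by
    have ha := hP.θ0.trans hP.θa.le
    exact pow_lt_one₀ (div_nonneg ha (ha.trans hP.ab.le))
      ((div_lt_one (ha.trans_lt hP.ab)).2 hP.ab) two_ne_zero
  have hlim : Tendsto (fun r : ℕ => (E ^ 2 * T * (2 / (1 - ((d : ℝ) - 1) * b ^ 2) *
      ((a / b) ^ 2) ^ r)) / (2 * c)) atTop (𝓝 0) := by
    simpa using (((tendsto_pow_atTop_nhds_zero_of_lt_one (sq_nonneg _) hρ).const_mul
      (2 / (1 - ((d : ℝ) - 1) * b ^ 2))).const_mul (E ^ 2 * T)).div_const (2 * c)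
  obtain ⟨r, hr⟩ := (hlim.eventually_le_const hcpos).exists
  set B := ball G v r with hB
  set K : ℝ := E * (B.card : ℝ) * (T + 1) with hK
  have hKpos : 0 < K := by
    have : 0 < B.card := Finset.card_pos.2 ⟨v, self_mem_ball hT v r⟩
    have : (0 : ℝ) < B.card := by exact_mod_cast this
    positivity
  set c' := ε / (4 * K) with hc'
  have hc'pos : 0 < c' := by positivity
  set η := c' * ε / (4 * K) with hη
  have hηpos : 0 < η := by positivity
  choose D0 j0 hsat using fun w : V => qSum_saturates hT hP.θ0 (hP.θ1 hT) T w hηpos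
  obtain ⟨R0, hR0⟩ := exists_ball_superset hT v (B.biUnion D0 ∪ B)
  refine ⟨R0, fun D D' hD hD' hRD hDD' => ?_⟩
  have hBD : ball G v r ⊆ D := fun u hu => hRD (hR0 (Finset.mem_union_right _ hu))
  have herr : ∀ᶠ j in atTop, 2 * (err D' T j + err D T j) + K * (4 * err D' T j) / (2 * c') ≤ ε / 4 := by
    have : Tendsto (fun j => 2 * (err D' T j + err D T j) + K * (4 * err D' T j) / (2 * c')) atTop (𝓝 0) := by
      simpa using (((tendsto_err D' T).add (tendsto_err D T)).const_mul 2).add
        ((((tendsto_err D' T).const_mul 4).const_mul K).div_const (2 * c'))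
    exact this.eventually_le_const (by positivity)
  filter_upwards [herr, eventually_small D' T, eventually_ge_atTop (B.sup j0)] with j hj hs hjj
  refine (space_bound hT hP hD hD' hDD' r hBD hcpos hc'pos hs).trans ?_
  rw [← hE, ← hB]
  have hq : ∀ w ∈ B, (qSum G θ D' T j w - qSum G θ D T j w + 4 * T * err D' T j) / (2 * c') +
      T * c' / 2 ≤ (η + 4 * T * err D' T j) / (2 * c') + T * c' / 2 := by
    intro w hw
    refine add_le_add (div_le_div_of_nonneg_right (add_le_add ?_ le_rfl) (by positivity)) le_rfl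
    refine hsat w D D' hD hD' (fun u hu => hRD (hR0 (Finset.mem_union_left _
      (Finset.mem_biUnion.2 ⟨w, hw, hu⟩)))) hDD' j ?_
    exact le_trans (Finset.le_sup hw) hjj
  have hsum := mul_le_mul_of_nonneg_left (Finset.sum_le_sum hq) (exp_pos _ : 0 < E).le
  rw [Finset.sum_const, nsmul_eq_mul] at hsum
  have hE0 : 0 < E := exp_pos _
  have he := err_nonneg (V := V) D' T j
  have hT0 : (0 : ℝ) ≤ T := Nat.cast_nonneg T
  have hN0 : (0 : ℝ) ≤ B.card := Nat.cast_nonneg _
  have b1 : E * (B.card : ℝ) * η / (2 * c') ≤ ε / 8 := by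
    have h2 : K * η / (2 * c') = ε / 8 := by rw [hη]; field_simp; ring
    rw [← h2]
    refine div_le_div_of_nonneg_right (mul_le_mul_of_nonneg_right ?_ hηpos.le) (by positivity)
    rw [hK]; exact le_mul_of_one_le_right (by positivity) (by linarith)
  have b2 : E * (B.card : ℝ) * (4 * T * err D' T j) / (2 * c') ≤ K * (4 * err D' T j) / (2 * c') := by
    refine div_le_div_of_nonneg_right ?_ (by positivity)
    rw [hK]; nlinarith [mul_nonneg (mul_nonneg hE0.le hN0) he]
  have b3 : E * (B.card : ℝ) * (T * c' / 2) ≤ ε / 8 := by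
    have h2 : K * c' / 2 = ε / 8 := by rw [hc']; field_simp; ring
    rw [← h2, hK]; nlinarith [mul_nonneg (mul_nonneg hE0.le hN0) hc'pos.le]
  have e : E * ((B.card : ℝ) * ((η + 4 * T * err D' T j) / (2 * c') + T * c' / 2)) =
      E * (B.card : ℝ) * η / (2 * c') + E * (B.card : ℝ) * (4 * T * err D' T j) / (2 * c') +
        E * (B.card : ℝ) * (T * c' / 2) := by ring
  linarith

/-- The scheme at large times reproduces the law of the free Ising model. -/
theorem law_approx (hT : RTree G d) (h0 : 0 ≤ θ) (h1 : θ < 1) {D : Finset V} (hD : Conn G D)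
    {S : Finset V} (hS : Conn G S) (hSD : S ⊆ D) (s : V → Bool) {T j : ℕ}
    (hs : 4 * (D.card : ℝ) * dt j ≤ 1 ∧ 16 * (D.card : ℝ) ^ 2 * T * dt j ≤ 1) :
    |∫ z, ∏ u ∈ S, (1 + spin (s u) * endVal G θ D T j u z) / 2 ∂gN (ℕ × V) -
        wt G θ S (S.filter (fun u => s u = true))| ≤
      S.card * exp (-((T : ℝ) / 2)) + err D T j := by
  set δ := dt j with hδdef
  have hδ : 0 ≤ δ := (dt_pos j).le
  set n := steps T j with hn
  set t := fun (u : V) (x : ℕ × V → ℝ) => Real.tanh (fieldOf D δ x n u) with ht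
  set P := fun x => ∏ u ∈ S, (1 + spin (s u) * t u x) / 2 with hP
  have htm : ∀ u, Measurable (t u) := fun u =>
    measurable_tanh'.comp ((measurable_pi_apply u).comp (measurable_fieldOf D δ n))
  have hPm : Measurable P := Finset.measurable_prod _ fun u _ =>
    (((htm u).const_mul (spin (s u))).const_add 1).div_const 2
  have hsp : ∀ b : Bool, spin b = 1 ∨ spin b = -1 := fun b => by cases b <;> simp [spin]
  have hfac : ∀ (u : V) (y : ℝ), |y| ≤ 1 →
      0 ≤ (1 + spin (s u) * y) / 2 ∧ (1 + spin (s u) * y) / 2 ≤ 1 := by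
    intro u y hy
    have := abs_le.1 hy
    rcases hsp (s u) with h | h <;> rw [h] <;> constructor <;> linarith
  have hPB : ∀ x, |P x| ≤ 1 := fun x => by
    rw [hP, abs_of_nonneg (Finset.prod_nonneg fun u _ => (hfac u _ (abs_tanh_le _)).1)]
    exact Finset.prod_le_one (fun u _ => (hfac u _ (abs_tanh_le _)).1)
      (fun u _ => (hfac u _ (abs_tanh_le _)).2)
  have hz : ∀ z, ∏ u ∈ S, (1 + spin (s u) * endVal G θ D T j u z) / 2 = P (xmap G θ D δ n z) := by
    intro z
    simp only [hP, ht, endVal, ← hδdef, ← hn, scheme_eq hδ D z (le_refl n)]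
  simp only [hz]
  have e1 := transfer_le hT h0 h1 hD (le_refl n) hs hPm hPB
  rw [one_mul] at e1
  set f := fun A : Finset V => ∏ u ∈ S, (1 + spin (s u) * sp A u) / 2 with hf
  have hfS : ∀ A, f (A ∩ S) = f A := fun A => by
    simp only [hf]; exact Finset.prod_congr rfl fun u hu => by simp [sp, hu]
  have hfD : ∀ A, f (A ∩ D) = f A := fun A => by
    simp only [hf]; exact Finset.prod_congr rfl fun u hu => by simp [sp, hSD hu]
  have hfval : ∀ A ∈ S.powerset, f A = if A = S.filter (fun u => s u = true) then 1 else 0 := by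
    intro A hA
    rw [Finset.mem_powerset] at hA
    split_ifs with h
    · refine Finset.prod_eq_one fun u hu => ?_
      rw [h]
      cases hsu : s u <;> simp [sp, spin, hu, hsu]
    · obtain ⟨u, hu, hne⟩ : ∃ u ∈ S, ¬(u ∈ A ↔ s u = true) := by
        by_contra hall
        push Not at hall
        refine h (Finset.ext fun u => ?_)
        rw [Finset.mem_filter]
        exact ⟨fun hu => ⟨hA hu, (hall u (hA hu)).1 hu⟩, fun ⟨hu, hs⟩ => (hall u hu).2 hs⟩
      refine Finset.prod_eq_zero hu ?_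
      cases hsu : s u <;> simp_all [sp, spin]
  have e2 : ∫ x, post G θ D δ n f x ∂gN (ℕ × V) = wt G θ S (S.filter (fun u => s u = true)) := by
    have e := int_out hT h0 h1 hδ hD hD subset_rfl (Nat.zero_le n) hfD (g := fun _ => 1)
      measurable_const (B := 1) (fun _ => by simp) (fun _ _ _ => rfl)
    simp only [one_mul] at e
    rw [e]
    have hz0 : ∀ x : ℕ × V → ℝ, post G θ D δ 0 f x = num G θ D (fun _ => 0) f := fun x => by
      have : fieldOf D δ x 0 = fun _ => (0 : ℝ) := by funext v; simp [fieldOf]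
      simp [post, this]
    simp only [hz0, integral_const, probReal_univ, one_smul]
    rw [num_zero_marginal hT h0 h1 hS hD hSD hfS, num,
      Finset.sum_congr rfl fun A hA => by rw [hfval A hA]]
    simp [bf]
  have hpt : ∀ x, |P x * lDens G θ D δ n x - post G θ D δ n f x| ≤
      ∑ u ∈ S, lDens G θ D δ n x * (1 - mag G θ D (fieldOf D δ x n) u * t u x) := by
    intro x
    have hrhs : ∀ u, lDens G θ D δ n x * (1 - mag G θ D (fieldOf D δ x n) u * t u x) =
        post G θ D δ n (fun A => 1 - sp A u * t u x) x := by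
      intro u
      rw [mul_sub, mul_one, mag, ← mul_assoc, ← post_eq_avg h0 h1, lDens, post, post, post,
        num, num, num]
      simp only [Finset.mul_sum, Finset.sum_mul, ← Finset.sum_sub_distrib]
      exact Finset.sum_congr rfl fun A _ => by ring
    rw [Finset.sum_congr rfl fun u _ => hrhs u]
    simp only [post_eq_sum, lDens]
    rw [Finset.sum_comm, Finset.mul_sum, ← Finset.sum_sub_distrib]
    refine (Finset.abs_sum_le_sum_abs _ _).trans (Finset.sum_le_sum fun A _ => ?_)
    set W := exp (-(n * δ * D.card / 2)) * wt G θ D A with hW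
    set X := exp (∑ p ∈ coords D n, √δ * sp A p.2 * x p)
    have hW0 : 0 ≤ W := mul_nonneg (exp_pos _).le (wt_pos h0 h1 D A).le
    have hX0 : 0 ≤ X := (exp_pos _).le
    rw [← Finset.sum_mul, ← Finset.mul_sum]
    rw [show P x * (W * 1 * X) - W * f A * X = W * X * (P x - f A) by ring, abs_mul,
      abs_of_nonneg (mul_nonneg hW0 hX0),
      show W * (∑ u ∈ S, (1 - sp A u * t u x)) * X = W * X * ∑ u ∈ S, (1 - sp A u * t u x) by ring]
    refine mul_le_mul_of_nonneg_left ?_ (mul_nonneg hW0 hX0)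
    have hgen : ∀ U : Finset V,
        |∏ u ∈ U, (1 + spin (s u) * t u x) / 2 - ∏ u ∈ U, (1 + spin (s u) * sp A u) / 2| ≤
          ∑ u ∈ U, (1 - sp A u * t u x) := by
      intro U
      induction U using Finset.induction_on with
      | empty => simp
      | @insert w U hw ih =>
        rw [Finset.prod_insert hw, Finset.prod_insert hw, Finset.sum_insert hw]
        set p := ∏ u ∈ U, (1 + spin (s u) * t u x) / 2
        set q := ∏ u ∈ U, (1 + spin (s u) * sp A u) / 2
        set α := (1 + spin (s w) * t w x) / 2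
        set β := (1 + spin (s w) * sp A w) / 2
        have hα := hfac w _ (abs_tanh_le (fieldOf D δ x n w))
        have hp : 0 ≤ p ∧ p ≤ 1 := ⟨Finset.prod_nonneg fun u _ => (hfac u _ (abs_tanh_le _)).1,
          Finset.prod_le_one (fun u _ => (hfac u _ (abs_tanh_le _)).1)
            (fun u _ => (hfac u _ (abs_tanh_le _)).2)⟩
        have hq : 0 ≤ q ∧ q ≤ 1 := ⟨Finset.prod_nonneg fun u _ => (hfac u _ (abs_sp A u).le).1,
          Finset.prod_le_one (fun u _ => (hfac u _ (abs_sp A u).le).1)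
            (fun u _ => (hfac u _ (abs_sp A u).le).2)⟩
        have hd : |α - β| ≤ 1 - sp A w * t w x := by
          have a1 := abs_le.1 (abs_tanh_le (fieldOf D δ x n w))
          simp only [α, β, ht]
          rw [abs_le]
          rcases hsp (s w) with h | h <;> rcases sp_cases A w with h' | h' <;> rw [h, h'] <;>
            constructor <;> nlinarith
        calc |α * p - β * q| = |α * (p - q) + (α - β) * q| := by congr 1; ring
          _ ≤ |α * (p - q)| + |(α - β) * q| := abs_add_le _ _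
          _ ≤ |p - q| + |α - β| := by
              rw [abs_mul, abs_mul]
              exact add_le_add (mul_le_of_le_one_left (abs_nonneg _) (by rw [abs_of_nonneg hα.1]; exact hα.2))
                (mul_le_of_le_one_right (abs_nonneg _) (by rw [abs_of_nonneg hq.1]; exact hq.2))
          _ ≤ _ := by linarith
    exact hgen S
  have i1 : Integrable (fun x => P x * lDens G θ D δ n x) (gN (ℕ × V)) :=
    integrable_bdd_post D δ n _ hPm hPB
  have i2 := integrable_post (G := G) (θ := θ) D δ n f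
  have i3 : ∀ u, Integrable (fun x =>
      lDens G θ D δ n x * (1 - mag G θ D (fieldOf D δ x n) u * t u x)) (gN (ℕ × V)) := fun u =>
    (integrable_bdd_post D δ n _ (((measurable_magField D δ n u).mul (htm u)).const_sub 1) (B := 2)
      fun x => by
        refine (abs_sub _ _).trans ?_
        rw [abs_one, Pi.mul_apply, abs_mul]
        linarith [mul_le_one₀ (abs_mag_le (G := G) h0 h1 D (fieldOf D δ x n) u) (abs_nonneg _)
          (abs_tanh_le (fieldOf D δ x n u))]).congr (ae_of_all _ fun x => mul_comm _ _)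
  have e3 : |∫ x, P x * lDens G θ D δ n x ∂gN (ℕ × V) - ∫ x, post G θ D δ n f x ∂gN (ℕ × V)| ≤
      S.card * exp (-((T : ℝ) / 2)) := by
    rw [← integral_sub i1 i2, ← Real.norm_eq_abs]
    refine (norm_integral_le_of_norm_le (integrable_finsetSum _ fun u _ => i3 u)
      (ae_of_all _ hpt)).trans ?_
    rw [integral_finsetSum _ fun u _ => i3 u]
    refine (Finset.sum_le_sum fun u hu => tanh_approx hT h0 h1 hδ hD (hSD hu) n).trans (le_of_eq ?_)
    rw [Finset.sum_const, nsmul_eq_mul, hn, hδdef, steps_mul_dt]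
  rw [e2] at e3
  simp only [← hδdef, ← hn] at e1
  exact (abs_sub_le _ _ _).trans ((add_le_add e1 e3).trans (le_of_eq (add_comm _ _)))

end Vale.Agent.P161
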