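import Vale.Agent.P161.Compare
import Mathlib.Probability.Kernel.Representation
import Mathlib.MeasureTheory.Constructions.BorelSpace.Order
import Mathlib.MeasureTheory.Constructions.Projective
import Mathlib.MeasureTheory.Measure.Dirac
import Mathlib.Topology.Algebra.InfiniteSum.Real

/-!
# The free Ising model below the reconstruction threshold is a factor of IID
-/

open MeasureTheory Finset Real Filter Topology
open scoped ENNReal Classical

noncomputable section

namespace Vale.Agent.P161

universe u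

variable {V : Type u} {G : SimpleGraph V} {d : ℕ} {θ : ℝ}

theorem countable_vertices (hT : RTree G d) : Countable V := by
  obtain ⟨o⟩ := hT.conn.nonempty
  have : (Set.univ : Set V) ⊆ ⋃ n, (ball G o n : Set V) := fun v _ =>
    Set.mem_iUnion.2 ⟨G.dist o v, Finset.mem_coe.2 ((mem_ball hT).2 le_rfl)⟩
  rw [← Set.countable_univ_iff]
  exact (Set.countable_iUnion fun n => (ball G o n).countable_toSet).mono this

theorem abs_prod_sub_prod_le {ι : Type*} (S : Finset ι) {α β : ι → ℝ}
    (hα : ∀ i, 0 ≤ α i ∧ α i ≤ 1) (hβ : ∀ i, 0 ≤ β i ∧ β i ≤ 1) :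
    |∏ i ∈ S, α i - ∏ i ∈ S, β i| ≤ ∑ i ∈ S, |α i - β i| := by
  induction S using Finset.induction_on with
  | empty => simp
  | @insert w U hw ih =>
    rw [Finset.prod_insert hw, Finset.prod_insert hw, Finset.sum_insert hw]
    have hq0 : 0 ≤ ∏ i ∈ U, β i := Finset.prod_nonneg fun i _ => (hβ i).1
    have hq1 : ∏ i ∈ U, β i ≤ 1 := Finset.prod_le_one (fun i _ => (hβ i).1) (fun i _ => (hβ i).2)
    calc |α w * ∏ i ∈ U, α i - β w * ∏ i ∈ U, β i|
        = |α w * (∏ i ∈ U, α i - ∏ i ∈ U, β i) + (α w - β w) * ∏ i ∈ U, β i| := by congr 1; ring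
      _ ≤ |α w * (∏ i ∈ U, α i - ∏ i ∈ U, β i)| + |(α w - β w) * ∏ i ∈ U, β i| := abs_add_le _ _
      _ ≤ |∏ i ∈ U, α i - ∏ i ∈ U, β i| + |α w - β w| := by
          rw [abs_mul, abs_mul, abs_of_nonneg (hα w).1, abs_of_nonneg hq0]
          exact add_le_add (mul_le_of_le_one_left (abs_nonneg _) (hα w).2)
            (mul_le_of_le_one_right (abs_nonneg _) hq1)
      _ ≤ _ := by linarith

theorem sq_approx (hT : RTree G d) (h0 : 0 ≤ θ) (h1 : θ < 1) {D : Finset V} (hD : Conn G D)
    {v : V} (hv : v ∈ D) {T j : ℕ}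
    (hs : 4 * (D.card : ℝ) * dt j ≤ 1 ∧ 16 * (D.card : ℝ) ^ 2 * T * dt j ≤ 1) :
    ∫ z, (1 - endVal G θ D T j v z ^ 2) ∂gN (ℕ × V) ≤ 2 * exp (-((T : ℝ) / 2)) + err D T j := by
  set δ := dt j with hδdef
  have hδ : 0 ≤ δ := (dt_pos j).le
  set n := steps T j with hn
  set t := fun x : ℕ × V → ℝ => Real.tanh (fieldOf D δ x n v) with ht
  have htm : Measurable t :=
    measurable_tanh'.comp ((measurable_pi_apply v).comp (measurable_fieldOf D δ n))
  set F := fun x => 1 - t x ^ 2 with hF
  have hFm : Measurable F := (htm.pow_const 2).const_sub 1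
  have hFB : ∀ x, |F x| ≤ 1 := fun x => by
    have := abs_le.1 (abs_tanh_le (fieldOf D δ x n v))
    simp only [hF, ht]
    rw [abs_le]
    constructor <;> nlinarith
  have hz : ∀ z, 1 - endVal G θ D T j v z ^ 2 = F (xmap G θ D δ n z) := fun z => by
    simp only [hF, ht, endVal, ← hδdef, ← hn, scheme_eq hδ D z (le_refl n)]
  simp only [hz]
  have e1 := (abs_le.1 (transfer_le hT h0 h1 hD (le_refl n) hs hFm hFB)).2
  rw [one_mul] at e1
  have hint : Integrable (fun x => lDens G θ D δ n x *
      (1 - mag G θ D (fieldOf D δ x n) v * t x)) (gN (ℕ × V)) :=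
    (integrable_bdd_post D δ n (fun _ => 1) (((measurable_magField D δ n v).mul htm).const_sub 1)
      (B := 2) fun x => by
        refine (abs_sub _ _).trans ?_
        rw [abs_one, Pi.mul_apply, abs_mul]
        linarith [mul_le_one₀ (abs_mag_le (G := G) h0 h1 D (fieldOf D δ x n) v) (abs_nonneg _)
          (abs_tanh_le (fieldOf D δ x n v))]).congr (ae_of_all _ fun x => mul_comm _ _)
  have e2 : ∫ x, F x * lDens G θ D δ n x ∂gN (ℕ × V) ≤
      ∫ x, 2 * (lDens G θ D δ n x * (1 - mag G θ D (fieldOf D δ x n) v * t x)) ∂gN (ℕ × V) := by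
    refine integral_mono (integrable_bdd_post D δ n _ hFm hFB) (hint.const_mul 2) fun x => ?_
    show F x * lDens G θ D δ n x ≤ 2 * (lDens G θ D δ n x * (1 - mag G θ D (fieldOf D δ x n) v * t x))
    have hm := abs_le.1 (abs_mag_le (G := G) h0 h1 D (fieldOf D δ x n) v)
    have htb := abs_le.1 (abs_tanh_le (fieldOf D δ x n v))
    have : F x ≤ 2 * (1 - mag G θ D (fieldOf D δ x n) v * t x) := by
      simp only [hF, ht]
      nlinarith [sq_nonneg (tanh (fieldOf D δ x n v) - 1), sq_nonneg (tanh (fieldOf D δ x n v) + 1)]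
    nlinarith [lDens_pos (G := G) h0 h1 D δ n x]
  have e3 := tanh_approx (G := G) hT h0 h1 hδ hD hv n
  rw [hδdef, hn, steps_mul_dt] at e3
  rw [integral_const_mul] at e2
  simp only [← hδdef] at e1
  simp only [← hn, ← hδdef] at e3
  linarith

/-! ## The approximating processes -/

/-- The value at time `T`, level `j` in the volume `D`, as a function of the labels. -/
def appr (G : SimpleGraph V) (θ : ℝ) (D : Finset V) (T j : ℕ) (v : V) (ξ : Lab V → ℝ) : ℝ :=
  endVal G θ D T j v (noise j ξ)

theorem measurable_appr (D : Finset V) (T j : ℕ) (v : V) : Measurable (appr G θ D T j v) :=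
  (measurable_endVal D T j v).comp (noise_mp j).measurable

theorem abs_appr (D : Finset V) (T j : ℕ) (v : V) (ξ : Lab V → ℝ) : |appr G θ D T j v ξ| ≤ 1 :=
  abs_endVal D T j v _

/-- The `L¹` distance. -/
def d1 (f g : (Lab V → ℝ) → ℝ) : ℝ := ∫ ξ, |f ξ - g ξ| ∂gN (Lab V)

theorem d1_comm (f g : (Lab V → ℝ) → ℝ) : d1 f g = d1 g f := by
  simp only [d1, abs_sub_comm]

theorem integrable_sub_appr (D D' : Finset V) (T T' j j' : ℕ) (v v' : V) :
    Integrable (fun ξ => |appr G θ D T j v ξ - appr G θ D' T' j' v' ξ|) (gN (Lab V)) :=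
  integrable_of_bdd ((measurable_appr D T j v).sub (measurable_appr D' T' j' v')).abs (B := 2)
    fun ξ => by
      rw [abs_abs]
      have e1 := abs_appr (G := G) (θ := θ) D T j v ξ
      have e2 := abs_appr (G := G) (θ := θ) D' T' j' v' ξ
      exact (abs_sub _ _).trans (by linarith)

theorem d1_triangle (D₁ D₂ D₃ : Finset V) (T₁ T₂ T₃ j₁ j₂ j₃ : ℕ) (v : V) :
    d1 (appr G θ D₁ T₁ j₁ v) (appr G θ D₃ T₃ j₃ v) ≤
      d1 (appr G θ D₁ T₁ j₁ v) (appr G θ D₂ T₂ j₂ v) +
        d1 (appr G θ D₂ T₂ j₂ v) (appr G θ D₃ T₃ j₃ v) := by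
  rw [d1, d1, d1, ← integral_add (integrable_sub_appr _ _ _ _ _ _ _ _)
    (integrable_sub_appr _ _ _ _ _ _ _ _)]
  exact integral_mono (integrable_sub_appr _ _ _ _ _ _ _ _)
    ((integrable_sub_appr _ _ _ _ _ _ _ _).add (integrable_sub_appr _ _ _ _ _ _ _ _))
    fun ξ => abs_sub_le _ _ _

theorem pull (j : ℕ) {F : (ℕ × V → ℝ) → ℝ} (hF : Measurable F) :
    ∫ ξ, F (noise j ξ) ∂gN (Lab V) = ∫ z, F z ∂gN (ℕ × V) := by
  rw [← integral_map (noise_mp j).measurable.aemeasurable hF.aestronglyMeasurable,
    (noise_mp j).map_eq]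

theorem d1_same_level (D D' : Finset V) (T T' j : ℕ) (v : V) :
    d1 (appr G θ D T j v) (appr G θ D' T' j v) =
      ∫ z, |endVal G θ D T j v z - endVal G θ D' T' j v z| ∂gN (ℕ × V) :=
  pull j ((measurable_endVal D T j v).sub (measurable_endVal D' T' j v)).abs

/-- The constants used in the construction. -/
structure Consts (G : SimpleGraph V) (θ : ℝ) where
  /-- A radius which is large enough at a given time, vertex and accuracy. -/
  R0 : ℕ → V → ℕ → ℕ
  /-- A level which is large enough for a given ball, time and accuracy. -/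
  J0 : ℕ → V → ℕ → ℕ → ℕ
  space : ∀ (T : ℕ) (v : V) (i : ℕ) (D D' : Finset V), Conn G D → Conn G D' →
    ball G v (R0 T v i) ⊆ D → D ⊆ D' → ∀ᶠ j in atTop,
      ∫ z, |endVal G θ D' T j v z - endVal G θ D T j v z| ∂gN (ℕ × V) ≤ (1 / 2) ^ i
  refine : ∀ (T : ℕ) (v : V) (R i j m : ℕ), J0 T v R i ≤ j → j ≤ m →
    d1 (appr G θ (ball G v R) T j v) (appr G θ (ball G v R) T m v) ≤ (1 / 2) ^ i

theorem exists_consts {a b : ℝ} (hT : RTree G d) (hP : Params d θ a b) :
    Nonempty (Consts G θ) := by
  choose R0 hR0 using fun (T : ℕ) (v : V) (i : ℕ) =>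
    space_compare (G := G) hT hP T v (ε := (1 / 2) ^ i) (by positivity)
  choose J0 hJ0 using fun (T : ℕ) (v : V) (R i : ℕ) =>
    refine_cauchy (G := G) hT hP.θ0 (hP.θ1 hT) (conn_ball hT v R) T (self_mem_ball hT v R)
      (ε := (1 / 2) ^ i) (by positivity)
  exact ⟨⟨R0, J0, hR0, hJ0⟩⟩

/-- Two approximations at a vertex are close. -/
theorem cross (hT : RTree G d) (h0 : 0 ≤ θ) (h1 : θ < 1) (c : Consts G θ) (v : V) (i : ℕ)
    {T T' R R' j j' i' : ℕ} (hTT : T ≤ T') (hR : c.R0 T v i ≤ R) (hRR : R ≤ R')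
    (hj : c.J0 T v R i ≤ j) (hj' : c.J0 T' v R' i' ≤ j') :
    d1 (appr G θ (ball G v R) T j v) (appr G θ (ball G v R') T' j' v) ≤
      (2 * (1 / 2) ^ i + exp (-((T : ℝ) / 2)) + exp (-((T' : ℝ) / 2)) + (1 / 2) ^ i + (1 / 2) ^ i') := by
  have hsub : ball G v R ⊆ ball G v R' := ball_mono hT v hRR
  have herr : ∀ᶠ m in atTop, 2 * err (ball G v R') T' m ≤ (1 / 2) ^ i :=
    (((tendsto_err (ball G v R') T').const_mul 2).congr fun _ => rfl).eventually_le_const
      (by simp)
  obtain ⟨m, hm1, hm2, hm3, hm4, hm5⟩ := ((c.space T v i (ball G v R) (ball G v R') (conn_ball hT v R)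
    (conn_ball hT v R') (ball_mono hT v hR) hsub).and (herr.and ((eventually_small (ball G v R') T').and
      ((eventually_ge_atTop j).and (eventually_ge_atTop j'))))).exists
  have s1 := c.refine T v R i j m hj hm4
  have s2 : d1 (appr G θ (ball G v R) T m v) (appr G θ (ball G v R') T m v) ≤ (1 / 2) ^ i := by
    rw [d1_comm, d1_same_level]; exact hm1
  have s3 : d1 (appr G θ (ball G v R') T m v) (appr G θ (ball G v R') T' m v) ≤
      exp (-((T : ℝ) / 2)) + exp (-((T' : ℝ) / 2)) + (1 / 2) ^ i := by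
    rw [d1_same_level]
    refine (time_compare hT h0 h1 (conn_ball hT v R') (self_mem_ball hT v R') hTT hm3).trans ?_
    linarith
  have s4 := c.refine T' v R' i' j' m hj' hm5
  rw [d1_comm] at s4
  have t1 := d1_triangle (G := G) (θ := θ) (ball G v R) (ball G v R) (ball G v R') T T T j m m v
  have t2 := d1_triangle (G := G) (θ := θ) (ball G v R) (ball G v R') (ball G v R') T T T' j m m v
  have t3 := d1_triangle (G := G) (θ := θ) (ball G v R) (ball G v R') (ball G v R') T T' T' j m j' v
  linarith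

/-- A numbering of the vertices: the `i`-th finite piece. -/
def piece (e : V → ℕ) (he : Function.Injective e) (i : ℕ) : Finset V :=
  ((Set.finite_le_nat i).preimage he.injOn).toFinset

theorem mem_piece {e : V → ℕ} {he : Function.Injective e} {i : ℕ} {v : V} :
    v ∈ piece e he i ↔ e v ≤ i := by
  simp [piece]

/-- The radius used at stage `i`. -/
def radius (c : Consts G θ) (e : V → ℕ) (he : Function.Injective e) (i : ℕ) : ℕ :=
  (range (i + 1)).sup fun k => (piece e he k).sup fun v => c.R0 k v k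

theorem radius_mono (c : Consts G θ) (e : V → ℕ) (he : Function.Injective e) (i : ℕ) :
    radius c e he i ≤ radius c e he (i + 1) :=
  Finset.sup_mono (Finset.range_subset_range.2 (by omega))

theorem le_radius (c : Consts G θ) {e : V → ℕ} {he : Function.Injective e} {i : ℕ} {v : V}
    (hv : v ∈ piece e he i) : c.R0 i v i ≤ radius c e he i :=
  le_trans (Finset.le_sup (f := fun v => c.R0 i v i) hv)
    (Finset.le_sup (f := fun k => (piece e he k).sup fun v => c.R0 k v k)
      (Finset.self_mem_range_succ i))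

/-- The level used at stage `i`. -/
def level (c : Consts G θ) (e : V → ℕ) (he : Function.Injective e) (i : ℕ) : ℕ :=
  (piece e he i).sup fun v => c.J0 i v (radius c e he i) i

/-- The `i`-th approximation of the spin at `v`. -/
def stage (c : Consts G θ) (e : V → ℕ) (he : Function.Injective e) (i : ℕ) (v : V)
    (ξ : Lab V → ℝ) : ℝ :=
  appr G θ (ball G v (radius c e he i)) i (level c e he i) v ξ

/-- The limiting configuration. -/
def config (c : Consts G θ) (e : V → ℕ) (he : Function.Injective e) (ξ : Lab V → ℝ) : V → Bool :=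
  fun v => decide (0 < limsup (fun i => stage c e he i v ξ) atTop)

theorem measurable_config (c : Consts G θ) (e : V → ℕ) (he : Function.Injective e) :
    Measurable (config c e he) := by
  refine measurable_pi_lambda _ fun v => ?_
  have hm : Measurable (fun ξ => limsup (fun i => stage c e he i v ξ) atTop) :=
    Measurable.limsup fun i => measurable_appr _ _ _ v
  exact (measurable_to_bool (by
    simpa [Set.preimage, config] using measurableSet_lt (measurable_const (a := (0 : ℝ))) hm))

theorem scheme_map (g : G ≃g G) (D : Finset V) (δ : ℝ) (z : ℕ × V → ℝ) (k : ℕ) (v : V) :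
    scheme G θ (D.map g.toEquiv.toEmbedding) δ z k (g v) =
      scheme G θ D δ (fun p => z (p.1, g p.2)) k v := by
  induction k generalizing v with
  | zero => rfl
  | succ k ih =>
    have hiff : g v ∈ D.map g.toEquiv.toEmbedding ↔ v ∈ D := Finset.mem_map' g.toEquiv.toEmbedding
    have hmag : mag G θ (D.map g.toEquiv.toEmbedding)
        (scheme G θ (D.map g.toEquiv.toEmbedding) δ z k) (g v) =
        mag G θ D (scheme G θ D δ (fun p => z (p.1, g p.2)) k) v := by
      rw [mag_map]
      exact mag_congr (fun u _ => ih u) v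
    simp only [scheme, hiff, ih v, hmag]

theorem stage_map (hT : RTree G d) (g : G ≃g G) (c : Consts G θ) (e : V → ℕ)
    (he : Function.Injective e) (i : ℕ) (v : V) (ξ : Lab V → ℝ) :
    stage c e he i (g v) ξ = stage c e he i v (fun q => ξ (q.1, (q.2.1, g q.2.2))) := by
  simp only [stage, appr, endVal, ball_map hT, scheme_map, ← noise_relabel]

theorem config_map (hT : RTree G d) (g : G ≃g G) (c : Consts G θ) (e : V → ℕ)
    (he : Function.Injective e) (v : V) (ξ : Lab V → ℝ) :
    config c e he ξ (g v) = config c e he (fun q => ξ (q.1, (q.2.1, g q.2.2))) v := by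
  simp only [config, stage_map hT]

theorem abs_stage (c : Consts G θ) (e : V → ℕ) (he : Function.Injective e) (i : ℕ) (v : V)
    (ξ : Lab V → ℝ) : |stage c e he i v ξ| ≤ 1 := abs_appr _ _ _ _ _

theorem measurable_stage (c : Consts G θ) (e : V → ℕ) (he : Function.Injective e) (i : ℕ) (v : V) :
    Measurable (stage c e he i v) := measurable_appr _ _ _ v

theorem summable_gap : Summable (fun i : ℕ => 4 * (1 / 2 : ℝ) ^ i + 2 * exp (-((i : ℝ) / 2))) := by
  refine (summable_geometric_two.mul_left 4).add (Summable.mul_left 2 ?_)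
  have : (fun i : ℕ => exp (-((i : ℝ) / 2))) = fun i : ℕ => exp (-(1 / 2 : ℝ)) ^ i :=
    funext fun i => by rw [← Real.exp_nat_mul]; congr 1; ring
  rw [this]
  exact summable_geometric_of_lt_one (exp_pos _).le (exp_lt_one_iff.2 (by norm_num))

/-- At every vertex the approximations converge almost surely. -/
theorem stage_converges (hT : RTree G d) (h0 : 0 ≤ θ) (h1 : θ < 1) (c : Consts G θ) (e : V → ℕ)
    (he : Function.Injective e) (v : V) :
    ∀ᵐ ξ ∂gN (Lab V), ∃ l, Tendsto (fun i => stage c e he i v ξ) atTop (𝓝 l) := by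
  set D := fun (i : ℕ) (ξ : Lab V → ℝ) => |stage c e he i v ξ - stage c e he (i + 1) v ξ| with hD
  set i0 := e v
  have hb : ∀ k, ∫ ξ, D (k + i0) ξ ∂gN (Lab V) ≤
      4 * (1 / 2 : ℝ) ^ (k + i0) + 2 * exp (-(((k + i0 : ℕ) : ℝ) / 2)) := by
    intro k
    set i := k + i0 with hi
    have hm : v ∈ piece e he i := mem_piece.2 (by omega)
    have hm' : v ∈ piece e he (i + 1) := mem_piece.2 (by omega)
    refine (cross hT h0 h1 c v i (i' := i + 1) (Nat.le_succ i) (le_radius c hm) (radius_mono c e he i)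
      (Finset.le_sup (f := fun v => c.J0 i v (radius c e he i) i) hm)
      (Finset.le_sup (f := fun v => c.J0 (i + 1) v (radius c e he (i + 1)) (i + 1)) hm')).trans ?_
    have h2 : exp (-(((i + 1 : ℕ) : ℝ) / 2)) ≤ exp (-((i : ℝ) / 2)) :=
      Real.exp_le_exp.2 (by push_cast; linarith)
    have h3 : (1 / 2 : ℝ) ^ (i + 1) ≤ (1 / 2 : ℝ) ^ i :=
      pow_le_pow_of_le_one (by norm_num) (by norm_num) (Nat.le_succ i)
    linarith
  have hsum : Summable (fun k : ℕ => 4 * (1 / 2 : ℝ) ^ (k + i0) +
      2 * exp (-(((k + i0 : ℕ) : ℝ) / 2))) :=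
    (summable_nat_add_iff (f := fun i : ℕ => 4 * (1 / 2 : ℝ) ^ i + 2 * exp (-((i : ℝ) / 2))) i0).2
      summable_gap
  have hDm : ∀ i, Measurable (D i) := fun i =>
    ((measurable_stage c e he i v).sub (measurable_stage c e he (i + 1) v)).abs
  have hfin : ∫⁻ ξ, ∑' k, ENNReal.ofReal (D (k + i0) ξ) ∂gN (Lab V) ≠ ∞ := by
    rw [lintegral_tsum fun k => (hDm _).ennreal_ofReal.aemeasurable]
    refine ne_top_of_le_ne_top (hsum.tsum_ofReal_ne_top) (ENNReal.tsum_le_tsum fun k => ?_)
    rw [← ofReal_integral_eq_lintegral_ofReal (f := D (k + i0)) (integrable_sub_appr _ _ _ _ _ _ _ _)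
      (ae_of_all _ fun _ => abs_nonneg _)]
    exact ENNReal.ofReal_le_ofReal (hb k)
  filter_upwards [ae_lt_top (Measurable.tsum fun k => (hDm _).ennreal_ofReal) hfin] with ξ hξ
  have hs : Summable (fun k => D (k + i0) ξ) := by
    have := ENNReal.summable_toReal hξ.ne
    refine this.congr fun k => ?_
    rw [ENNReal.toReal_ofReal (abs_nonneg _)]
  have hs' : Summable (fun i => D i ξ) := (summable_nat_add_iff (f := fun i => D i ξ) i0).1 hs
  exact cauchySeq_tendsto_of_complete (cauchySeq_of_dist_le_of_summable _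
    (fun i => (Real.dist_eq _ _).le) hs')

theorem stage_near (hT : RTree G d) (c : Consts G θ) (e : V → ℕ)
    (he : Function.Injective e) {i : ℕ} {u : V} (hu : u ∈ piece e he i) {D : Finset V}
    (hD : Conn G D) (hball : ball G u (radius c e he i) ⊆ D) :
    ∀ᶠ m in atTop, d1 (stage c e he i u) (appr G θ D i m u) ≤ 2 * (1 / 2) ^ i := by
  filter_upwards [c.space i u i (ball G u (radius c e he i)) D (conn_ball hT u _) hD
    (ball_mono hT u (le_radius c hu)) hball, eventually_ge_atTop (level c e he i)] with m hm hge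
  have s1 := c.refine i u (radius c e he i) i (level c e he i) m
    (Finset.le_sup (f := fun v => c.J0 i v (radius c e he i) i) hu) hge
  have s2 : d1 (appr G θ (ball G u (radius c e he i)) i m u) (appr G θ D i m u) ≤ (1 / 2) ^ i := by
    rw [d1_comm, d1_same_level]; exact hm
  have t := d1_triangle (G := G) (θ := θ) (ball G u (radius c e he i)) (ball G u (radius c e he i)) D
    i i i (level c e he i) m m u
  show d1 (appr G θ (ball G u (radius c e he i)) i (level c e he i) u) _ ≤ _
  linarith

theorem stage_law (hT : RTree G d) (h0 : 0 ≤ θ) (h1 : θ < 1) (c : Consts G θ) (e : V → ℕ)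
    (he : Function.Injective e) {S : Finset V} (hS : Conn G S) (s : V → Bool) {i : ℕ}
    (hi : S ⊆ piece e he i) :
    |∫ ξ, ∏ u ∈ S, (1 + spin (s u) * stage c e he i u ξ) / 2 ∂gN (Lab V) -
      wt G θ S (S.filter fun u => s u = true)| ≤
      S.card * (2 * (1 / 2) ^ i) + S.card * exp (-((i : ℝ) / 2)) + (1 / 2) ^ i := by
  obtain ⟨o, ho⟩ := hS.nonempty
  set R := radius c e he i with hR
  set M := S.sup (fun u => G.dist o u) + R with hM
  set D := ball G o M with hD
  have hball : ∀ u ∈ S, ball G u R ⊆ D := fun u hu => ball_subset_ball hT (by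
    have := Finset.le_sup (f := fun u => G.dist o u) hu; omega)
  have hSD : S ⊆ D := fun u hu => hball u hu (self_mem_ball hT u R)
  have hnear : ∀ᶠ m in atTop, ∀ u ∈ S, d1 (stage c e he i u) (appr G θ D i m u) ≤ 2 * (1 / 2) ^ i :=
    (Finset.eventually_all S).2 fun u hu =>
      stage_near hT c e he (hi hu) (conn_ball hT o M) (hball u hu)
  have herr : ∀ᶠ m in atTop, err D i m ≤ (1 / 2) ^ i :=
    (tendsto_err D i).eventually_le_const (by positivity)
  obtain ⟨m, hm1, hm2, hm3⟩ := (hnear.and (herr.and (eventually_small D i))).exists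
  have hlaw := law_approx hT h0 h1 (conn_ball hT o M) hS hSD s (T := i) hm3
  set P := fun (w : V → ℝ) => ∏ u ∈ S, (1 + spin (s u) * w u) / 2 with hP
  have hsp : ∀ b : Bool, spin b = 1 ∨ spin b = -1 := fun b => by cases b <;> simp [spin]
  have hfac : ∀ (u : V) (y : ℝ), |y| ≤ 1 →
      0 ≤ (1 + spin (s u) * y) / 2 ∧ (1 + spin (s u) * y) / 2 ≤ 1 := by
    intro u y hy
    have := abs_le.1 hy
    rcases hsp (s u) with h | h <;> rw [h] <;> constructor <;> linarith
  have hPd : ∀ ξ, |P (fun u => stage c e he i u ξ) - P (fun u => appr G θ D i m u ξ)| ≤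
      ∑ u ∈ S, |stage c e he i u ξ - appr G θ D i m u ξ| := by
    intro ξ
    refine (abs_prod_sub_prod_le S (fun u => hfac u _ (abs_stage c e he i u ξ))
      (fun u => hfac u _ (abs_appr D i m u ξ))).trans (Finset.sum_le_sum fun u _ => ?_)
    rcases hsp (s u) with h | h <;> rw [h] <;>
      [rw [show (1 + 1 * stage c e he i u ξ) / 2 - (1 + 1 * appr G θ D i m u ξ) / 2 =
          (stage c e he i u ξ - appr G θ D i m u ξ) / 2 by ring];
       rw [show (1 + -1 * stage c e he i u ξ) / 2 - (1 + -1 * appr G θ D i m u ξ) / 2 =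
          -((stage c e he i u ξ - appr G θ D i m u ξ) / 2) by ring, abs_neg]] <;>
      rw [abs_div, abs_two] <;>
      linarith [abs_nonneg (stage c e he i u ξ - appr G θ D i m u ξ)]
  have hPm : ∀ (w : V → (Lab V → ℝ) → ℝ), (∀ u, Measurable (w u)) →
      Measurable (fun ξ => P (fun u => w u ξ)) := fun w hw =>
    Finset.measurable_prod _ fun u _ => (((hw u).const_mul (spin (s u))).const_add 1).div_const 2
  have hPB : ∀ w : V → ℝ, (∀ u, |w u| ≤ 1) → |P w| ≤ 1 := fun w hw => by
    rw [hP, abs_of_nonneg (Finset.prod_nonneg fun u _ => (hfac u _ (hw u)).1)]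
    exact Finset.prod_le_one (fun u _ => (hfac u _ (hw u)).1) (fun u _ => (hfac u _ (hw u)).2)
  have i1 : Integrable (fun ξ => P (fun u => stage c e he i u ξ)) (gN (Lab V)) :=
    integrable_of_bdd (hPm _ fun u => measurable_stage c e he i u)
      (fun ξ => hPB _ fun u => abs_stage c e he i u ξ)
  have i2 : Integrable (fun ξ => P (fun u => appr G θ D i m u ξ)) (gN (Lab V)) :=
    integrable_of_bdd (hPm _ fun u => measurable_appr D i m u)
      (fun ξ => hPB _ fun u => abs_appr D i m u ξ)
  have e1 : |∫ ξ, P (fun u => stage c e he i u ξ) ∂gN (Lab V) -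
      ∫ ξ, P (fun u => appr G θ D i m u ξ) ∂gN (Lab V)| ≤ S.card * (2 * (1 / 2) ^ i) := by
    have hi' : ∀ u, Integrable (fun ξ => |stage c e he i u ξ - appr G θ D i m u ξ|) (gN (Lab V)) :=
      fun u => integrable_sub_appr _ _ _ _ _ _ _ _
    rw [← integral_sub i1 i2, ← Real.norm_eq_abs]
    refine (norm_integral_le_of_norm_le (integrable_finsetSum _ fun u _ => hi' u)
      (ae_of_all _ hPd)).trans ?_
    rw [integral_finsetSum _ fun u _ => hi' u]
    refine (Finset.sum_le_card_nsmul _ _ _ hm1).trans (le_of_eq ?_)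
    rw [nsmul_eq_mul]
  have e2 : ∫ ξ, P (fun u => appr G θ D i m u ξ) ∂gN (Lab V) =
      ∫ z, P (fun u => endVal G θ D i m u z) ∂gN (ℕ × V) :=
    pull m (F := fun z => P (fun u => endVal G θ D i m u z))
      (Finset.measurable_prod _ fun u _ =>
        (((measurable_endVal D i m u).const_mul (spin (s u))).const_add 1).div_const 2)
  rw [e2] at e1
  show |∫ ξ, P (fun u => stage c e he i u ξ) ∂gN (Lab V) - _| ≤ _
  refine (abs_sub_le _ _ _).trans ((add_le_add e1 hlaw).trans ?_)
  linarith

theorem stage_sq (hT : RTree G d) (h0 : 0 ≤ θ) (h1 : θ < 1) (c : Consts G θ) (e : V → ℕ)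
    (he : Function.Injective e) {u : V} {i : ℕ} (hi : u ∈ piece e he i) :
    ∫ ξ, (1 - stage c e he i u ξ ^ 2) ∂gN (Lab V) ≤
      5 * (1 / 2) ^ i + 2 * exp (-((i : ℝ) / 2)) := by
  set D := ball G u (radius c e he i) with hD
  obtain ⟨m, hm1, hm2, hm3⟩ := ((stage_near hT c e he hi (conn_ball hT u _) subset_rfl).and
    (((tendsto_err D i).eventually_le_const (u := (1 / 2) ^ i) (by positivity)).and
      (eventually_small D i))).exists
  have h := sq_approx hT h0 h1 (conn_ball hT u _) (self_mem_ball hT u _) (T := i) hm3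
  rw [← pull m (F := fun z => 1 - endVal G θ D i m u z ^ 2)
    (((measurable_endVal D i m u).pow_const 2).const_sub 1)] at h
  have hb : ∀ y : ℝ, |y| ≤ 1 → |1 - y ^ 2| ≤ 1 := fun y hy => by
    have := abs_le.1 hy; rw [abs_le]; constructor <;> nlinarith
  have i1 : Integrable (fun ξ => 1 - stage c e he i u ξ ^ 2) (gN (Lab V)) :=
    integrable_of_bdd (((measurable_stage c e he i u).pow_const 2).const_sub 1)
      (fun ξ => hb _ (abs_stage c e he i u ξ))
  have i2 : Integrable (fun ξ => 1 - appr G θ D i m u ξ ^ 2) (gN (Lab V)) :=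
    integrable_of_bdd (((measurable_appr D i m u).pow_const 2).const_sub 1)
      (fun ξ => hb _ (abs_appr D i m u ξ))
  have i3 : Integrable (fun ξ => |stage c e he i u ξ - appr G θ D i m u ξ|) (gN (Lab V)) :=
    integrable_sub_appr _ _ _ _ _ _ _ _
  calc ∫ ξ, (1 - stage c e he i u ξ ^ 2) ∂gN (Lab V)
      ≤ ∫ ξ, ((1 - appr G θ D i m u ξ ^ 2) + 2 * |stage c e he i u ξ - appr G θ D i m u ξ|)
          ∂gN (Lab V) := by
        refine integral_mono i1 (i2.add (i3.const_mul 2)) fun ξ => ?_
        show 1 - stage c e he i u ξ ^ 2 ≤ _ + 2 * |_|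
        have e1 := abs_le.1 (abs_stage c e he i u ξ)
        have e2 := abs_le.1 (abs_appr (G := G) (θ := θ) D i m u ξ)
        have h3 : |stage c e he i u ξ + appr G θ D i m u ξ| ≤ 2 := by
          rw [abs_le]; constructor <;> linarith
        have h4 := mul_le_mul_of_nonneg_left h3
          (abs_nonneg (stage c e he i u ξ - appr G θ D i m u ξ))
        rw [← abs_mul] at h4
        have h5 := neg_abs_le ((stage c e he i u ξ - appr G θ D i m u ξ) *
          (stage c e he i u ξ + appr G θ D i m u ξ))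
        nlinarith
    _ ≤ _ := by
        rw [integral_add i2 (i3.const_mul 2), integral_const_mul]
        show ∫ ξ, (1 - appr G θ D i m u ξ ^ 2) ∂gN (Lab V) +
          2 * d1 (stage c e he i u) (appr G θ D i m u) ≤ _
        unfold appr at *
        linarith

/-- Spins are the almost sure limits of the approximations. -/
theorem config_limit (hT : RTree G d) (h0 : 0 ≤ θ) (h1 : θ < 1) (c : Consts G θ) (e : V → ℕ)
    (he : Function.Injective e) (v : V) :
    ∀ᵐ ξ ∂gN (Lab V),
      Tendsto (fun i => stage c e he i v ξ) atTop (𝓝 (spin (config c e he ξ v))) := by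
  set L := fun ξ => limsup (fun i => stage c e he i v ξ) atTop with hL
  have hLm : Measurable L := Measurable.limsup fun i => measurable_stage c e he i v
  have hconv : ∀ᵐ ξ ∂gN (Lab V), Tendsto (fun i => stage c e he i v ξ) atTop (𝓝 (L ξ)) := by
    filter_upwards [stage_converges hT h0 h1 c e he v] with ξ ⟨l, hl⟩
    show Tendsto _ _ (𝓝 (limsup (fun i => stage c e he i v ξ) atTop))
    rwa [show limsup (fun i => stage c e he i v ξ) atTop = l from hl.limsup_eq]
  have hLb : ∀ᵐ ξ ∂gN (Lab V), |L ξ| ≤ 1 := by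
    filter_upwards [hconv] with ξ h
    exact le_of_tendsto' h.abs fun i => abs_stage c e he i v ξ
  have hlim : Tendsto (fun i => ∫ ξ, (1 - stage c e he i v ξ ^ 2) ∂gN (Lab V)) atTop
      (𝓝 (∫ ξ, (1 - L ξ ^ 2) ∂gN (Lab V))) := by
    refine tendsto_integral_of_dominated_convergence (fun _ => 2)
      (fun i => (((measurable_stage c e he i v).pow_const 2).const_sub 1).aestronglyMeasurable)
      (integrable_const _) (fun i => ae_of_all _ fun ξ => ?_) ?_
    · have := abs_le.1 (abs_stage c e he i v ξ)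
      rw [Real.norm_eq_abs, abs_le]; constructor <;> nlinarith
    · filter_upwards [hconv] with ξ h
      exact (h.pow 2).const_sub 1
  have hzero : ∫ ξ, (1 - L ξ ^ 2) ∂gN (Lab V) ≤ 0 := by
    have hb : Tendsto (fun i : ℕ => 5 * (1 / 2 : ℝ) ^ i + 2 * exp (-((i : ℝ) / 2))) atTop (𝓝 0) := by
      have h1 := (tendsto_pow_atTop_nhds_zero_of_lt_one (by norm_num : (0 : ℝ) ≤ 1 / 2)
        (by norm_num)).const_mul 5
      have h2 := (tendsto_exp_neg_atTop_nhds_zero.comp
        (tendsto_natCast_atTop_atTop.atTop_div_const two_pos)).const_mul 2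
      simpa using h1.add h2
    refine le_of_tendsto_of_tendsto hlim hb ?_
    filter_upwards [eventually_ge_atTop (e v)] with i hi
    exact stage_sq hT h0 h1 c e he (mem_piece.2 hi)
  have hnn : 0 ≤ᵐ[gN (Lab V)] fun ξ => 1 - L ξ ^ 2 := by
    filter_upwards [hLb] with ξ h
    have := abs_le.1 h
    show 0 ≤ 1 - L ξ ^ 2
    nlinarith
  have hint : Integrable (fun ξ => 1 - L ξ ^ 2) (gN (Lab V)) := by
    refine Integrable.of_bound ((hLm.pow_const 2).const_sub 1).aestronglyMeasurable 2 ?_
    filter_upwards [hLb] with ξ h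
    have := abs_le.1 h
    rw [Real.norm_eq_abs, abs_le]; constructor <;> nlinarith
  have hae := (integral_eq_zero_iff_of_nonneg_ae hnn hint).1
    (le_antisymm hzero (integral_nonneg_of_ae hnn))
  filter_upwards [hae, hconv] with ξ h hc
  have h2 : L ξ * L ξ = 1 := by
    have : (1 : ℝ) - L ξ ^ 2 = 0 := h
    nlinarith
  have : spin (config c e he ξ v) = L ξ := by
    rcases mul_self_eq_one_iff.1 h2 with h3 | h3 <;>
      simp only [hL] at h3 <;> simp [config, spin, hL, h3]
  rwa [this]

theorem config_law (hT : RTree G d) (h0 : 0 ≤ θ) (h1 : θ < 1) (c : Consts G θ) (e : V → ℕ)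
    (he : Function.Injective e) {S : Finset V} (hS : Conn G S) (η : V → Bool) :
    gN (Lab V) {ξ | ∀ v ∈ S, config c e he ξ v = η v} =
      ENNReal.ofReal ((1 / 2) * ∏ e ∈ edgesIn G S, edgeWeight θ η e) := by
  set E := {ξ : Lab V → ℝ | ∀ v ∈ S, config c e he ξ v = η v} with hE
  have hEm : MeasurableSet E := by
    have : E = ⋂ v ∈ S, (fun ξ => config c e he ξ v) ⁻¹' {η v} := by ext ξ; simp [hE]
    rw [this]
    exact Finset.measurableSet_biInter _ fun v _ =>
      ((measurable_pi_apply v).comp (measurable_config c e he)) (measurableSet_singleton _)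
  set P := fun (w : V → ℝ) => ∏ u ∈ S, (1 + spin (η u) * w u) / 2 with hP
  have hind : ∀ ξ, E.indicator (1 : (Lab V → ℝ) → ℝ) ξ = P (fun u => spin (config c e he ξ u)) := by
    intro ξ
    by_cases h : ξ ∈ E
    · rw [Set.indicator_of_mem h, Pi.one_apply]
      refine (Finset.prod_eq_one fun u hu => ?_).symm
      simp only [h u hu]
      cases η u <;> simp [spin]
    · rw [Set.indicator_of_notMem h]
      simp only [hE, Set.mem_ofPred_eq] at h
      push Not at h
      obtain ⟨u, hu, hne⟩ := h
      refine (Finset.prod_eq_zero hu ?_).symm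
      cases hη : η u <;> cases hc : config c e he ξ u <;> simp_all [spin]
  have hsp : ∀ b : Bool, |spin b| = 1 := fun b => by cases b <;> simp [spin]
  have hlim : Tendsto (fun i => ∫ ξ, P (fun u => stage c e he i u ξ) ∂gN (Lab V)) atTop
      (𝓝 (∫ ξ, P (fun u => spin (config c e he ξ u)) ∂gN (Lab V))) := by
    refine tendsto_integral_of_dominated_convergence (fun _ => 1)
      (fun i => (Finset.measurable_prod _ fun u _ =>
        (((measurable_stage c e he i u).const_mul _).const_add 1).div_const 2).aestronglyMeasurable)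
      (integrable_const _) (fun i => ae_of_all _ fun ξ => ?_) ?_
    · rw [hP, Real.norm_eq_abs, Finset.abs_prod]
      refine Finset.prod_le_one (fun u _ => abs_nonneg _) fun u _ => ?_
      rw [abs_div, abs_two, div_le_one two_pos]
      refine (abs_add_le _ _).trans ?_
      rw [abs_one, abs_mul, hsp, one_mul]
      linarith [abs_stage c e he i u ξ]
    · have := (ae_ball_iff S.countable_toSet).2 fun v (_ : v ∈ (S : Set V)) =>
        config_limit hT h0 h1 c e he v
      filter_upwards [this] with ξ h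
      exact tendsto_finsetProd _ fun u hu => (((h u hu).const_mul _).const_add 1).div_const 2
  have hlim2 : Tendsto (fun i => ∫ ξ, P (fun u => stage c e he i u ξ) ∂gN (Lab V)) atTop
      (𝓝 (wt G θ S (S.filter fun u => η u = true))) := by
    rw [tendsto_iff_dist_tendsto_zero]
    have hb : Tendsto (fun i : ℕ => (S.card : ℝ) * (2 * (1 / 2) ^ i) +
        S.card * exp (-((i : ℝ) / 2)) + (1 / 2 : ℝ) ^ i) atTop (𝓝 0) := by
      have h1 := tendsto_pow_atTop_nhds_zero_of_lt_one (by norm_num : (0 : ℝ) ≤ 1 / 2) (by norm_num)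
      have h2 := (tendsto_exp_neg_atTop_nhds_zero.comp
        (tendsto_natCast_atTop_atTop.atTop_div_const two_pos)).const_mul (S.card : ℝ)
      simpa using (((h1.const_mul 2).const_mul (S.card : ℝ)).add h2).add h1
    refine squeeze_zero' (Eventually.of_forall fun _ => dist_nonneg) ?_ hb
    filter_upwards [eventually_ge_atTop (S.sup e)] with i hi
    rw [Real.dist_eq]
    exact stage_law hT h0 h1 c e he hS η fun u hu =>
      mem_piece.2 ((Finset.le_sup hu).trans hi)
  have hval := tendsto_nhds_unique hlim hlim2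
  simp only [← hind] at hval
  rw [integral_indicator_one hEm] at hval
  have hwt : wt G θ S (S.filter fun u => η u = true) =
      (1 / 2) * ∏ e ∈ edgesIn G S, edgeWeight θ η e := by
    refine congrArg ((1 / 2 : ℝ) * ·) (Finset.prod_congr rfl fun e he' => ?_)
    induction e using Sym2.ind with
    | h a b =>
      simp only [edgesIn, Finset.mem_filter, Finset.mk_mem_sym2_iff] at he'
      simp [edgeWeight_mk, Finset.mem_filter, he'.1.1, he'.1.2]
  rw [← ofReal_measureReal, hval, hwt]

/-! ## From uniform labels to Gaussian labels -/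

theorem exists_split : ∃ ψ : ℝ → (ℕ × ℕ → ℝ), Measurable ψ ∧ unifLaw.map ψ = gN (ℕ × ℕ) := by
  obtain ⟨f, hf, hmap⟩ := (gN (ℕ × ℕ)).exists_measurable_map_eq
  have hproj : Measurable (Set.projIcc (0 : ℝ) 1 zero_le_one) := continuous_projIcc.measurable
  refine ⟨f ∘ Set.projIcc 0 1 zero_le_one, hf.comp hproj, ?_⟩
  have hval : (volume : Measure (Set.Icc (0 : ℝ) 1)).map Subtype.val = unifLaw :=
    map_comap_subtype_coe measurableSet_Icc volume
  rw [← hval, Measure.map_map (hf.comp hproj) measurable_subtype_coe, ← hmap]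
  congr 1
  funext x
  simp

/-- Spread the label of each vertex into Gaussian labels. -/
def spread (ψ : ℝ → (ℕ × ℕ → ℝ)) (U : V → ℝ) : Lab V → ℝ :=
  fun q => ψ (U q.2.2) (q.1, q.2.1)

theorem spread_mp {ψ : ℝ → (ℕ × ℕ → ℝ)} (hψ : Measurable ψ)
    (hmap : unifLaw.map ψ = gN (ℕ × ℕ)) :
    MeasurePreserving (spread (V := V) ψ) (iidLaw V) (gN (Lab V)) := by
  have h1 : MeasurePreserving (fun (U : V → ℝ) v => ψ (U v)) (iidLaw V)
      (Measure.infinitePi fun _ : V => gN (ℕ × ℕ)) := by
    refine ⟨measurable_pi_lambda _ fun v => hψ.comp (measurable_pi_apply v), ?_⟩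
    rw [iidLaw, Measure.infinitePi_map_pi (fun _ => unifLaw) (fun _ => hψ)]
    simp only [hmap]
  have h2 : MeasurePreserving (MeasurableEquiv.curry V (ℕ × ℕ) ℝ).symm
      (Measure.infinitePi fun _ : V => gN (ℕ × ℕ)) (gN (V × ℕ × ℕ)) :=
    ⟨(MeasurableEquiv.curry V (ℕ × ℕ) ℝ).symm.measurable,
      Measure.infinitePi_map_curry_symm fun _ _ => ProbabilityTheory.gaussianReal 0 1⟩
  have h3 : MeasurePreserving
      (fun (x : V × ℕ × ℕ → ℝ) (q : Lab V) => x (q.2.2, q.1, q.2.1))
      (gN (V × ℕ × ℕ)) (gN (Lab V)) :=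
    reindex_mp (f := fun q : Lab V => (q.2.2, q.1, q.2.1)) fun a b h => by
      simp only [Prod.mk.injEq] at h
      exact Prod.ext h.2.1 (Prod.ext h.2.2 h.1)
  exact h3.comp (h2.comp h1)

/-- Below the reconstruction threshold the free Ising model is a factor of IID. -/
theorem exists_fiid_freeIsing (hT : RTree G d) (h0 : 0 ≤ θ)
    (hsub : ((d : ℝ) - 1) * θ ^ 2 < 1) :
    ∃ ν, IsFreeIsing G θ ν ∧ IsFIID G ν := by
  have hd : (3 : ℝ) ≤ d := by exact_mod_cast hT.three
  set s := 1 / ((d : ℝ) - 1) with hs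
  have hs0 : 0 < s := by rw [hs]; exact one_div_pos.2 (by linarith)
  have hθs : θ < √s := by
    rw [Real.lt_sqrt h0, hs, lt_div_iff₀ (by linarith)]
    linarith
  obtain ⟨a, ha1, ha2⟩ := exists_between hθs
  obtain ⟨b, hb1, hb2⟩ := exists_between ha2
  have hP : Params d θ a b := ⟨h0, ha1, hb1, by
    have hb0 : 0 ≤ b := h0.trans (ha1.trans hb1).le
    have : b ^ 2 < s := (Real.lt_sqrt hb0).1 hb2
    rw [hs, lt_div_iff₀ (by linarith)] at this
    linarith⟩
  have h1 := hP.θ1 hT
  obtain ⟨c⟩ := exists_consts hT hP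
  have hcount := countable_vertices hT
  obtain ⟨e, he⟩ := Countable.exists_injective_nat V
  obtain ⟨ψ, hψ, hψmap⟩ := exists_split
  have hmp := spread_mp (V := V) hψ hψmap
  have hΦ : Measurable (fun U => config c e he (spread ψ U)) :=
    (measurable_config c e he).comp hmp.measurable
  refine ⟨(iidLaw V).map (fun U => config c e he (spread ψ U)), ⟨?_, fun D hD η => ?_⟩,
    _, hΦ, fun g => ae_of_all _ fun U => ?_, rfl⟩
  · have : IsProbabilityMeasure (iidLaw V) := by unfold iidLaw; infer_instance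
    exact Measure.isProbabilityMeasure_map hΦ.aemeasurable
  · have hm : MeasurableSet {σ : V → Bool | ∀ v ∈ D, σ v = η v} := by
      have : {σ : V → Bool | ∀ v ∈ D, σ v = η v} = ⋂ v ∈ D, (fun σ => σ v) ⁻¹' {η v} := by
        ext σ; simp
      rw [this]
      exact Finset.measurableSet_biInter _ fun v _ =>
        (measurable_pi_apply v) (measurableSet_singleton _)
    rw [← config_law hT h0 h1 c e he hD η, ← hmp.map_eq]
    rw [Measure.map_apply hΦ hm, Measure.map_apply hmp.measurable]
    · rfl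
    · exact (measurable_config c e he) hm
  · funext v
    have h := config_map hT g c e he (g.symm v) (spread ψ fun w => U (g.symm w))
    rw [RelIso.apply_symm_apply] at h
    show config c e he (spread ψ fun w => U (g.symm w)) v = _
    rw [h]
    refine congrArg (fun ζ => config c e he ζ (g.symm v)) (funext fun q => ?_)
    simp [spread]

/-- The free Ising measure is unique. -/
theorem freeIsing_unique (hT : RTree G d) {ν ν' : Measure (V → Bool)}
    (h : IsFreeIsing G θ ν) (h' : IsFreeIsing G θ ν') : ν = ν' := by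
  have := h.1
  have := h'.1
  obtain ⟨o⟩ := hT.conn.nonempty
  have key : ∀ I : Finset V, ν.map I.restrict = ν'.map I.restrict := by
    intro I
    obtain ⟨n, hn⟩ := exists_ball_superset hT o I
    set D := ball G o n with hD
    have hDeq : ν.map D.restrict = ν'.map D.restrict := by
      refine Measure.ext_of_singleton fun a => ?_
      rw [Measure.map_apply (Finset.measurable_restrict D) (measurableSet_singleton _),
        Measure.map_apply (Finset.measurable_restrict D) (measurableSet_singleton _)]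
      set η : V → Bool := fun v => if hv : v ∈ D then a ⟨v, hv⟩ else true with hη
      have : (D.restrict : (V → Bool) → (D → Bool)) ⁻¹' {a} = {σ : V → Bool | ∀ v ∈ D, σ v = η v} := by
        ext σ
        simp only [Set.mem_preimage, Set.mem_singleton_iff, Set.mem_ofPred_eq]
        constructor
        · intro hσ v hv
          rw [hη]; simp only [dif_pos hv]
          exact congrFun hσ ⟨v, hv⟩
        · intro hσ
          funext ⟨v, hv⟩
          simpa [hη, hv] using hσ v hv
      rw [this, h.2 D (conn_ball hT o n) η, h'.2 D (conn_ball hT o n) η]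
    rw [← Finset.restrict₂_comp_restrict hn,
      ← Measure.map_map (Finset.measurable_restrict₂ hn) (Finset.measurable_restrict D), hDeq,
      Measure.map_map (Finset.measurable_restrict₂ hn) (Finset.measurable_restrict D)]
  exact IsProjectiveLimit.unique (P := fun I => ν.map I.restrict) (fun I => rfl)
    (fun I => (key I).symm)

end Vale.Agent.P161
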