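import Vale.Agent.P161.Model
import Mathlib.Data.List.Induction
import Mathlib.Logic.Equiv.Fintype

/-!
# Symmetries of the regular tree
-/

open Finset
open scoped Classical

noncomputable section

namespace Vale.Agent.P161

variable {V : Type*} {G : SimpleGraph V} {d : ℕ}

theorem closer_unique (hT : RTree G d) {o u w₁ w₂ : V} (h1 : G.Adj u w₁) (h2 : G.Adj u w₂)
    (e1 : G.dist o u = G.dist o w₁ + 1) (e2 : G.dist o u = G.dist o w₂ + 1) : w₁ = w₂ := by
  by_contra hne
  rcases dist_adj_cases hT h1 w₂ with h | h
  · rw [SimpleGraph.dist_eq_one_iff_adj.2 h2] at h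
    have : G.dist w₁ w₂ = 0 := by omega
    exact hne (hT.conn.dist_eq_zero_iff.1 this)
  · have e1' : G.dist u o = G.dist w₁ o + 1 := by
      rw [SimpleGraph.dist_comm (u := u), SimpleGraph.dist_comm (u := w₁)]; exact e1
    have e := dist_through hT h1 h e1'
    rw [SimpleGraph.dist_eq_one_iff_adj.2 h2.symm, SimpleGraph.dist_comm (u := w₁) (v := o),
      SimpleGraph.dist_comm (u := w₂) (v := o)] at e
    omega

/-- An enumeration of the neighbours of `u`. -/
def nbrEquiv (hT : RTree G d) (u : V) : Fin d ≃ nbr G u :=
  ((nbr G u).equivFinOfCardEq (card_nbr hT u)).symm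

/-- The neighbour of `u` with label `c`, where the label of `p` is declared to be `a`. -/
def turn (hT : RTree G d) (u p : V) (a c : Fin d) : V :=
  if hp : p ∈ nbr G u then (nbrEquiv hT u (Equiv.swap a ((nbrEquiv hT u).symm ⟨p, hp⟩) c) : V)
  else u

theorem turn_adj (hT : RTree G d) {u p : V} (hp : p ∈ nbr G u) (a c : Fin d) :
    G.Adj u (turn hT u p a c) := by
  rw [turn, dif_pos hp]
  exact (mem_nbr hT).1 (Subtype.coe_prop _)

theorem turn_self (hT : RTree G d) {u p : V} (hp : p ∈ nbr G u) (a : Fin d) :
    turn hT u p a a = p := by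
  simp [turn, dif_pos hp]

theorem turn_inj (hT : RTree G d) {u p : V} (hp : p ∈ nbr G u) (a : Fin d) :
    Function.Injective (turn hT u p a) := by
  intro x y h
  simp only [turn, dif_pos hp] at h
  exact (Equiv.swap _ _).injective ((nbrEquiv hT u).injective (Subtype.ext h))

theorem turn_surj (hT : RTree G d) {u p : V} (hp : p ∈ nbr G u) (a : Fin d) {q : V}
    (hq : G.Adj u q) : ∃ c, turn hT u p a c = q := by
  refine ⟨Equiv.swap a ((nbrEquiv hT u).symm ⟨p, hp⟩) ((nbrEquiv hT u).symm ⟨q, (mem_nbr hT).2 hq⟩), ?_⟩
  simp [turn, dif_pos hp]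

/-- The vertex addressed by a word, together with its predecessor. -/
def walkTo (hT : RTree G d) (o : V) : List (Fin d) → V × V
  | [] => (o, o)
  | [a] => ((nbrEquiv hT o a : V), o)
  | c :: a :: l => (turn hT (walkTo hT o (a :: l)).1 (walkTo hT o (a :: l)).2 a c,
      (walkTo hT o (a :: l)).1)

theorem walkTo_snd (hT : RTree G d) (o : V) (a : Fin d) (l : List (Fin d)) :
    (walkTo hT o (a :: l)).2 = (walkTo hT o l).1 := by
  cases l <;> rfl

theorem walkTo_spec (hT : RTree G d) (o : V) : ∀ (l : List (Fin d)), l.IsChain (· ≠ ·) →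
    G.dist o (walkTo hT o l).1 = l.length ∧
      (l ≠ [] → G.Adj (walkTo hT o l).1 (walkTo hT o l).2)
  | [], _ => ⟨by simp [walkTo], fun h => absurd rfl h⟩
  | [a], _ => by
    have h : G.Adj o (nbrEquiv hT o a : V) := (mem_nbr hT).1 (Subtype.coe_prop _)
    exact ⟨by simp [walkTo, SimpleGraph.dist_eq_one_iff_adj.2 h], fun _ => h.symm⟩
  | c :: a :: l, hl => by
    obtain ⟨hd, hadj⟩ := walkTo_spec hT o (a :: l) hl.of_cons
    set u := (walkTo hT o (a :: l)).1 with hu
    set p := (walkTo hT o (a :: l)).2 with hp
    have hpu : G.Adj u p := hadj (by simp)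
    have hpn : p ∈ nbr G u := (mem_nbr hT).2 hpu
    have hpd : G.dist o p = l.length := by
      rw [hp, walkTo_snd]
      exact (walkTo_spec hT o l hl.of_cons.of_cons).1
    have hw : G.Adj u (turn hT u p a c) := turn_adj hT hpn a c
    have hca : c ≠ a := by
      cases hl with
      | cons_cons h _ => exact h
    refine ⟨?_, fun _ => hw.symm⟩
    show G.dist o (turn hT u p a c) = _
    rcases hT.tree.dist_eq_dist_add_one_of_adj o hw with h | h
    · exfalso
      apply hca
      have := closer_unique hT (o := o) hw hpu h (by rw [hd, hpd]; simp)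
      exact turn_inj hT hpn a (this.trans (turn_self hT hpn a).symm)
    · rw [h, hd]; simp

/-- The vertex addressed by a reduced word. -/
def wordVertex (hT : RTree G d) (o : V) (x : Word d) : V := (walkTo hT o x.1).1

theorem wordVertex_dist (hT : RTree G d) (o : V) (x : Word d) :
    G.dist o (wordVertex hT o x) = x.1.length := (walkTo_spec hT o x.1 x.2).1

theorem walkTo_inj (hT : RTree G d) (o : V) : ∀ (l l' : List (Fin d)), l.IsChain (· ≠ ·) →
    l'.IsChain (· ≠ ·) → (walkTo hT o l).1 = (walkTo hT o l').1 → l = l' := by
  intro l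
  induction l with
  | nil =>
    intro l' hl hl' h
    have := (walkTo_spec hT o l' hl').1
    rw [← h] at this
    simp only [walkTo, SimpleGraph.dist_self] at this
    exact (List.length_eq_zero_iff.1 this.symm).symm
  | cons a l ih =>
    intro l' hl hl' h
    have e1 := walkTo_spec hT o (a :: l) hl
    have e2 := walkTo_spec hT o l' hl'
    have hlen : (a :: l).length = l'.length := by rw [← e1.1, ← e2.1, h]
    cases l' with
    | nil => simp at hlen
    | cons b l' =>
      have t1 := (walkTo_spec hT o l hl.of_cons).1
      have t2 := (walkTo_spec hT o l' hl'.of_cons).1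
      have a1 := e1.2 (by simp)
      have a2 := e2.2 (by simp)
      rw [walkTo_snd] at a1 a2
      rw [← h] at a2
      have hp := closer_unique hT (o := o) a1 a2 (by rw [e1.1, t1]; simp)
        (by rw [e1.1, t2, hlen]; simp)
      obtain rfl := ih l' hl.of_cons hl'.of_cons hp
      congr 1
      cases l with
      | nil => exact (nbrEquiv hT o).injective (Subtype.ext h)
      | cons e l =>
        have hpn : (walkTo hT o (e :: l)).2 ∈ nbr G (walkTo hT o (e :: l)).1 :=
          (mem_nbr hT).2 ((walkTo_spec hT o (e :: l) hl.of_cons).2 (by simp))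
        exact turn_inj hT hpn e h

theorem wordVertex_bij (hT : RTree G d) (o : V) : Function.Bijective (wordVertex hT o) := by
  refine ⟨fun x y h => Subtype.ext (walkTo_inj hT o x.1 y.1 x.2 y.2 h), fun v => ?_⟩
  suffices key : ∀ n v, G.dist o v = n → ∃ x, wordVertex hT o x = v from key _ v rfl
  intro n
  induction n with
  | zero =>
    intro v hv
    exact ⟨⟨[], List.isChain_nil⟩, hT.conn.dist_eq_zero_iff.1 hv⟩
  | succ n ih =>
    intro v hv
    have hne : v ≠ o := by rintro rfl; simp at hv
    obtain ⟨w, hadj, hw⟩ := exists_closer hT hne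
    obtain ⟨⟨l, hl⟩, hlw⟩ := ih w (by omega)
    cases l with
    | nil =>
      have : w = o := hlw.symm
      subst this
      exact ⟨⟨[(nbrEquiv hT w).symm ⟨v, (mem_nbr hT).2 hadj.symm⟩], List.isChain_singleton _⟩,
        by simp [wordVertex, walkTo]⟩
    | cons a l =>
      have hlw' : (walkTo hT o (a :: l)).1 = w := hlw
      have hsp := walkTo_spec hT o (a :: l) hl
      have hpn : (walkTo hT o (a :: l)).2 ∈ nbr G (walkTo hT o (a :: l)).1 :=
        (mem_nbr hT).2 (hsp.2 (by simp))
      obtain ⟨c, hc⟩ := turn_surj hT hpn a (q := v) (by rw [hlw']; exact hadj.symm)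
      have hca : c ≠ a := by
        rintro rfl
        rw [turn_self hT hpn] at hc
        have := (walkTo_spec hT o l hl.of_cons).1
        rw [← walkTo_snd hT o c l, hc, hv] at this
        have h3 := hsp.1
        rw [hlw'] at h3
        simp at h3
        omega
      exact ⟨⟨c :: a :: l, List.IsChain.cons_cons hca hl⟩, hc⟩

theorem wordVertex_adj (hT : RTree G d) (o : V) (x y : Word d) :
    G.Adj (wordVertex hT o x) (wordVertex hT o y) ↔ (wordTree d).Adj x y := by
  have fwd : ∀ x y : Word d, (∃ a, y.1 = a :: x.1) → G.Adj (wordVertex hT o x) (wordVertex hT o y) := by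
    rintro x y ⟨a, ha⟩
    have h := (walkTo_spec hT o y.1 y.2).2 (by rw [ha]; simp)
    rw [ha, walkTo_snd, ← ha] at h
    exact h.symm
  constructor
  · intro h
    have bwd : ∀ x y : Word d, G.Adj (wordVertex hT o x) (wordVertex hT o y) →
        G.dist o (wordVertex hT o y) = G.dist o (wordVertex hT o x) + 1 → ∃ a, y.1 = a :: x.1 := by
      rintro x ⟨l, hl⟩ h hd
      cases l with
      | nil => simp [wordVertex_dist] at hd
      | cons a l =>
        have a1 := (walkTo_spec hT o (a :: l) hl).2 (by simp)
        rw [walkTo_snd] at a1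
        have := closer_unique hT (o := o) (u := (walkTo hT o (a :: l)).1) (w₁ := (walkTo hT o l).1)
          a1 h.symm (by rw [(walkTo_spec hT o (a :: l) hl).1, (walkTo_spec hT o l hl.of_cons).1]; simp) hd
        exact ⟨a, congrArg (List.cons a) (walkTo_inj hT o l x.1 hl.of_cons x.2 this)⟩
    rcases hT.tree.dist_eq_dist_add_one_of_adj o h with e | e
    · exact wordTree_adj.2 (Or.inr (bwd y x h.symm e))
    · exact wordTree_adj.2 (Or.inl (bwd x y h e))
  · intro h
    rcases wordTree_adj.1 h with h | h
    · exact fwd x y h
    · exact (fwd y x h).symm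

/-- The regular tree, seen from the vertex `o`, is the tree of reduced words. -/
def wordIso (hT : RTree G d) (o : V) : wordTree d ≃g G where
  toEquiv := Equiv.ofBijective _ (wordVertex_bij hT o)
  map_rel_iff' := fun {x y} => wordVertex_adj hT o x y

/-- Left multiplication by one letter, on lists. -/
def letterMul (a : Fin d) (l : List (Fin d)) : List (Fin d) :=
  if l.getLast? = some a then l.dropLast else l ++ [a]

theorem letterMul_chain (a : Fin d) {l : List (Fin d)} (hl : l.IsChain (· ≠ ·)) :
    (letterMul a l).IsChain (· ≠ ·) := by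
  rw [letterMul]
  split_ifs with h
  · exact hl.dropLast
  · rw [List.isChain_append]
    refine ⟨hl, List.isChain_singleton a, fun x hx y hy => ?_⟩
    simp only [List.head?_cons, Option.mem_some_iff] at hy
    subst hy
    rintro rfl
    exact h hx

theorem letterMul_invol (a : Fin d) {l : List (Fin d)} (hl : l.IsChain (· ≠ ·)) :
    letterMul a (letterMul a l) = l := by
  induction l using List.reverseRecOn with
  | nil => simp [letterMul]
  | append_singleton l b _ =>
    by_cases hb : b = a
    · subst hb
      have hlast : l.getLast? ≠ some b := by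
        intro h
        exact (List.isChain_append.1 hl).2.2 b h b (by simp) rfl
      simp [letterMul, hlast]
    · simp [letterMul, hb]

theorem letterMul_cons (a c : Fin d) {l : List (Fin d)} (hl : (c :: l).IsChain (· ≠ ·)) :
    (∃ e, letterMul a (c :: l) = e :: letterMul a l) ∨
      (∃ e, letterMul a l = e :: letterMul a (c :: l)) := by
  cases l with
  | nil =>
    by_cases h : c = a
    · subst h
      exact Or.inr ⟨c, by simp [letterMul]⟩
    · exact Or.inl ⟨c, by simp [letterMul, h]⟩
  | cons b l =>
    left
    refine ⟨c, ?_⟩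
    simp only [letterMul, List.getLast?_cons_cons]
    split_ifs with h <;> simp

/-- Left multiplication by one letter, as a symmetry of the word tree. -/
def letterIso (a : Fin d) : wordTree d ≃g wordTree d where
  toFun x := ⟨letterMul a x.1, letterMul_chain a x.2⟩
  invFun x := ⟨letterMul a x.1, letterMul_chain a x.2⟩
  left_inv x := Subtype.ext (letterMul_invol a x.2)
  right_inv x := Subtype.ext (letterMul_invol a x.2)
  map_rel_iff' := by
    have fwd : ∀ x y : Word d, (wordTree d).Adj x y → (wordTree d).Adj
        ⟨letterMul a x.1, letterMul_chain a x.2⟩ ⟨letterMul a y.1, letterMul_chain a y.2⟩ := by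
      intro x y h
      rcases wordTree_adj.1 h with ⟨c, hc⟩ | ⟨c, hc⟩
      · have := y.2
        rw [hc] at this
        refine wordTree_adj.2 ?_
        simp only [hc]
        exact letterMul_cons a c this
      · have := x.2
        rw [hc] at this
        refine wordTree_adj.2 ?_
        simp only [hc]
        exact (letterMul_cons a c this).symm
    intro x y
    refine ⟨fun h => ?_, fwd x y⟩
    have h2 := fwd _ _ h
    simpa [letterMul_invol a x.2, letterMul_invol a y.2] using h2

/-- The symmetry which moves the word `l` to the empty word. -/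
def carry (l : List (Fin d)) : wordTree d ≃g wordTree d :=
  List.reverseRecOn l (RelIso.refl _) (fun _ a e => (letterIso a).trans e)

theorem carry_append (l : List (Fin d)) (a : Fin d) :
    carry (l ++ [a]) = (letterIso a).trans (carry l) := by
  rw [carry, List.reverseRecOn_concat]
  rfl

theorem carry_spec (l : List (Fin d)) : ∀ u : Word d,
    (∀ h : (u.1 ++ l.reverse).IsChain (· ≠ ·), carry l u = ⟨u.1 ++ l.reverse, h⟩) ∧
    (u.1 = l → (carry l u).1 = []) := by
  induction l using List.reverseRecOn with
  | nil => intro u; exact ⟨fun h => Subtype.ext (by simp [carry]), fun h => by simpa [carry] using h⟩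
  | append_singleton l a ih =>
    intro u
    refine ⟨fun h => ?_, fun hu => ?_⟩
    · rw [carry_append]
      have hlast : u.1.getLast? ≠ some a := by
        intro hx
        exact (List.isChain_append.1 h).2.2 a hx a (by simp) rfl
      have e : (letterIso a u).1 = u.1 ++ [a] := by
        show letterMul a u.1 = _
        rw [letterMul, if_neg hlast]
      have h' : ((letterIso a u).1 ++ l.reverse).IsChain (· ≠ ·) := by
        rw [e]; simpa using h
      show carry l (letterIso a u) = _
      rw [(ih _).1 h']
      exact Subtype.ext (by simp [e])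
    · rw [carry_append]
      show (carry l (letterIso a u)).1 = []
      refine (ih _).2 ?_
      show letterMul a u.1 = l
      rw [hu]
      simp [letterMul]

/-- For every vertex there is a symmetry taking it to `o`, with distinct images of `o`. -/
theorem exists_symmetries (hT : RTree G d) (o : V) :
    ∃ g : V → (G ≃g G), (∀ v, g v v = o) ∧ Function.Injective (fun v => g v o) := by
  set φ := wordIso hT o with hφ
  refine ⟨fun v => φ.symm.trans ((carry (φ.symm v).1).trans φ), fun v => ?_, ?_⟩
  · show φ (carry (φ.symm v).1 (φ.symm v)) = o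
    have h : carry (φ.symm v).1 (φ.symm v) = (⟨[], List.isChain_nil⟩ : Word d) :=
      Subtype.ext ((carry_spec _ _).2 rfl)
    rw [h]
    rfl
  · intro v w h
    have hsym : φ.symm o = (⟨[], List.isChain_nil⟩ : Word d) := by
      have e : φ ⟨[], List.isChain_nil⟩ = o := rfl
      calc φ.symm o = φ.symm (φ ⟨[], List.isChain_nil⟩) := by rw [e]
        _ = _ := φ.symm_apply_apply _
    have hrev : ∀ x : Word d, (([] : List (Fin d)) ++ x.1.reverse).IsChain (· ≠ ·) := by
      intro x
      rw [List.nil_append, List.isChain_reverse]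
      exact x.2.imp fun a b h => h.symm
    have key : ∀ v, carry (φ.symm v).1 (φ.symm o) = ⟨_, hrev (φ.symm v)⟩ := fun v => by
      rw [hsym]
      exact (carry_spec _ ⟨[], List.isChain_nil⟩).1 _
    change φ (carry (φ.symm v).1 (φ.symm o)) = φ (carry (φ.symm w).1 (φ.symm o)) at h
    rw [key, key] at h
    have h2 := congrArg Subtype.val (φ.injective h)
    simp only [List.nil_append, List.reverse_inj] at h2
    exact φ.symm.injective (Subtype.ext h2)

end Vale.Agent.P161
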