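import Vale.Agent.P161.Construct
import Vale.Agent.P161.Symmetry
import Mathlib.MeasureTheory.Measure.MeasuredSets
import Mathlib.MeasureTheory.Constructions.ProjectiveFamilyContent

/-!
# Above the reconstruction threshold the free Ising model is not a factor of IID
-/

open MeasureTheory Finset Real Filter Topology
open scoped ENNReal Classical symmDiff

noncomputable section

namespace Vale.Agent.P161

universe u

variable {V : Type u} {G : SimpleGraph V} {d : ℕ} {θ : ℝ}

instance : IsProbabilityMeasure (iidLaw V) := by unfold iidLaw; infer_instance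

/-! ## Correlations of the free Ising model -/

theorem dist_leaf (hT : RTree G d) {E : Finset V} (hE : Conn G E) {v p w : V} (hv : v ∉ E)
    (hp : p ∈ E) (hw : w ∈ E) (hadj : G.Adj v p) : G.dist v w = G.dist p w + 1 := by
  obtain ⟨q, hq⟩ := (SimpleGraph.Connected.preconnected hE ⟨p, hp⟩ ⟨w, hw⟩).exists_isPath
  let f : (G.induce (E : Set V)) ↪g G := SimpleGraph.Embedding.induce _
  have hqp : (q.map f.toHom).IsPath := hq.map f.injective
  have hsupp : ∀ y ∈ (q.map f.toHom).support, y ∈ E := by
    intro y hy
    rw [SimpleGraph.Walk.support_map, List.mem_map] at hy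
    obtain ⟨⟨z, hz⟩, -, rfl⟩ := hy
    exact hz
  let Q : G.Walk p w := q.map f.toHom
  have hQ : Q.IsPath := hqp
  have hr : (SimpleGraph.Walk.cons hadj Q).IsPath := hQ.cons fun h => hv (hsupp v h)
  have len : ∀ {x y : V} (r : G.Walk x y), r.IsPath → G.dist x y = r.length := by
    intro x y r hr
    obtain ⟨s, hs, hsl⟩ := hT.conn.exists_path_of_dist x y
    have e : s = r := congrArg Subtype.val
      (@Subsingleton.elim _ (hT.tree.isAcyclic.subsingleton_path x y) ⟨s, hs⟩ ⟨r, hr⟩)
    rw [← hsl, e]
  rw [len _ hr, len _ hQ, SimpleGraph.Walk.length_cons]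

theorem corr_zero (hT : RTree G d) (h0 : 0 ≤ θ) (h1 : θ < 1) {D : Finset V} (hD : Conn G D) :
    ∀ u ∈ D, ∀ w ∈ D, avg G θ D (fun _ => 0) (fun A => sp A u * sp A w) = θ ^ G.dist u w := by
  obtain ⟨r, hr⟩ := hD.nonempty
  have self : ∀ (E : Finset V) (u : V),
      avg G θ E (fun _ => 0) (fun A => sp A u * sp A u) = θ ^ G.dist u u := fun E u => by
    rw [show (fun A : Finset V => sp A u * sp A u) = fun _ => (1 : ℝ) from funext fun A => sp_sq A u,
      avg_const h0 h1]
    simp
  refine grow_induction hT (fun E => ∀ u ∈ E, ∀ w ∈ E,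
    avg G θ E (fun _ => 0) (fun A => sp A u * sp A w) = θ ^ G.dist u w) (conn_singleton r) hD
    (Finset.singleton_subset_iff.2 hr) ?_ ?_
  · intro u hu w hw
    rw [Finset.mem_singleton] at hu hw
    rw [hu, hw]
    exact self _ r
  · intro E v p hEc _ _ hv hp hadj huniq ih
    have hne : ∀ {u : V}, u ∈ E → u ≠ v := fun hu e => hv (e ▸ hu)
    have hupd : Function.update (fun _ : V => (0 : ℝ)) p ((fun _ : V => (0 : ℝ)) p + leafShift θ 0) =
        fun _ => 0 := by
      funext x; by_cases hx : x = p <;> simp [hx, leaf_zero.1]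
    have hoff : leafOffset θ 0 = 0 := by
      simp only [leafOffset, leafSum, neg_zero, Real.exp_zero, mul_one]
      ring
    have hslope : leafSlope θ 0 = θ := by
      simp only [leafSlope, leafSum, neg_zero, Real.exp_zero, mul_one]
      ring
    have hnew : ∀ w ∈ E,
        avg G θ (insert v E) (fun _ => 0) (fun A => sp A v * sp A w) = θ ^ G.dist v w := by
      intro w hw
      rw [avg_insert_spin h0 h1 hv hp hadj huniq (fun _ => 0) (f := fun A => sp A w)
        (fun A _ => sp_insert (hne hw)), hupd, hoff, hslope, ih p hp w hw,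
        dist_leaf hT hEc hv hp hw hadj, pow_succ]
      ring
    intro u hu w hw
    rcases Finset.mem_insert.1 hu with rfl | hu'
    · rcases Finset.mem_insert.1 hw with rfl | hw'
      · exact self _ _
      · exact hnew w hw'
    · rcases Finset.mem_insert.1 hw with rfl | hw'
      · rw [show (fun A : Finset V => sp A u * sp A w) = fun A => sp A w * sp A u from
          funext fun A => mul_comm _ _, SimpleGraph.dist_comm]
        exact hnew u hu'
      · rw [avg_insert_of_inert h0 h1 hv hp hadj huniq (fun _ => 0)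
          (fun A _ => by rw [sp_insert (hne hu'), sp_insert (hne hw')]), hupd, ih u hu' w hw']

theorem integral_freeIsing (hT : RTree G d) (h0 : 0 ≤ θ) (h1 : θ < 1) {ν : Measure (V → Bool)}
    (hν : IsFreeIsing G θ ν) {D : Finset V} (hD : Conn G D) (F : Finset V → ℝ) :
    ∫ σ, F (D.filter fun u => σ u = true) ∂ν = avg G θ D (fun _ => 0) F := by
  have := hν.1
  set S := fun A : Finset V => {σ : V → Bool | ∀ v ∈ D, σ v = decide (v ∈ A)} with hS
  have hSm : ∀ A, MeasurableSet (S A) := fun A => by
    have : S A = ⋂ v ∈ D, (fun σ : V → Bool => σ v) ⁻¹' {decide (v ∈ A)} := by ext σ; simp [hS]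
    rw [this]
    exact Finset.measurableSet_biInter _ fun v _ =>
      (measurable_pi_apply v) (measurableSet_singleton _)
  have hpt : ∀ σ, F (D.filter fun u => σ u = true) =
      ∑ A ∈ D.powerset, (S A).indicator (fun _ => F A) σ := by
    intro σ
    rw [Finset.sum_eq_single (D.filter fun u => σ u = true) (fun A hA hne => ?_)
      (fun h => absurd (Finset.mem_powerset.2 (Finset.filter_subset _ _)) h)]
    · rw [Set.indicator_of_mem]
      show ∀ v ∈ D, σ v = decide (v ∈ D.filter fun u => σ u = true)
      intro v hv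
      cases h : σ v <;> simp [hv, h]
    · rw [Set.indicator_of_notMem]
      intro (hmem : ∀ v ∈ D, σ v = decide (v ∈ A))
      apply hne
      ext v
      rw [Finset.mem_filter]
      constructor
      · intro hv
        have hvD := Finset.mem_powerset.1 hA hv
        exact ⟨hvD, by rw [hmem v hvD]; simpa using hv⟩
      · rintro ⟨hvD, hv⟩
        rw [hmem v hvD] at hv
        simpa using hv
  simp only [hpt]
  rw [integral_finsetSum _ fun A _ => (integrable_const _).indicator (hSm A), avg,
    part_zero hT h0 h1 hD, div_one, num]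
  refine Finset.sum_congr rfl fun A _ => ?_
  rw [integral_indicator (hSm A), setIntegral_const, measureReal_def, hν.2 D hD,
    ENNReal.toReal_ofReal, smul_eq_mul]
  · simp [wt, bf]
  · exact (wt_pos h0 h1 D A).le

theorem two_point (hT : RTree G d) (h0 : 0 ≤ θ) (h1 : θ < 1) {ν : Measure (V → Bool)}
    (hν : IsFreeIsing G θ ν) (u w : V) :
    ∫ σ, spin (σ u) * spin (σ w) ∂ν = θ ^ G.dist u w := by
  obtain ⟨n, hn⟩ := exists_ball_superset hT u {u, w}
  set D := ball G u n with hD
  have hu : u ∈ D := hn (by simp)
  have hw : w ∈ D := hn (by simp)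
  rw [← corr_zero hT h0 h1 (conn_ball hT u n) u hu w hw,
    ← integral_freeIsing hT h0 h1 hν (conn_ball hT u n) (fun A => sp A u * sp A w)]
  refine integral_congr_ae (ae_of_all _ fun σ => ?_)
  have e : ∀ x ∈ D, sp (D.filter fun v => σ v = true) x = spin (σ x) := fun x hx => by
    cases h : σ x <;> simp [sp, spin, hx, h]
  show _ = sp (D.filter fun v => σ v = true) u * sp (D.filter fun v => σ v = true) w
  rw [e u hu, e w hw]

theorem one_point (hT : RTree G d) (h0 : 0 ≤ θ) (h1 : θ < 1) {ν : Measure (V → Bool)}
    (hν : IsFreeIsing G θ ν) (u : V) : ∫ σ, spin (σ u) ∂ν = 0 := by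
  have e := integral_freeIsing hT h0 h1 hν (conn_singleton u) (fun A => sp A u)
  have hl : ∀ σ : V → Bool, spin (σ u) = sp (({u} : Finset V).filter fun v => σ v = true) u :=
    fun σ => by cases h : σ u <;> simp [sp, spin, h]
  simp only [hl]
  rw [e, avg, part_zero hT h0 h1 (conn_singleton u), div_one, num,
    show ({u} : Finset V).powerset = {∅, {u}} by ext A; simp [Finset.subset_singleton_iff],
    Finset.sum_pair (by simp)]
  simp [wt, edgesIn_singleton, bf, sp, spin]

/-! ## Spheres -/

/-- The sphere of radius `n` around `o`. -/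
def sphere (G : SimpleGraph V) (o : V) (n : ℕ) : Finset V :=
  (ball G o n).filter fun u => G.dist o u = n

theorem mem_sphere (hT : RTree G d) {o u : V} {n : ℕ} : u ∈ sphere G o n ↔ G.dist o u = n := by
  simp only [sphere, Finset.mem_filter, mem_ball hT]
  exact ⟨fun h => h.2, fun h => ⟨h.le, h⟩⟩

theorem card_sphere_ge (hT : RTree G d) (o : V) (n : ℕ) :
    ((d : ℝ) - 1) ^ n ≤ (sphere G o n).card := by
  have hd1 : (1 : ℕ) ≤ d := by have := hT.three; omega
  induction n with
  | zero =>
    have : o ∈ sphere G o 0 := (mem_sphere hT).2 (by simp)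
    have := Finset.card_pos.2 ⟨o, this⟩
    simp only [pow_zero]
    exact_mod_cast this
  | succ n ih =>
    set C := fun w => (nbr G w).filter fun u => G.dist o u = n + 1 with hC
    have hdisj : ∀ x ∈ sphere G o n, ∀ y ∈ sphere G o n, x ≠ y → Disjoint (C x) (C y) := by
      intro x hx y hy hxy
      rw [Finset.disjoint_left]
      intro u hu hu'
      simp only [hC, Finset.mem_filter, mem_nbr hT] at hu hu'
      exact hxy (closer_unique hT hu.1.symm hu'.1.symm (by rw [hu.2, (mem_sphere hT).1 hx])
        (by rw [hu.2, (mem_sphere hT).1 hy]))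
    have hcard : ∀ w ∈ sphere G o n, d - 1 ≤ (C w).card := by
      intro w hw
      have hw' := (mem_sphere hT).1 hw
      have hle : ((nbr G w).filter fun u => ¬G.dist o u = n + 1).card ≤ 1 := by
        rw [Finset.card_le_one]
        intro a ha b hb
        simp only [Finset.mem_filter, mem_nbr hT] at ha hb
        rcases hT.tree.dist_eq_dist_add_one_of_adj o ha.1 with ea | ea
        · rcases hT.tree.dist_eq_dist_add_one_of_adj o hb.1 with eb | eb
          · exact closer_unique hT ha.1 hb.1 ea eb
          · omega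
        · omega
      have hsplit := Finset.card_filter_add_card_filter_not (s := nbr G w)
        (fun u => G.dist o u = n + 1)
      rw [card_nbr hT w] at hsplit
      show d - 1 ≤ ((nbr G w).filter fun u => G.dist o u = n + 1).card
      omega
    have hsub : (sphere G o n).biUnion C ⊆ sphere G o (n + 1) := by
      intro u hu
      simp only [Finset.mem_biUnion, hC, Finset.mem_filter] at hu
      obtain ⟨w, -, -, h⟩ := hu
      exact (mem_sphere hT).2 h
    have h1 := Finset.card_le_card hsub
    rw [Finset.card_biUnion hdisj] at h1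
    have h2 := (Finset.card_nsmul_le_sum _ _ _ hcard).trans h1
    rw [smul_eq_mul] at h2
    have h3 : ((sphere G o n).card : ℝ) * ((d : ℝ) - 1) ≤ (sphere G o (n + 1)).card := by
      have := (Nat.cast_le (α := ℝ)).2 h2
      rwa [Nat.cast_mul, Nat.cast_sub hd1, Nat.cast_one] at this
    have hd : (3 : ℝ) ≤ d := by exact_mod_cast hT.three
    rw [pow_succ]
    exact (mul_le_mul_of_nonneg_right ih (by linarith)).trans h3

theorem sphere_sum_le (hT : RTree G d) (h0 : 0 ≤ θ) (hr : 1 < ((d : ℝ) - 1) * θ ^ 2) (o : V) :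
    ∃ C : ℝ, 0 < C ∧ ∀ n, ∀ u ∈ sphere G o n,
      ∑ w ∈ sphere G o n, θ ^ G.dist u w ≤ C * (((d : ℝ) - 1) * θ ^ 2) ^ n := by
  set r := ((d : ℝ) - 1) * θ ^ 2 with hrdef
  refine ⟨(1 + d * θ ^ 2) + r / (r - 1), add_pos_of_pos_of_nonneg (by positivity)
    (div_nonneg (by linarith) (by linarith)), ?_⟩
  set C0 := 1 + (d : ℝ) * θ ^ 2 with hC0
  have key : ∀ n, ∀ u ∈ sphere G o (n + 1),
      ∑ w ∈ sphere G o (n + 1), θ ^ G.dist u w ≤ C0 * r ^ n + (r ^ n - 1) / (r - 1) := by
    intro n
    induction n with
    | zero =>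
      intro u hu
      have hsub : sphere G o 1 ⊆ nbr G o := fun w hw => (mem_nbr hT).2
        (SimpleGraph.dist_eq_one_iff_adj.1 ((mem_sphere hT).1 hw))
      simp only [pow_zero, mul_one, sub_self, zero_div, add_zero, zero_add]
      rw [← Finset.add_sum_erase _ _ hu]
      refine add_le_add (by simp) ?_
      have hb : ∀ w ∈ (sphere G o 1).erase u, θ ^ G.dist u w ≤ θ ^ 2 := by
        intro w hw
        rw [Finset.mem_erase, mem_sphere hT] at hw
        have hu' := (mem_sphere hT).1 hu
        have : G.dist u w = 2 := by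
          have hadj : G.Adj u o := (SimpleGraph.dist_eq_one_iff_adj.1 hu').symm
          rcases dist_adj_cases hT hadj w with h | h
          · omega
          · exfalso
            have : G.dist u w = 0 := by omega
            exact hw.1 (hT.conn.dist_eq_zero_iff.1 this).symm
        rw [this]
      refine (Finset.sum_le_card_nsmul _ _ _ hb).trans ?_
      rw [nsmul_eq_mul]
      refine mul_le_mul_of_nonneg_right ?_ (sq_nonneg θ)
      exact_mod_cast ((Finset.card_le_card ((Finset.erase_subset _ _).trans hsub)).trans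
        (card_nbr hT o).le)
    | succ n ih =>
      intro u hu
      have hu' := (mem_sphere hT).1 hu
      have hne : ∀ {x}, G.dist o x = n + 1 + 1 → x ≠ o := by rintro x hx rfl; simp at hx
      obtain ⟨p, hup, hp⟩ := exists_closer hT (hne hu')
      have hpS : p ∈ sphere G o (n + 1) := (mem_sphere hT).2 (by omega)
      set C := fun w => (nbr G w).filter fun x => G.dist o x = n + 1 + 1 with hC
      have hcov : sphere G o (n + 1 + 1) ⊆ (sphere G o (n + 1)).biUnion C := by
        intro x hx
        have hx' := (mem_sphere hT).1 hx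
        obtain ⟨q, hxq, hq⟩ := exists_closer hT (hne hx')
        simp only [Finset.mem_biUnion, hC, Finset.mem_filter, mem_nbr hT, mem_sphere hT]
        exact ⟨q, by omega, hxq.symm, hx'⟩
      rw [← Finset.add_sum_erase _ _ hu]
      have h1 : ∑ x ∈ (sphere G o (n + 1 + 1)).erase u, θ ^ G.dist u x ≤
          ∑ q ∈ sphere G o (n + 1), ∑ x ∈ C q, θ ^ (G.dist p q + 2) := by
        have hdisj : ∀ x ∈ sphere G o (n + 1), ∀ y ∈ sphere G o (n + 1), x ≠ y →
            Disjoint (C x) (C y) := by
          intro x hx y hy hxy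
          rw [Finset.disjoint_left]
          intro w hw hw'
          simp only [hC, Finset.mem_filter, mem_nbr hT] at hw hw'
          exact hxy (closer_unique hT hw.1.symm hw'.1.symm (by rw [hw.2, (mem_sphere hT).1 hx])
            (by rw [hw.2, (mem_sphere hT).1 hy]))
        have e : ∀ x ∈ (sphere G o (n + 1 + 1)).erase u, ∀ q ∈ sphere G o (n + 1),
            x ∈ C q → θ ^ G.dist u x = θ ^ (G.dist p q + 2) := by
          intro x hx q hq hxC
          rw [Finset.mem_erase, mem_sphere hT] at hx
          simp only [hC, Finset.mem_filter, mem_nbr hT] at hxC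
          have hq' := (mem_sphere hT).1 hq
          have hux : G.dist u x = G.dist p x + 1 := by
            rcases dist_adj_cases hT hup x with h | h
            · exact h
            · exfalso
              have e1 : G.dist u o = G.dist p o + 1 := by
                rw [SimpleGraph.dist_comm (u := u), SimpleGraph.dist_comm (u := p)]; exact hp
              have e2 := dist_through hT hup h e1
              rw [SimpleGraph.dist_comm (u := x) (v := o), SimpleGraph.dist_comm (u := p) (v := o),
                hx.2] at e2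
              have : G.dist x u = 0 := by omega
              exact hx.1 (hT.conn.dist_eq_zero_iff.1 this)
          have hpx : G.dist p x = G.dist p q + 1 := by
            rcases dist_adj_cases hT hxC.1.symm p with h | h
            · rw [SimpleGraph.dist_comm (u := x), SimpleGraph.dist_comm (u := q)] at h
              exact h
            · exfalso
              have e1 : G.dist x o = G.dist q o + 1 := by
                rw [SimpleGraph.dist_comm (u := x), SimpleGraph.dist_comm (u := q), hxC.2, hq']
              have e2 := dist_through hT hxC.1.symm h e1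
              rw [SimpleGraph.dist_comm (u := q) (v := o), hq',
                SimpleGraph.dist_comm (u := p) (v := o)] at e2
              omega
          rw [hux, hpx]
        have hsub : (sphere G o (n + 1 + 1)).erase u ⊆ (sphere G o (n + 1)).biUnion C :=
          (Finset.erase_subset _ _).trans hcov
        calc ∑ x ∈ (sphere G o (n + 1 + 1)).erase u, θ ^ G.dist u x
            = ∑ x ∈ (sphere G o (n + 1 + 1)).erase u, ∑ q ∈ sphere G o (n + 1),
                if x ∈ C q then θ ^ (G.dist p q + 2) else 0 := by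
              refine Finset.sum_congr rfl fun x hx => ?_
              obtain ⟨q, hq, hxq⟩ := Finset.mem_biUnion.1 (hsub hx)
              rw [Finset.sum_eq_single q (fun b hb hbq => if_neg fun hxb =>
                Finset.disjoint_left.1 (hdisj b hb q hq hbq) hxb hxq) (fun h => absurd hq h),
                if_pos hxq, e x hx q hq hxq]
          _ ≤ _ := by
              rw [Finset.sum_comm]
              refine Finset.sum_le_sum fun q _ => ?_
              rw [← Finset.sum_filter]
              exact Finset.sum_le_sum_of_subset_of_nonneg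
                (fun x hx => (Finset.mem_filter.1 hx).2) fun x _ _ => pow_nonneg h0 _
      have hCc : ∀ q ∈ sphere G o (n + 1), ((C q).card : ℝ) ≤ (d : ℝ) - 1 := by
        intro q hq
        have hq' := (mem_sphere hT).1 hq
        obtain ⟨z, hqz, hz⟩ := exists_closer hT (show q ≠ o by rintro rfl; simp at hq')
        have hsub : C q ⊆ (nbr G q).erase z := by
          intro x hx
          simp only [hC, Finset.mem_filter] at hx
          refine Finset.mem_erase.2 ⟨?_, hx.1⟩
          rintro rfl
          omega
        have := Finset.card_le_card hsub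
        rw [Finset.card_erase_of_mem ((mem_nbr hT).2 hqz), card_nbr hT] at this
        have hd1 : (1 : ℕ) ≤ d := by have := hT.three; omega
        have h4 := (Nat.cast_le (α := ℝ)).2 this
        rwa [Nat.cast_sub hd1, Nat.cast_one] at h4
      have h2 : ∑ q ∈ sphere G o (n + 1), ∑ x ∈ C q, θ ^ (G.dist p q + 2) ≤
          r * ∑ q ∈ sphere G o (n + 1), θ ^ G.dist p q := by
        rw [Finset.mul_sum]
        refine Finset.sum_le_sum fun q hq => ?_
        rw [Finset.sum_const, nsmul_eq_mul, pow_add]
        calc ((C q).card : ℝ) * (θ ^ G.dist p q * θ ^ 2) ≤ ((d : ℝ) - 1) * (θ ^ G.dist p q * θ ^ 2) :=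
              mul_le_mul_of_nonneg_right (hCc q hq) (mul_nonneg (pow_nonneg h0 _) (sq_nonneg θ))
          _ = r * θ ^ G.dist p q := by rw [hrdef]; ring
      have h3 := mul_le_mul_of_nonneg_left (ih p hpS) (by linarith : (0 : ℝ) ≤ r)
      have h5 : θ ^ G.dist u u = 1 := by simp
      have h6 : 1 + r * (C0 * r ^ n + (r ^ n - 1) / (r - 1)) =
          C0 * r ^ (n + 1) + (r ^ (n + 1) - 1) / (r - 1) := by
        have : r - 1 ≠ 0 := by linarith
        field_simp
        ring
      linarith
  intro n u hu
  cases n with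
  | zero =>
    have hsub : sphere G o 0 ⊆ {u} := fun w hw => by
      have e1 := hT.conn.dist_eq_zero_iff.1 ((mem_sphere hT).1 hw)
      have e2 := hT.conn.dist_eq_zero_iff.1 ((mem_sphere hT).1 hu)
      simp [← e1, ← e2]
    refine (Finset.sum_le_sum_of_subset_of_nonneg hsub fun w _ _ => pow_nonneg h0 _).trans ?_
    simp only [Finset.sum_singleton, SimpleGraph.dist_self, pow_zero, mul_one]
    have : 0 ≤ r / (r - 1) := div_nonneg (by linarith) (by linarith)
    nlinarith [sq_nonneg θ, (Nat.cast_nonneg d : (0 : ℝ) ≤ d)]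
  | succ n =>
    refine (key n u hu).trans ?_
    have h1 : C0 * r ^ n ≤ C0 * r ^ (n + 1) :=
      mul_le_mul_of_nonneg_left (pow_le_pow_right₀ hr.le (Nat.le_succ n)) (by positivity)
    have h2 : (r ^ n - 1) / (r - 1) ≤ r / (r - 1) * r ^ (n + 1) := by
      rw [div_mul_eq_mul_div]
      refine div_le_div_of_nonneg_right ?_ (by linarith)
      have h4 : r ^ n ≤ r ^ (n + 1) := pow_le_pow_right₀ hr.le (Nat.le_succ n)
      have h5 : 0 ≤ r ^ (n + 1) := by positivity
      nlinarith
    linarith [add_mul C0 (r / (r - 1)) (r ^ (n + 1))]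

/-! ## Functions of finitely many labels -/

theorem cut_iid (I : Finset V) :
    MeasurePreserving (fun p : (V → ℝ) × (V → ℝ) => fun i => if i ∈ I then p.2 i else p.1 i)
      ((iidLaw V).prod (iidLaw V)) (iidLaw V) := by
  have hm : Measurable (fun p : (V → ℝ) × (V → ℝ) => fun i => if i ∈ I then p.2 i else p.1 i) := by
    refine measurable_pi_lambda _ fun i => ?_
    split_ifs <;> fun_prop
  refine ⟨hm, Measure.eq_infinitePi _ fun s t ht => ?_⟩
  rw [Measure.map_apply hm (.pi s.countable_toSet fun i _ => ht i)]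
  have : (fun p : (V → ℝ) × (V → ℝ) => fun i => if i ∈ I then p.2 i else p.1 i) ⁻¹'
      (Set.pi (s : Set V) t) =
      (Set.pi ((s \ I : Finset V) : Set V) t) ×ˢ (Set.pi ((s ∩ I : Finset V) : Set V) t) := by
    ext p
    simp only [Set.mem_preimage, Set.mem_pi, Set.mem_prod, Finset.mem_coe, Finset.mem_sdiff,
      Finset.mem_inter]
    constructor
    · intro h
      exact ⟨fun i hi => by simpa [hi.2] using h i hi.1, fun i hi => by simpa [hi.2] using h i hi.1⟩
    · rintro ⟨h1, h2⟩ i hi
      by_cases hS : i ∈ I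
      · simpa [hS] using h2 i ⟨hi, hS⟩
      · simpa [hS] using h1 i ⟨hi, hS⟩
  rw [this, Measure.prod_prod, iidLaw, Measure.infinitePi_pi _ (fun i _ => ht i),
    Measure.infinitePi_pi _ (fun i _ => ht i)]
  rw [← Finset.prod_union (Finset.disjoint_sdiff_inter s I), Finset.sdiff_union_inter]

theorem integral_mul_indep {I J : Finset V} (hIJ : Disjoint I J) {F H : (V → ℝ) → ℝ}
    (hF : Measurable F) (hH : Measurable H) (hFI : DependsOn F (I : Set V))
    (hHJ : DependsOn H (J : Set V)) :
    ∫ U, F U * H U ∂iidLaw V = (∫ U, F U ∂iidLaw V) * ∫ U, H U ∂iidLaw V := by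
  have hFH : Measurable fun U => F U * H U := hF.mul hH
  conv_lhs => rw [← (cut_iid I).map_eq, integral_map (cut_iid I).measurable.aemeasurable
    hFH.aestronglyMeasurable]
  rw [mul_comm, ← integral_prod_mul H F]
  refine integral_congr_ae (ae_of_all _ fun p => ?_)
  show F _ * H _ = H p.1 * F p.2
  rw [mul_comm]
  congr 1
  · exact hHJ fun i hi => by simp [show i ∉ I from fun h => Finset.disjoint_left.1 hIJ h hi]
  · exact hFI fun i hi => by simp [show i ∈ I from hi]

theorem relabel_mp (g : G ≃g G) :
    MeasurePreserving (fun (U : V → ℝ) v => U (g v)) (iidLaw V) (iidLaw V) := by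
  refine ⟨by fun_prop, Measure.eq_infinitePi _ fun s t ht => ?_⟩
  rw [Measure.map_apply (by fun_prop) (.pi s.countable_toSet fun i _ => ht i)]
  have : (fun (U : V → ℝ) v => U (g v)) ⁻¹' (Set.pi (s : Set V) t) =
      Set.pi ((s.map g.toEquiv.toEmbedding : Finset V) : Set V) (fun w => t (g.symm w)) := by
    ext U
    simp
  rw [this, iidLaw, Measure.infinitePi_pi _ (fun i _ => ht _), Finset.prod_map]
  simp

theorem integrable_of_bdd' {f : (V → ℝ) → ℝ} (hf : Measurable f) {B : ℝ} (hB : ∀ x, |f x| ≤ B) :
    Integrable f (iidLaw V) := integrable_of_bdd hf hB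

/-- Above the reconstruction threshold the free Ising model is not a factor of IID. -/
theorem not_fiid (hT : RTree G d) (h0 : 0 ≤ θ) (h1 : θ < 1) (hr : 1 < ((d : ℝ) - 1) * θ ^ 2)
    {ν : Measure (V → Bool)} (hν : IsFreeIsing G θ ν) : ¬IsFIID G ν := by
  rintro ⟨Φ, hΦ, heq, hmap⟩
  obtain ⟨o⟩ := hT.conn.nonempty
  set sb := fun (v : V) (U : V → ℝ) => spin (Φ U v) with hsb
  have hspm : Measurable spin := measurable_of_countable _
  have hsbm : ∀ v, Measurable (sb v) := fun v =>
    hspm.comp ((measurable_pi_apply v).comp hΦ)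
  have habs : ∀ b : Bool, |spin b| = 1 := fun b => by cases b <;> simp [spin]
  have hsb1 : ∀ v U, |sb v U| = 1 := fun v U => habs _
  have hcorr : ∀ u w, ∫ U, sb u U * sb w U ∂iidLaw V = θ ^ G.dist u w := by
    intro u w
    have hm2 : Measurable fun σ : V → Bool => spin (σ u) * spin (σ w) :=
      (hspm.comp (measurable_pi_apply u)).mul (hspm.comp (measurable_pi_apply w))
    rw [← two_point hT h0 h1 hν u w, ← hmap, integral_map hΦ.aemeasurable hm2.aestronglyMeasurable]
  have hmean : ∫ U, sb o U ∂iidLaw V = 0 := by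
    rw [← one_point hT h0 h1 hν o, ← hmap, integral_map hΦ.aemeasurable
      (f := fun σ : V → Bool => spin (σ o))
      (hspm.comp (measurable_pi_apply o)).aestronglyMeasurable]
  obtain ⟨C, hC0, hC⟩ := sphere_sum_le hT h0 hr o
  set η := 1 / (4 * C) with hη
  have hηpos : 0 < η := by positivity
  set Eo := {U : V → ℝ | Φ U o = true} with hEo
  have hEom : MeasurableSet Eo := ((measurable_pi_apply o).comp hΦ) (measurableSet_singleton true)
  obtain ⟨t, htC, ht⟩ := exists_measure_symmDiff_lt_of_generateFrom_isSetRing (μ := iidLaw V)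
    (isSetAlgebra_measurableCylinders (α := fun _ : V => ℝ)).isSetRing
    ⟨{Set.univ}, Set.countable_singleton _, by
      simpa using (isSetAlgebra_measurableCylinders (α := fun _ : V => ℝ)).univ_mem, by simp⟩
    generateFrom_measurableCylinders.symm hEom (ε := ENNReal.ofReal (η / 24))
    (ENNReal.ofReal_pos.2 (by positivity))
  obtain ⟨I, S, hSm, rfl⟩ := (mem_measurableCylinders t).1 htC
  set t : Set (V → ℝ) := cylinder I S with htdef
  have htm : MeasurableSet t := hSm.cylinder _
  set f := fun U => if U ∈ t then (1 : ℝ) else -1 with hf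
  have hfm : Measurable f := Measurable.ite htm measurable_const measurable_const
  have hfdep : DependsOn f (I : Set V) := by
    intro x y hxy
    have e : x ∈ t ↔ y ∈ t := by
      have : I.restrict x = I.restrict y := funext fun i => hxy i i.2
      simp [htdef, this]
    simp only [hf, e]
  set ζ := ∫ U, f U ∂iidLaw V with hζ
  set f' := fun U => f U - ζ with hf'
  have hfb : ∀ U, |f U| = 1 := fun U => by simp only [hf]; split_ifs <;> simp
  have hfi : Integrable f (iidLaw V) := integrable_of_bdd' hfm fun U => (hfb U).le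
  have hdiff : ∀ U, |sb o U - f U| = 2 * (t ∆ Eo).indicator (fun _ => (1 : ℝ)) U := by
    intro U
    by_cases h1 : U ∈ t <;> by_cases h2 : U ∈ Eo <;>
      simp only [hsb, hf, hEo, Set.mem_setOf_eq] at h2 ⊢ <;>
      simp [Set.indicator, Set.mem_symmDiff, h1, h2, hEo, spin] <;> norm_num
  have hδ : ∫ U, |sb o U - f U| ∂iidLaw V ≤ η / 12 := by
    simp only [hdiff, integral_const_mul]
    rw [integral_indicator (htm.symmDiff hEom), setIntegral_const, smul_eq_mul, mul_one,
      measureReal_def]
    have := ENNReal.toReal_le_of_le_ofReal (by positivity) ht.le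
    linarith
  have hζb : |ζ| ≤ η / 12 := by
    have e : ζ = ∫ U, (f U - sb o U) ∂iidLaw V := by
      rw [integral_sub hfi (integrable_of_bdd' (hsbm o) fun U => (hsb1 o U).le), hmean, sub_zero]
    rw [e, ← Real.norm_eq_abs]
    refine (norm_integral_le_integral_norm _).trans ?_
    simp only [Real.norm_eq_abs, abs_sub_comm (f _)]
    exact hδ
  have hζ1 : |ζ| ≤ 1 := by
    have := norm_integral_le_of_norm_le_const (μ := iidLaw V) (f := f) (C := 1)
      (ae_of_all _ fun U => (hfb U).le)
    simpa [Real.norm_eq_abs] using this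
  have hf'm : Measurable f' := hfm.sub_const ζ
  have hf'b : ∀ U, |f' U| ≤ 2 := fun U => (abs_sub _ _).trans (by rw [hfb]; linarith)
  have hf'0 : ∫ U, f' U ∂iidLaw V = 0 := by
    rw [integral_sub hfi (integrable_const _), integral_const]
    simp [hζ]
  have hL2 : ∫ U, (sb o U - f' U) ^ 2 ∂iidLaw V ≤ η / 2 := by
    have hb : ∀ U, |sb o U - f' U| ≤ 3 := fun U => (abs_sub _ _).trans
      (by rw [hsb1]; linarith [hf'b U])
    calc ∫ U, (sb o U - f' U) ^ 2 ∂iidLaw V ≤ ∫ U, (3 * |sb o U - f U| + 3 * |ζ|) ∂iidLaw V := by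
          refine integral_mono (integrable_of_bdd' (((hsbm o).sub hf'm).pow_const 2) (B := 9) fun U => ?_)
            (((integrable_of_bdd' ((hsbm o).sub hfm) (B := 2) fun U => (abs_sub _ _).trans
              (by rw [hsb1, hfb]; norm_num)).abs.const_mul 3).add (integrable_const _)) fun U => ?_
          · rw [abs_pow]
            calc |sb o U - f' U| ^ 2 ≤ (3 : ℝ) ^ 2 := pow_le_pow_left₀ (abs_nonneg _) (hb U) 2
              _ = 9 := by norm_num
          · show (sb o U - f' U) ^ 2 ≤ _
            rw [← sq_abs, sq]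
            have e : |sb o U - f' U| ≤ |sb o U - f U| + |ζ| := by
              rw [show sb o U - f' U = (sb o U - f U) + ζ by simp only [hf']; ring]
              exact abs_add_le _ _
            refine (mul_le_mul (hb U) e (abs_nonneg _) (by norm_num)).trans (le_of_eq ?_)
            ring
      _ ≤ η / 2 := by
          have hi : Integrable (fun U => 3 * |sb o U - f U|) (iidLaw V) :=
            (integrable_of_bdd' ((hsbm o).sub hfm) (B := 2) fun U =>
              (abs_sub _ _).trans (by rw [hsb1, hfb]; norm_num)).abs.const_mul 3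
          rw [integral_add hi (integrable_const _), integral_const_mul, integral_const]
          simp only [probReal_univ, smul_eq_mul, one_mul]
          linarith
  -- the symmetries moving each vertex to `o`
  obtain ⟨r, hIr⟩ := exists_ball_superset hT o I
  obtain ⟨g, hg, hginj⟩ := exists_symmetries hT o
  set F := fun (v : V) (U : V → ℝ) => f' (fun w => U (g v w)) with hF
  have hFm : ∀ v, Measurable (F v) := fun v => hf'm.comp (relabel_mp (g v)).measurable
  have hFb : ∀ v U, |F v U| ≤ 2 := fun v U => hf'b _
  have hFdep : ∀ v, DependsOn (F v) (ball G (g v o) r : Set V) := by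
    intro v x y hxy
    simp only [hF, hf']
    rw [hfdep fun i hi => hxy (g v i) (by
      rw [Finset.mem_coe, mem_ball hT, iso_dist hT]
      exact (mem_ball hT).1 (hIr hi))]
  have hF0 : ∀ v, ∫ U, F v U ∂iidLaw V = 0 := fun v => by
    have h := integral_map (μ := iidLaw V) (relabel_mp (g v)).measurable.aemeasurable
      (f := f') hf'm.aestronglyMeasurable
    rw [(relabel_mp (g v)).map_eq, hf'0] at h
    exact h.symm
  have hmove : ∀ v, ∫ U, f' U * sb v U ∂iidLaw V = ∫ U, F v U * sb o U ∂iidLaw V := by
    intro v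
    set T := fun (U : V → ℝ) (w : V) => U ((g v).symm w) with hT'
    have hTmp : MeasurePreserving T (iidLaw V) (iidLaw V) := relabel_mp (g v).symm
    have hFs : Measurable fun U => F v U * sb o U := (hFm v).mul (hsbm o)
    conv_rhs => rw [← hTmp.map_eq, integral_map hTmp.measurable.aemeasurable
      hFs.aestronglyMeasurable]
    refine integral_congr_ae ?_
    filter_upwards [heq (g v)] with U hU
    have e1 : F v (T U) = f' U := by simp [hF, hT']
    have e2 : sb o (T U) = sb v U := by
      simp only [hsb, hT', hU]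
      congr 2
      rw [RelIso.symm_apply_eq]
      exact (hg v).symm
    rw [e1, e2]
  set M := (ball G o (2 * r)).card with hM
  -- letting the radius of the sphere tend to infinity
  obtain ⟨n, hn⟩ := (pow_unbounded_of_one_lt (16 * (M : ℝ) + 1) hr)
  set Sn := sphere G o n with hSn
  set N : ℝ := (Sn.card : ℝ) with hN
  set P := fun U => ∑ v ∈ Sn, sb v U with hP
  set Q := fun U => ∑ v ∈ Sn, F v U with hQ
  have hd : (3 : ℝ) ≤ d := by exact_mod_cast hT.three
  have hNlow : ((d : ℝ) - 1) ^ n ≤ N := card_sphere_ge hT o n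
  have hN0 : 0 < N := lt_of_lt_of_le (pow_pos (by linarith) n) hNlow
  have hθ : 0 < θ := by
    rcases h0.lt_or_eq with h | h
    · exact h
    · rw [← h] at hr; norm_num at hr
  have hPm : Measurable P := Finset.measurable_sum _ fun v _ => hsbm v
  have hQm : Measurable Q := Finset.measurable_sum _ fun v _ => hFm v
  have hPb : ∀ U, |P U| ≤ N := fun U => by
    refine (Finset.abs_sum_le_sum_abs _ _).trans (le_of_eq ?_)
    simp [hsb1, hN]
  have hQb : ∀ U, |Q U| ≤ 2 * N := fun U => by
    refine (Finset.abs_sum_le_sum_abs _ _).trans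
      ((Finset.sum_le_card_nsmul _ _ 2 fun v _ => hFb v U).trans (le_of_eq ?_))
    rw [nsmul_eq_mul, hN]; ring
  have hPsq : ∫ U, P U ^ 2 ∂iidLaw V ≤ N * (C * (((d : ℝ) - 1) * θ ^ 2) ^ n) := by
    simp only [hP, sq, Finset.sum_mul_sum]
    have hi : ∀ u w, Integrable (fun U => sb u U * sb w U) (iidLaw V) := fun u w =>
      integrable_of_bdd' ((hsbm u).mul (hsbm w)) (B := 1) fun U => by
        rw [abs_mul, hsb1, hsb1]; norm_num
    rw [integral_finsetSum _ fun u _ => integrable_finsetSum _ fun w _ => hi u w]
    simp only [integral_finsetSum _ (fun w _ => hi _ w), hcorr]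
    refine (Finset.sum_le_card_nsmul _ _ _ (fun u hu => hC n u hu)).trans (le_of_eq ?_)
    rw [nsmul_eq_mul, hN]; ring
  have hQsq : ∫ U, Q U ^ 2 ∂iidLaw V ≤ N * (4 * M) := by
    simp only [hQ, sq, Finset.sum_mul_sum]
    have hi : ∀ u w, Integrable (fun U => F u U * F w U) (iidLaw V) := fun u w =>
      integrable_of_bdd' ((hFm u).mul (hFm w)) (B := 4) fun U => by
        rw [abs_mul]
        calc |F u U| * |F w U| ≤ 2 * 2 := mul_le_mul (hFb u U) (hFb w U) (abs_nonneg _) (by norm_num)
          _ = 4 := by norm_num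
    rw [integral_finsetSum _ fun u _ => integrable_finsetSum _ fun w _ => hi u w]
    simp only [integral_finsetSum _ (fun w _ => hi _ w)]
    refine (Finset.sum_le_card_nsmul _ _ (4 * (M : ℝ)) fun u _ => ?_).trans
      (le_of_eq (by rw [nsmul_eq_mul, hN]))
    set K := Sn.filter fun w => g w o ∈ ball G (g u o) (2 * r) with hK
    have hKc : (K.card : ℝ) ≤ M := by
      have h1 : K.card ≤ (ball G (g u o) (2 * r)).card :=
        Finset.card_le_card_of_injOn (fun w => g w o) (fun w hw => (Finset.mem_filter.1 hw).2)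
          hginj.injOn
      rw [ball_map hT (g u) o (2 * r), Finset.card_map] at h1
      exact_mod_cast h1
    calc ∑ w ∈ Sn, ∫ U, F u U * F w U ∂iidLaw V = ∑ w ∈ K, ∫ U, F u U * F w U ∂iidLaw V := by
          refine (Finset.sum_filter_of_ne fun w hw hne => ?_).symm
          by_contra hfar
          apply hne
          rw [integral_mul_indep (I := ball G (g u o) r) (J := ball G (g w o) r) ?_ (hFm u) (hFm w)
            (hFdep u) (hFdep w), hF0 u, zero_mul]
          rw [Finset.disjoint_left]
          intro x hx hx'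
          apply hfar
          rw [mem_ball hT] at hx hx' ⊢
          have := hT.conn.dist_triangle (u := g u o) (v := x) (w := g w o)
          rw [SimpleGraph.dist_comm (u := x) (v := g w o)] at this
          omega
      _ ≤ ∑ _w ∈ K, (4 : ℝ) := Finset.sum_le_sum fun w _ => by
          calc ∫ U, F u U * F w U ∂iidLaw V ≤ ∫ _U, (4 : ℝ) ∂iidLaw V :=
                integral_mono (hi u w) (integrable_const _) fun U => by
                  have a1 := abs_le.1 (hFb u U)
                  have a2 := abs_le.1 (hFb w U)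
                  show F u U * F w U ≤ 4
                  nlinarith
            _ = 4 := by simp
      _ ≤ 4 * M := by rw [Finset.sum_const, nsmul_eq_mul]; linarith
  have hmain : N * θ ^ n = ∫ U, (sb o U - f' U) * P U ∂iidLaw V + ∫ U, Q U * sb o U ∂iidLaw V := by
    have i1 : ∀ v, Integrable (fun U => f' U * sb v U) (iidLaw V) := fun v =>
      integrable_of_bdd' (hf'm.mul (hsbm v)) (B := 2) fun U => by
        rw [abs_mul, hsb1, mul_one]; exact hf'b U
    have i2 : ∀ v, Integrable (fun U => F v U * sb o U) (iidLaw V) := fun v =>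
      integrable_of_bdd' ((hFm v).mul (hsbm o)) (B := 2) fun U => by
        rw [abs_mul, hsb1, mul_one]; exact hFb v U
    have i3 : ∀ v, Integrable (fun U => sb o U * sb v U) (iidLaw V) := fun v =>
      integrable_of_bdd' ((hsbm o).mul (hsbm v)) (B := 1) fun U => by
        rw [abs_mul, hsb1, hsb1]; norm_num
    simp only [hP, hQ, sub_mul, Finset.mul_sum, Finset.sum_mul]
    have i4 : ∀ v, Integrable (fun U => sb o U * sb v U - f' U * sb v U) (iidLaw V) := fun v =>
      (i3 v).sub (i1 v)
    rw [integral_finsetSum _ (fun v _ => i4 v),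
      integral_finsetSum _ (fun v _ => i2 v)]
    simp only [integral_sub (i3 _) (i1 _), Finset.sum_sub_distrib, hcorr, hmove, sub_add_cancel]
    rw [Finset.sum_congr rfl fun v hv => by rw [(mem_sphere hT).1 hv], Finset.sum_const,
      nsmul_eq_mul]
  have amgm : ∀ (X Y : (V → ℝ) → ℝ) (lam : ℝ), 0 < lam → Measurable X → Measurable Y →
      ∀ (BX BY : ℝ), (∀ U, |X U| ≤ BX) → (∀ U, |Y U| ≤ BY) →
      ∫ U, X U * Y U ∂iidLaw V ≤
        lam * (∫ U, X U ^ 2 ∂iidLaw V) / 2 + (∫ U, Y U ^ 2 ∂iidLaw V) / (2 * lam) := by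
    intro X Y lam hl hX hY BX BY hBX hBY
    have i1 : Integrable (fun U => X U ^ 2) (iidLaw V) :=
      integrable_of_bdd' (hX.pow_const 2) (B := BX ^ 2) fun U => by
        rw [abs_pow]; exact pow_le_pow_left₀ (abs_nonneg _) (hBX U) 2
    have i2 : Integrable (fun U => Y U ^ 2) (iidLaw V) :=
      integrable_of_bdd' (hY.pow_const 2) (B := BY ^ 2) fun U => by
        rw [abs_pow]; exact pow_le_pow_left₀ (abs_nonneg _) (hBY U) 2
    calc ∫ U, X U * Y U ∂iidLaw V ≤ ∫ U, (lam * X U ^ 2 / 2 + Y U ^ 2 / (2 * lam)) ∂iidLaw V := by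
          refine integral_mono (integrable_of_bdd' (hX.mul hY) (B := BX * BY) fun U => ?_)
            (((i1.const_mul lam).div_const 2).add (i2.div_const _)) fun U => ?_
          · rw [abs_mul]
            exact mul_le_mul (hBX U) (hBY U) (abs_nonneg _) ((abs_nonneg _).trans (hBX U))
          · show X U * Y U ≤ _
            rw [div_add_div _ _ two_ne_zero (by positivity), le_div_iff₀ (by positivity)]
            nlinarith [sq_nonneg (lam * X U - Y U)]
      _ = _ := by
          rw [integral_add ((i1.const_mul lam).div_const 2) (i2.div_const _), integral_div,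
            integral_const_mul, integral_div]
  set rn := (((d : ℝ) - 1) * θ ^ 2) ^ n with hrn
  have hbound1 := amgm (fun U => sb o U - f' U) P (2 * C * (N * θ ^ n)) (by positivity)
    ((hsbm o).sub hf'm) hPm 3 N (fun U => (abs_sub _ _).trans (by rw [hsb1]; linarith [hf'b U])) hPb
  have hbound2 := amgm Q (sb o) (1 / (N * θ ^ n)) (by positivity) hQm (hsbm o) (2 * N) 1 hQb
    (fun U => (hsb1 o U).le)
  have hone : ∫ U, sb o U ^ 2 ∂iidLaw V = 1 := by
    have : ∀ U, sb o U ^ 2 = 1 := fun U => by rw [← sq_abs, hsb1]; norm_num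
    simp [this]
  rw [hone] at hbound2
  have hθn : 0 < θ ^ n := pow_pos hθ n
  set A := N * θ ^ n with hA
  have hA0 : 0 < A := by positivity
  have hrA : rn ≤ N * (θ ^ n * θ ^ n) := by
    rw [hrn, mul_pow, ← pow_mul, show θ ^ (2 * n) = θ ^ n * θ ^ n by rw [two_mul, pow_add]]
    exact mul_le_mul_of_nonneg_right hNlow (by positivity)
  have b1 : 2 * C * A * (∫ U, (sb o U - f' U) ^ 2 ∂iidLaw V) / 2 ≤ A / 8 := by
    have h := mul_le_mul_of_nonneg_left hL2 (by positivity : 0 ≤ 2 * C * A)
    have e : 2 * C * A * (η / 2) = A / 4 := by rw [hη]; field_simp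
    linarith
  have b2 : (∫ U, P U ^ 2 ∂iidLaw V) / (2 * (2 * C * A)) ≤ A / 4 := by
    rw [div_le_iff₀ (by positivity)]
    refine hPsq.trans ?_
    have := mul_le_mul_of_nonneg_left hrA (by positivity : 0 ≤ N * C)
    have e : A / 4 * (2 * (2 * C * A)) = N * C * (N * (θ ^ n * θ ^ n)) := by rw [hA]; ring
    linarith
  have b3 : 1 / A * (∫ U, Q U ^ 2 ∂iidLaw V) / 2 < A / 8 := by
    rw [div_lt_iff₀ two_pos, div_mul_eq_mul_div, one_mul, div_lt_iff₀ hA0]
    refine hQsq.trans_lt ?_
    have h16 : 16 * (M : ℝ) + 1 < N * (θ ^ n * θ ^ n) := hn.trans_le hrA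
    have h17 := mul_lt_mul_of_pos_left h16 hN0
    have e : A / 8 * 2 * A = N * (N * (θ ^ n * θ ^ n)) / 4 := by rw [hA]; ring
    rw [e]
    linarith
  have b4 : (1 : ℝ) / (2 * (1 / A)) = A / 2 := by field_simp
  rw [b4] at hbound2
  linarith

end Vale.Agent.P161
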