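import Mathlib.Combinatorics.SimpleGraph.Acyclic
import Mathlib.Combinatorics.SimpleGraph.Metric
import Mathlib.Probability.ProductMeasure
import Mathlib.MeasureTheory.Measure.Lebesgue.Basic
import Mathlib.Analysis.SpecialFunctions.Trigonometric.DerivHyp

/-!
# The free Ising state on a tree and factors of IID processes
-/

open MeasureTheory

noncomputable section

namespace Vale.Agent.P161

variable {V : Type*}

/-- The spin value of a Boolean: `true ↦ 1`, `false ↦ -1`. -/
def spin (b : Bool) : ℝ := if b then 1 else -1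

/-- `G` is the `d`-regular tree. -/
def IsRegularTree (G : SimpleGraph V) (d : ℕ) : Prop :=
  G.IsTree ∧ ∀ v, (G.neighborSet v).ncard = d

open scoped Classical in
/-- The edges of `G` with both ends in `D`. -/
def edgesIn (G : SimpleGraph V) (D : Finset V) : Finset (Sym2 V) :=
  D.sym2.filter (fun e => e ∈ G.edgeSet)

/-- The factor `(1 + θ η_a η_b) / 2` attached to the edge `{a, b}`. -/
def edgeWeight (θ : ℝ) (η : V → Bool) : Sym2 V → ℝ :=
  Sym2.lift ⟨fun a b => (1 + θ * spin (η a) * spin (η b)) / 2, fun a b => by ring⟩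

/-- The free zero-field Ising measure with edge correlation `θ`: a probability measure whose
marginal on every finite connected vertex set `D` is
`(1/2) ∏_{edges ab inside D} (1 + θ η_a η_b)/2`. -/
def IsFreeIsing (G : SimpleGraph V) (θ : ℝ) (ν : Measure (V → Bool)) : Prop :=
  IsProbabilityMeasure ν ∧
    ∀ D : Finset V, (G.induce (D : Set V)).Connected → ∀ η : V → Bool,
      ν {σ | ∀ v ∈ D, σ v = η v} =
        ENNReal.ofReal ((1 / 2) * ∏ e ∈ edgesIn G D, edgeWeight θ η e)

/-- The uniform law on `[0, 1]`. -/
def unifLaw : Measure ℝ := volume.restrict (Set.Icc (0 : ℝ) 1)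

instance : IsProbabilityMeasure unifLaw :=
  ⟨by simp [unifLaw]⟩

/-- The law of an i.i.d. family of uniform labels, one for each vertex. -/
def iidLaw (V : Type*) : Measure (V → ℝ) := Measure.infinitePi fun _ => unifLaw

/-- `ν` is the law of an automorphism equivariant measurable image of i.i.d. uniform labels. -/
def IsFIID (G : SimpleGraph V) (ν : Measure (V → Bool)) : Prop :=
  ∃ Φ : (V → ℝ) → (V → Bool), Measurable Φ ∧
    (∀ g : G ≃g G, ∀ᵐ U ∂iidLaw V, Φ (fun v => U (g.symm v)) = fun v => Φ U (g.symm v)) ∧
    (iidLaw V).map Φ = ν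

end Vale.Agent.P161
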