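import Vale.Agent.P161.Converse

/-!
# The free Ising measure exists at every temperature

Every vertex copies the spin of its parent with probability `(1 + θ) / 2`.
-/

open MeasureTheory Finset Real
open scoped ENNReal Classical

noncomputable section

namespace Vale.Agent.P161

universe u

variable {V : Type u} {G : SimpleGraph V} {d : ℕ} {θ : ℝ}

/-- A neighbour of `v` nearer to `o`. -/
def par (G : SimpleGraph V) (o v : V) : V :=
  if h : ∃ w, G.Adj v w ∧ G.dist o v = G.dist o w + 1 then h.choose else v

theorem par_spec (hT : RTree G d) {o v : V} (h : v ≠ o) :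
    G.Adj v (par G o v) ∧ G.dist o v = G.dist o (par G o v) + 1 := by
  have he : ∃ w, G.Adj v w ∧ G.dist o v = G.dist o w + 1 := exists_closer hT h
  rw [par, dif_pos he]
  exact he.choose_spec

/-- The spin at distance `n` from the root. -/
def grown (G : SimpleGraph V) (θ : ℝ) (o : V) : ℕ → V → (V → ℝ) → Bool
  | 0, _, U => decide (U o < 1 / 2)
  | n + 1, v, U =>
    if U v < (1 + θ) / 2 then grown G θ o n (par G o v) U else !(grown G θ o n (par G o v) U)

/-- The configuration grown from the root. -/
def grownConf (G : SimpleGraph V) (θ : ℝ) (o : V) (U : V → ℝ) : V → Bool :=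
  fun v => grown G θ o (G.dist o v) v U

theorem measurable_grown (o : V) : ∀ n v, Measurable (grown G θ o n v) := by
  intro n
  induction n with
  | zero =>
    intro v
    exact measurable_to_bool (by
      simpa [grown, Set.preimage] using
        (measurableSet_lt (measurable_pi_apply o) measurable_const :
          MeasurableSet {U : V → ℝ | U o < (1 / 2 : ℝ)}))
  | succ n ih =>
    intro v
    exact Measurable.ite (measurableSet_lt (measurable_pi_apply v) measurable_const) (ih _)
      ((measurable_of_countable (fun b : Bool => !b)).comp (ih _))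

theorem measurable_grownConf (o : V) : Measurable (grownConf G θ o) :=
  measurable_pi_lambda _ fun v => measurable_grown o _ v

theorem grownConf_root (o : V) (U : V → ℝ) : grownConf G θ o U o = decide (U o < 1 / 2) := by
  simp [grownConf, grown]

theorem grownConf_step (hT : RTree G d) {o v : V} (h : v ≠ o) (U : V → ℝ) :
    grownConf G θ o U v =
      if U v < (1 + θ) / 2 then grownConf G θ o U (par G o v)
      else !(grownConf G θ o U (par G o v)) := by
  simp only [grownConf]
  rw [(par_spec hT h).2, grown]

theorem unifLaw_Iio {q : ℝ} (h0 : 0 ≤ q) (h1 : q ≤ 1) : unifLaw (Set.Iio q) = ENNReal.ofReal q := by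
  rw [unifLaw, Measure.restrict_apply measurableSet_Iio,
    show Set.Iio q ∩ Set.Icc 0 1 = Set.Ico 0 q by
      ext x; simp only [Set.mem_inter_iff, Set.mem_Iio, Set.mem_Icc, Set.mem_Ico]
      exact ⟨fun h => ⟨h.2.1, h.1⟩, fun h => ⟨h.2, h.1, by linarith [h.2]⟩⟩,
    Real.volume_Ico, sub_zero]

theorem unifLaw_Ici {q : ℝ} (h0 : 0 ≤ q) : unifLaw (Set.Ici q) = ENNReal.ofReal (1 - q) := by
  rw [unifLaw, Measure.restrict_apply measurableSet_Ici,
    show Set.Ici q ∩ Set.Icc 0 1 = Set.Icc q 1 by
      ext x; simp only [Set.mem_inter_iff, Set.mem_Ici, Set.mem_Icc]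
      exact ⟨fun h => ⟨h.1, h.2.2⟩, fun h => ⟨h.1, by linarith [h.1], h.2⟩⟩,
    Real.volume_Icc]

/-- The set of labels at `v` producing `η v` out of `η (par v)`. -/
def cell (G : SimpleGraph V) (θ : ℝ) (o : V) (η : V → Bool) (v : V) : Set ℝ :=
  if v = o then (if η o then Set.Iio (1 / 2) else Set.Ici (1 / 2))
  else if η v = η (par G o v) then Set.Iio ((1 + θ) / 2) else Set.Ici ((1 + θ) / 2)

theorem measurableSet_cell (o : V) (η : V → Bool) (v : V) :
    MeasurableSet (cell G θ o η v) := by
  unfold cell
  split_ifs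
  exacts [measurableSet_Iio, measurableSet_Ici, measurableSet_Iio, measurableSet_Ici]

theorem grown_event (hT : RTree G d) (h0 : 0 ≤ θ) (h1 : θ < 1) {o : V} {E : Finset V}
    (hE : Conn G E) (ho : o ∈ E) (η : V → Bool) :
    {U | ∀ v ∈ E, grownConf G θ o U v = η v} = Set.pi (E : Set V) (cell G θ o η) ∧
      ∏ v ∈ E, unifLaw (cell G θ o η v) =
        ENNReal.ofReal ((1 / 2) * ∏ e ∈ edgesIn G E, edgeWeight θ η e) := by
  refine grow_induction hT
    (fun E => {U | ∀ v ∈ E, grownConf G θ o U v = η v} = Set.pi (E : Set V) (cell G θ o η) ∧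
      ∏ v ∈ E, unifLaw (cell G θ o η v) =
        ENNReal.ofReal ((1 / 2) * ∏ e ∈ edgesIn G E, edgeWeight θ η e))
    (conn_singleton o) hE (Finset.singleton_subset_iff.2 ho) ⟨?_, ?_⟩ ?_
  · ext U
    simp only [Set.mem_ofPred_eq, Finset.mem_singleton, forall_eq, grownConf_root,
      Finset.coe_singleton, Set.singleton_pi, Set.mem_preimage, Function.eval, cell, if_true]
    cases η o <;> simp [not_lt]
  · rw [edgesIn_singleton, Finset.prod_empty, mul_one, Finset.prod_singleton, cell, if_pos rfl]
    cases η o
    · rw [if_neg (by simp), unifLaw_Ici (by norm_num)]; norm_num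
    · rw [if_pos rfl, unifLaw_Iio (by norm_num) (by norm_num)]
  · intro E v p hEc hoE _ hv hp hadj huniq ⟨ih1, ih2⟩
    have hoE' : o ∈ E := Finset.singleton_subset_iff.1 hoE
    have hvo : v ≠ o := fun e => hv (e ▸ hoE')
    have hpar : par G o v = p := by
      have hl := dist_leaf hT hEc hv hp hoE' hadj
      rw [SimpleGraph.dist_comm (u := v), SimpleGraph.dist_comm (u := p)] at hl
      exact closer_unique hT (par_spec hT hvo).1 hadj (par_spec hT hvo).2 hl
    constructor
    · have key : ∀ U, (∀ u ∈ E, grownConf G θ o U u = η u) →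
          (grownConf G θ o U v = η v ↔ U v ∈ cell G θ o η v) := by
        intro U hU
        rw [grownConf_step hT hvo, hpar, hU p hp, cell, if_neg hvo, hpar]
        by_cases hc : U v < (1 + θ) / 2 <;> cases η v <;> cases η p <;> simp [hc, le_of_not_gt]
      ext U
      have ih' := Set.ext_iff.1 ih1 U
      simp only [Set.mem_ofPred_eq, Set.mem_pi, Finset.mem_coe] at ih'
      simp only [Set.mem_ofPred_eq, Set.mem_pi, Finset.mem_coe, Finset.forall_mem_insert]
      constructor
      · rintro ⟨hv', hU⟩
        exact ⟨(key U hU).1 hv', ih'.1 hU⟩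
      · rintro ⟨hv', hU⟩
        exact ⟨(key U (ih'.2 hU)).2 hv', ih'.2 hU⟩
    · rw [Finset.prod_insert hv, ih2, edgesIn_insert hp hadj huniq,
        Finset.prod_insert (not_mem_edgesIn hv), edgeWeight_mk, cell, if_neg hvo, hpar,
        show (1 / 2 : ℝ) * ((1 + θ * spin (η v) * spin (η p)) / 2 *
            ∏ e ∈ edgesIn G E, edgeWeight θ η e) =
          (1 + θ * spin (η v) * spin (η p)) / 2 *
            (1 / 2 * ∏ e ∈ edgesIn G E, edgeWeight θ η e) by ring]
      have hcases : unifLaw (if η v = η p then Set.Iio ((1 + θ) / 2) else Set.Ici ((1 + θ) / 2)) =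
          ENNReal.ofReal ((1 + θ * spin (η v) * spin (η p)) / 2) := by
        cases η v <;> cases η p <;>
          simp only [reduceIte, Bool.false_eq_true, Bool.true_eq_false, spin] <;>
          first
            | (rw [unifLaw_Iio (by linarith) (by linarith)]; congr 1; ring)
            | (rw [unifLaw_Ici (by linarith)]; congr 1; ring)
      rw [hcases, ← ENNReal.ofReal_mul]
      cases η v <;> cases η p <;> simp [spin] <;> linarith

/-- The law of the grown configuration. -/
theorem exists_freeIsing (hT : RTree G d) (h0 : 0 ≤ θ) (h1 : θ < 1) :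
    ∃ ν, IsFreeIsing G θ ν := by
  obtain ⟨o⟩ := hT.conn.nonempty
  have hm := measurable_grownConf (G := G) (θ := θ) o
  refine ⟨(iidLaw V).map (grownConf G θ o), Measure.isProbabilityMeasure_map hm.aemeasurable, ?_⟩
  intro D hD η
  obtain ⟨n, hn⟩ := exists_ball_superset hT o D
  set D' := ball G o n with hD'
  have hcD' : Conn G D' := conn_ball hT o n
  set cylSet := fun (E : Finset V) (a : V → Bool) => {σ : V → Bool | ∀ v ∈ E, σ v = a v} with hcyl
  have hcm : ∀ E a, MeasurableSet (cylSet E a) := fun E a => by
    have : cylSet E a = ⋂ v ∈ E, (fun σ : V → Bool => σ v) ⁻¹' {a v} := by ext σ; simp [hcyl]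
    rw [this]
    exact Finset.measurableSet_biInter _ fun v _ =>
      (measurable_pi_apply v) (measurableSet_singleton _)
  have hbig : ∀ a, (iidLaw V).map (grownConf G θ o) (cylSet D' a) =
      ENNReal.ofReal ((1 / 2) * ∏ e ∈ edgesIn G D', edgeWeight θ a e) := by
    intro a
    obtain ⟨e1, e2⟩ := grown_event hT h0 h1 hcD' (self_mem_ball hT o n) a
    rw [Measure.map_apply hm (hcm D' a)]
    change iidLaw V {U | ∀ v ∈ D', grownConf G θ o U v = a v} = _
    rw [e1, iidLaw, Measure.infinitePi_pi _ (fun v _ => measurableSet_cell o a v), e2]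
  set good := D'.powerset.filter fun A => ∀ v ∈ D, decide (v ∈ A) = η v with hgood
  set ind := fun A : Finset V => if ∀ v ∈ D, decide (v ∈ A) = η v then (1 : ℝ) else 0 with hind
  have hsplit : cylSet D η = ⋃ A ∈ good, cylSet D' fun v => decide (v ∈ A) := by
    ext σ
    simp only [hcyl, hgood, Set.mem_iUnion, Finset.mem_filter, Finset.mem_powerset,
      Set.mem_ofPred_eq, exists_prop]
    constructor
    · intro h
      refine ⟨D'.filter fun v => σ v = true, ⟨Finset.filter_subset _ _, fun v hv => ?_⟩,
        fun v hv => ?_⟩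
      · rw [← h v hv]; cases hσ : σ v <;> simp [hn hv, hσ]
      · cases hσ : σ v <;> simp [hv, hσ]
    · rintro ⟨A, ⟨-, hA⟩, hσ⟩ v hv
      rw [hσ v (hn hv), hA v hv]
  have hdisj : (good : Set (Finset V)).PairwiseDisjoint
      fun A => cylSet D' fun v => decide (v ∈ A) := by
    intro A hA B hB hAB
    rw [Function.onFun, Set.disjoint_left]
    intro σ hσA hσB
    apply hAB
    have hA' := Finset.mem_powerset.1 (Finset.mem_filter.1 hA).1
    have hB' := Finset.mem_powerset.1 (Finset.mem_filter.1 hB).1
    ext v
    constructor <;> intro hv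
    · have := (hσA v (hA' hv)).symm.trans (hσB v (hA' hv))
      simpa [hv] using this
    · have := (hσA v (hB' hv)).symm.trans (hσB v (hB' hv))
      simpa [hv] using this
  have hmarg := num_zero_marginal hT h0 h1 hD hcD' hn (f := ind) (fun A => by
    simp only [hind]
    refine if_congr (forall₂_congr fun v hv => ?_) rfl rfl
    simp [hv])
  have hleft : num G θ D' (fun _ => 0) ind = ∑ A ∈ good, wt G θ D' A := by
    rw [num, hgood, Finset.sum_filter]
    refine Finset.sum_congr rfl fun A _ => ?_
    simp only [hind, bf, zero_mul, Finset.sum_const_zero, Real.exp_zero, mul_one]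
    split_ifs <;> simp
  have hright : num G θ D (fun _ => 0) ind = (1 / 2) * ∏ e ∈ edgesIn G D, edgeWeight θ η e := by
    have hfil : ∀ v ∈ D, decide (v ∈ D.filter fun v => η v = true) = η v := fun v hv => by
      cases h : η v <;> simp [hv, h]
    rw [num, Finset.sum_eq_single (D.filter fun v => η v = true) (fun A hA hne => ?_)
      (fun h => absurd (Finset.mem_powerset.2 (Finset.filter_subset _ _)) h)]
    · rw [show ind (D.filter fun v => η v = true) = 1 from if_pos hfil, mul_one, bf]
      simp only [zero_mul, Finset.sum_const_zero, Real.exp_zero, mul_one, wt]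
      refine congrArg ((1 / 2 : ℝ) * ·) (Finset.prod_congr rfl fun e he => ?_)
      induction e using Sym2.ind with
      | h a b =>
        simp only [edgesIn, Finset.mem_filter, Finset.mk_mem_sym2_iff] at he
        rw [edgeWeight_mk, edgeWeight_mk, hfil a he.1.1, hfil b he.1.2]
    · rw [show ind A = 0 from if_neg fun hA' => hne ?_, mul_zero]
      ext v
      rw [Finset.mem_filter]
      constructor
      · intro hv
        have hvD := Finset.mem_powerset.1 hA hv
        exact ⟨hvD, by rw [← hA' v hvD]; simp [hv]⟩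
      · rintro ⟨hvD, hv⟩
        rw [← hA' v hvD] at hv
        simpa using hv
  change (iidLaw V).map (grownConf G θ o) (cylSet D η) = _
  rw [hsplit, measure_biUnion_finset hdisj (fun A _ => hcm _ _), ← hright, ← hmarg, hleft,
    ENNReal.ofReal_sum_of_nonneg fun A _ => (wt_pos h0 h1 D' A).le]
  exact Finset.sum_congr rfl fun A _ => hbig _

end Vale.Agent.P161
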