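import Vale.Agent.P161.Tree
import Mathlib.Analysis.Calculus.MeanValue
import Mathlib.Analysis.Calculus.Deriv.Inv
import Mathlib.Analysis.Calculus.Deriv.Add
import Mathlib.Analysis.SpecialFunctions.ExpDeriv
import Mathlib.Analysis.SpecialFunctions.Log.Basic
import Mathlib.Tactic.Ring

/-!
# The free Ising model on finite subtrees in an arbitrary external field

A configuration on `D` is described by the set `A ⊆ D` of its plus spins.
-/

open Finset Real
open scoped Classical

noncomputable section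

namespace Vale.Agent.P161

variable {V : Type*} {G : SimpleGraph V} {d : ℕ} {θ : ℝ}

/-- The spin at `u` of the configuration with plus set `A`. -/
def sp (A : Finset V) (u : V) : ℝ := spin (decide (u ∈ A))

theorem sp_of_mem {A : Finset V} {u : V} (h : u ∈ A) : sp A u = 1 := by simp [sp, spin, h]

theorem sp_of_not_mem {A : Finset V} {u : V} (h : u ∉ A) : sp A u = -1 := by simp [sp, spin, h]

theorem sp_sq (A : Finset V) (u : V) : sp A u * sp A u = 1 := by
  by_cases h : u ∈ A <;> simp [sp, spin, h]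

theorem abs_sp (A : Finset V) (u : V) : |sp A u| = 1 := by
  by_cases h : u ∈ A <;> simp [sp, spin, h]

theorem sp_cases (A : Finset V) (u : V) : sp A u = 1 ∨ sp A u = -1 := by
  by_cases h : u ∈ A <;> simp [sp, spin, h]

theorem sp_insert {A : Finset V} {u v : V} (h : u ≠ v) : sp (insert v A) u = sp A u := by
  simp [sp, spin, h]

/-- The zero field weight of a configuration. -/
def wt (G : SimpleGraph V) (θ : ℝ) (D A : Finset V) : ℝ :=
  (1 / 2) * ∏ e ∈ edgesIn G D, edgeWeight θ (fun v => decide (v ∈ A)) e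

/-- The Boltzmann factor of the field. -/
def bf (D : Finset V) (h : V → ℝ) (A : Finset V) : ℝ := exp (∑ u ∈ D, h u * sp A u)

/-- Unnormalized expectations in the field `h`. -/
def num (G : SimpleGraph V) (θ : ℝ) (D : Finset V) (h : V → ℝ) (f : Finset V → ℝ) : ℝ :=
  ∑ A ∈ D.powerset, wt G θ D A * bf D h A * f A

/-- The partition function. -/
def part (G : SimpleGraph V) (θ : ℝ) (D : Finset V) (h : V → ℝ) : ℝ := num G θ D h (fun _ => 1)

/-- Expectations in the field `h`. -/
def avg (G : SimpleGraph V) (θ : ℝ) (D : Finset V) (h : V → ℝ) (f : Finset V → ℝ) : ℝ :=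
  num G θ D h f / part G θ D h

/-- The magnetization at `v`. -/
def mag (G : SimpleGraph V) (θ : ℝ) (D : Finset V) (h : V → ℝ) (v : V) : ℝ :=
  avg G θ D h (fun A => sp A v)

/-- Covariances of spins. -/
def cv (G : SimpleGraph V) (θ : ℝ) (D : Finset V) (h : V → ℝ) (u w : V) : ℝ :=
  avg G θ D h (fun A => sp A u * sp A w) - mag G θ D h u * mag G θ D h w

theorem edgeWeight_mk (η : V → Bool) (a b : V) :
    edgeWeight θ η s(a, b) = (1 + θ * spin (η a) * spin (η b)) / 2 := rfl

theorem wt_pos (h0 : 0 ≤ θ) (h1 : θ < 1) (D A : Finset V) : 0 < wt G θ D A := by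
  refine mul_pos (by norm_num) (Finset.prod_pos fun e _ => ?_)
  induction e using Sym2.ind with
  | h a b =>
    rw [edgeWeight_mk]
    have key : ∀ x y : Bool, 0 < (1 + θ * spin x * spin y) / 2 := by
      intro x y
      cases x <;> cases y <;> simp [spin] <;> linarith
    exact key _ _

theorem part_pos (h0 : 0 ≤ θ) (h1 : θ < 1) (D : Finset V) (h : V → ℝ) : 0 < part G θ D h := by
  refine Finset.sum_pos (fun A _ => ?_) ⟨∅, Finset.empty_mem_powerset D⟩
  rw [mul_one]
  exact mul_pos (wt_pos h0 h1 D A) (exp_pos _)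

theorem avg_const (h0 : 0 ≤ θ) (h1 : θ < 1) (D : Finset V) (h : V → ℝ) (c : ℝ) :
    avg G θ D h (fun _ => c) = c := by
  rw [avg, div_eq_iff (part_pos h0 h1 D h).ne']
  simp only [part, num, mul_one, Finset.mul_sum]
  exact Finset.sum_congr rfl fun A _ => mul_comm _ _

theorem avg_mono (h0 : 0 ≤ θ) (h1 : θ < 1) {D : Finset V} {h : V → ℝ} {f g : Finset V → ℝ}
    (hfg : ∀ A, f A ≤ g A) : avg G θ D h f ≤ avg G θ D h g :=
  div_le_div_of_nonneg_right (Finset.sum_le_sum fun A _ => mul_le_mul_of_nonneg_left (hfg A)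
    (mul_nonneg (wt_pos h0 h1 D A).le (exp_pos _).le)) (part_pos h0 h1 D h).le

theorem abs_avg_le (h0 : 0 ≤ θ) (h1 : θ < 1) {D : Finset V} {h : V → ℝ} {f : Finset V → ℝ} {c : ℝ}
    (hf : ∀ A, |f A| ≤ c) : |avg G θ D h f| ≤ c := by
  rw [abs_le]
  constructor
  · calc -c = avg G θ D h (fun _ => -c) := (avg_const h0 h1 D h _).symm
      _ ≤ avg G θ D h f := avg_mono h0 h1 fun A => (abs_le.1 (hf A)).1
  · calc avg G θ D h f ≤ avg G θ D h (fun _ => c) := avg_mono h0 h1 fun A => (abs_le.1 (hf A)).2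
      _ = c := avg_const h0 h1 D h _

theorem abs_mag_le (h0 : 0 ≤ θ) (h1 : θ < 1) (D : Finset V) (h : V → ℝ) (v : V) :
    |mag G θ D h v| ≤ 1 :=
  abs_avg_le h0 h1 fun A => (abs_sp A v).le

theorem num_congr {D : Finset V} {h h' : V → ℝ} (hh : ∀ u ∈ D, h u = h' u) (f : Finset V → ℝ) :
    num G θ D h f = num G θ D h' f := by
  refine Finset.sum_congr rfl fun A _ => ?_
  have : bf D h A = bf D h' A := by
    simp only [bf]
    exact congrArg exp (Finset.sum_congr rfl fun u hu => by rw [hh u hu])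
  rw [this]

theorem mag_congr {D : Finset V} {h h' : V → ℝ} (hh : ∀ u ∈ D, h u = h' u) (v : V) :
    mag G θ D h v = mag G θ D h' v := by
  simp only [mag, avg, part, num_congr hh]

/-! ## Adding one leaf -/

theorem edgesIn_singleton (v : V) : edgesIn G ({v} : Finset V) = ∅ := by
  simp [edgesIn, Finset.filter_eq_empty_iff]

theorem edgesIn_insert {E : Finset V} {v p : V} (hp : p ∈ E) (hadj : G.Adj v p)
    (huniq : ∀ q ∈ E, G.Adj v q → q = p) :
    edgesIn G (insert v E) = insert s(v, p) (edgesIn G E) := by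
  ext e
  induction e using Sym2.ind with
  | h a b =>
    simp only [edgesIn, Finset.mem_filter, Finset.mk_mem_sym2_iff, Finset.mem_insert,
      SimpleGraph.mem_edgeSet, Sym2.eq_iff]
    constructor
    · rintro ⟨⟨rfl | ha, rfl | hb⟩, hab⟩
      · exact absurd hab (G.irrefl)
      · exact Or.inl (Or.inl ⟨rfl, huniq _ hb hab⟩)
      · exact Or.inl (Or.inr ⟨huniq _ ha hab.symm, rfl⟩)
      · exact Or.inr ⟨⟨ha, hb⟩, hab⟩
    · rintro ((⟨rfl, rfl⟩ | ⟨rfl, rfl⟩) | ⟨⟨ha, hb⟩, hab⟩)
      · exact ⟨⟨Or.inl rfl, Or.inr hp⟩, hadj⟩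
      · exact ⟨⟨Or.inr hp, Or.inl rfl⟩, hadj.symm⟩
      · exact ⟨⟨Or.inr ha, Or.inr hb⟩, hab⟩

theorem not_mem_edgesIn {E : Finset V} {v p : V} (hv : v ∉ E) : s(v, p) ∉ edgesIn G E := by
  simp [edgesIn, hv]

theorem wt_insert_inert {E : Finset V} {v : V} (hv : v ∉ E) (A : Finset V) :
    wt G θ E (insert v A) = wt G θ E A := by
  refine congrArg ((1 / 2 : ℝ) * ·) (Finset.prod_congr rfl fun e he => ?_)
  induction e using Sym2.ind with
  | h a b =>
    simp only [edgesIn, Finset.mem_filter, Finset.mk_mem_sym2_iff] at he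
    have ha : a ≠ v := fun h => hv (h ▸ he.1.1)
    have hb : b ≠ v := fun h => hv (h ▸ he.1.2)
    simp [edgeWeight_mk, ha, hb]

theorem wt_insert {E : Finset V} {v p : V} (hv : v ∉ E) (hp : p ∈ E) (hadj : G.Adj v p)
    (huniq : ∀ q ∈ E, G.Adj v q → q = p) (A : Finset V) :
    wt G θ (insert v E) A = wt G θ E A * ((1 + θ * sp A v * sp A p) / 2) := by
  rw [wt, edgesIn_insert hp hadj huniq, Finset.prod_insert (not_mem_edgesIn hv), edgeWeight_mk,
    wt]
  simp only [sp]
  ring

theorem num_insert {E : Finset V} {v p : V} (hv : v ∉ E) (hp : p ∈ E) (hadj : G.Adj v p)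
    (huniq : ∀ q ∈ E, G.Adj v q → q = p) (h : V → ℝ) (f : Finset V → ℝ) :
    num G θ (insert v E) h f = num G θ E h (fun A =>
      (1 + θ * sp A p) / 2 * exp (h v) * f (insert v A) +
        (1 - θ * sp A p) / 2 * exp (-h v) * f A) := by
  have hpv : p ≠ v := fun e => hv (e ▸ hp)
  rw [num, num, Finset.sum_powerset_insert hv, ← Finset.sum_add_distrib]
  refine Finset.sum_congr rfl fun A hA => ?_
  have hvA : v ∉ A := fun h' => hv (Finset.mem_powerset.1 hA h')
  have hb1 : bf (insert v E) h A = exp (-h v) * bf E h A := by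
    rw [bf, bf, Finset.sum_insert hv, exp_add, sp_of_not_mem hvA]
    simp
  have hb2 : bf (insert v E) h (insert v A) = exp (h v) * bf E h A := by
    rw [bf, bf, Finset.sum_insert hv, exp_add, sp_of_mem (Finset.mem_insert_self v A), mul_one,
      Finset.sum_congr rfl fun u hu =>
        by rw [sp_insert (A := A) (show u ≠ v from fun e => hv (e ▸ hu))]]
  rw [wt_insert hv hp hadj huniq, wt_insert hv hp hadj huniq, wt_insert_inert hv, hb1, hb2,
    sp_of_not_mem hvA, sp_of_mem (Finset.mem_insert_self v A), sp_insert hpv]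
  ring

/-- The value `cosh x + θ s sinh x` as it appears when a leaf is summed out. -/
def leafSum (θ x s : ℝ) : ℝ := (1 + θ * s) / 2 * exp x + (1 - θ * s) / 2 * exp (-x)

theorem leafSum_pos (h0 : 0 ≤ θ) (h1 : θ < 1) (x : ℝ) {s : ℝ} (hs : s = 1 ∨ s = -1) :
    0 < leafSum θ x s := by
  rcases hs with rfl | rfl <;>
  · refine add_pos (mul_pos ?_ (exp_pos _)) (mul_pos ?_ (exp_pos _)) <;> linarith

/-- The shift of the field at the parent. -/
def leafShift (θ x : ℝ) : ℝ := (log (leafSum θ x 1) - log (leafSum θ x (-1))) / 2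

/-- The constant produced by summing out a leaf. -/
def leafConst (θ x : ℝ) : ℝ := exp ((log (leafSum θ x 1) + log (leafSum θ x (-1))) / 2)

theorem leafSum_eq (h0 : 0 ≤ θ) (h1 : θ < 1) (x : ℝ) {s : ℝ} (hs : s = 1 ∨ s = -1) :
    leafSum θ x s = leafConst θ x * exp (leafShift θ x * s) := by
  rw [leafConst, leafShift, ← exp_add]
  rcases hs with rfl | rfl
  · rw [← exp_log (leafSum_pos h0 h1 x (Or.inl rfl))]
    congr 1
    rw [exp_log (leafSum_pos h0 h1 x (Or.inl rfl))]
    ring
  · rw [← exp_log (leafSum_pos h0 h1 x (Or.inr rfl))]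
    congr 1
    rw [exp_log (leafSum_pos h0 h1 x (Or.inr rfl))]
    ring

theorem num_shift {E : Finset V} {p : V} (hp : p ∈ E) (h : V → ℝ) (κ : ℝ) (f : Finset V → ℝ) :
    num G θ E h (fun A => exp (κ * sp A p) * f A) =
      num G θ E (Function.update h p (h p + κ)) f := by
  refine Finset.sum_congr rfl fun A _ => ?_
  have : bf E (Function.update h p (h p + κ)) A = bf E h A * exp (κ * sp A p) := by
    rw [bf, bf, ← exp_add, ← Finset.sum_erase_add _ _ hp, ← Finset.sum_erase_add E _ hp,
      Function.update_self, Finset.sum_congr rfl fun u hu => by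
        rw [Function.update_of_ne (Finset.ne_of_mem_erase hu)]]
    congr 1
    ring
  rw [this]
  ring

theorem leafConst_ne (θ x : ℝ) : leafConst θ x ≠ 0 := (exp_pos _).ne'

/-- Summing out a leaf: functions of the remaining spins. -/
theorem num_insert_of_inert (h0 : 0 ≤ θ) (h1 : θ < 1) {E : Finset V} {v p : V} (hv : v ∉ E)
    (hp : p ∈ E) (hadj : G.Adj v p) (huniq : ∀ q ∈ E, G.Adj v q → q = p) (h : V → ℝ)
    {f : Finset V → ℝ} (hf : ∀ A, A ⊆ E → f (insert v A) = f A) :
    num G θ (insert v E) h f =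
      leafConst θ (h v) * num G θ E (Function.update h p (h p + leafShift θ (h v))) f := by
  rw [num_insert hv hp hadj huniq, ← num_shift hp, num, num, Finset.mul_sum]
  refine Finset.sum_congr rfl fun A hA => ?_
  rw [hf A (Finset.mem_powerset.1 hA)]
  have := leafSum_eq h0 h1 (h v) (sp_cases A p)
  rw [leafSum] at this
  linear_combination (wt G θ E A * bf E h A * f A) * this

theorem avg_insert_of_inert (h0 : 0 ≤ θ) (h1 : θ < 1) {E : Finset V} {v p : V} (hv : v ∉ E)
    (hp : p ∈ E) (hadj : G.Adj v p) (huniq : ∀ q ∈ E, G.Adj v q → q = p) (h : V → ℝ)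
    {f : Finset V → ℝ} (hf : ∀ A, A ⊆ E → f (insert v A) = f A) :
    avg G θ (insert v E) h f =
      avg G θ E (Function.update h p (h p + leafShift θ (h v))) f := by
  rw [avg, avg, part, num_insert_of_inert h0 h1 hv hp hadj huniq h hf,
    num_insert_of_inert h0 h1 hv hp hadj huniq h (f := fun _ => 1) (fun _ _ => rfl), ← part,
    mul_div_mul_left _ _ (leafConst_ne θ _)]

/-- The slope of the conditional magnetization of a leaf given its parent. -/
def leafSlope (θ x : ℝ) : ℝ :=
  (((1 + θ) / 2 * exp x - (1 - θ) / 2 * exp (-x)) / leafSum θ x 1 -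
    ((1 - θ) / 2 * exp x - (1 + θ) / 2 * exp (-x)) / leafSum θ x (-1)) / 2

/-- The offset of the conditional magnetization of a leaf given its parent. -/
def leafOffset (θ x : ℝ) : ℝ :=
  (((1 + θ) / 2 * exp x - (1 - θ) / 2 * exp (-x)) / leafSum θ x 1 +
    ((1 - θ) / 2 * exp x - (1 + θ) / 2 * exp (-x)) / leafSum θ x (-1)) / 2

theorem leafSlope_bound (h0 : 0 ≤ θ) (h1 : θ < 1) (x : ℝ) : |leafSlope θ x| ≤ θ := by
  have hp1 := leafSum_pos h0 h1 x (Or.inl rfl : (1 : ℝ) = 1 ∨ (1 : ℝ) = -1)
  have hp2 := leafSum_pos h0 h1 x (Or.inr rfl : (-1 : ℝ) = 1 ∨ (-1 : ℝ) = -1)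
  have he : exp x * exp (-x) = 1 := by rw [← exp_add]; simp
  have hprod : leafSum θ x 1 * leafSum θ x (-1) =
      1 + (1 - θ ^ 2) / 4 * (exp x - exp (-x)) ^ 2 := by
    simp only [leafSum]
    linear_combination he
  have hslope : leafSlope θ x = θ / (leafSum θ x 1 * leafSum θ x (-1)) := by
    rw [leafSlope, div_sub_div _ _ hp1.ne' hp2.ne', div_div,
      div_eq_div_iff (by positivity) (by positivity)]
    simp only [leafSum]
    linear_combination 2 * θ * ((1 + θ) / 2 * exp x + (1 - θ) / 2 * exp (-x)) *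
      ((1 - θ) / 2 * exp x + (1 + θ) / 2 * exp (-x)) * he
  have h2 : (0 : ℝ) ≤ (1 - θ ^ 2) / 4 * (exp x - exp (-x)) ^ 2 :=
    mul_nonneg (by nlinarith) (sq_nonneg _)
  rw [hslope, hprod, abs_of_nonneg (div_nonneg h0 (by linarith))]
  exact div_le_self h0 (by linarith)

theorem avg_insert_spin (h0 : 0 ≤ θ) (h1 : θ < 1) {E : Finset V} {v p : V} (hv : v ∉ E)
    (hp : p ∈ E) (hadj : G.Adj v p) (huniq : ∀ q ∈ E, G.Adj v q → q = p) (h : V → ℝ)
    {f : Finset V → ℝ} (hf : ∀ A, A ⊆ E → f (insert v A) = f A) :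
    avg G θ (insert v E) h (fun A => sp A v * f A) =
      leafOffset θ (h v) * avg G θ E (Function.update h p (h p + leafShift θ (h v))) f +
      leafSlope θ (h v) * avg G θ E (Function.update h p (h p + leafShift θ (h v)))
        (fun A => sp A p * f A) := by
  have key : num G θ (insert v E) h (fun A => sp A v * f A) = leafConst θ (h v) *
      num G θ E (Function.update h p (h p + leafShift θ (h v)))
        (fun A => leafOffset θ (h v) * f A + leafSlope θ (h v) * (sp A p * f A)) := by
    rw [num_insert hv hp hadj huniq, ← num_shift hp, num, num, Finset.mul_sum]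
    refine Finset.sum_congr rfl fun A hA => ?_
    have hvA : v ∉ A := fun h' => hv (Finset.mem_powerset.1 hA h')
    rw [hf A (Finset.mem_powerset.1 hA), sp_of_mem (Finset.mem_insert_self v A),
      sp_of_not_mem hvA]
    have he := leafSum_eq h0 h1 (h v) (sp_cases A p)
    have hp1 := (leafSum_pos h0 h1 (h v) (Or.inl rfl : (1 : ℝ) = 1 ∨ (1 : ℝ) = -1)).ne'
    have hp2 := (leafSum_pos h0 h1 (h v) (Or.inr rfl : (-1 : ℝ) = 1 ∨ (-1 : ℝ) = -1)).ne'
    have e1 : ((1 + θ * sp A p) / 2 * exp (h v) - (1 - θ * sp A p) / 2 * exp (-h v)) =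
        leafSum θ (h v) (sp A p) * (leafOffset θ (h v) + leafSlope θ (h v) * sp A p) := by
      simp only [leafOffset, leafSlope]
      rcases sp_cases A p with hs | hs <;> rw [hs] <;> field_simp <;> ring
    linear_combination (wt G θ E A * bf E h A * f A) * e1 + (wt G θ E A * bf E h A * f A *
      (leafOffset θ (h v) + leafSlope θ (h v) * sp A p)) * he
  rw [avg, key, part, num_insert_of_inert h0 h1 hv hp hadj huniq h (f := fun _ => 1)
    (fun _ _ => rfl), ← part, mul_div_mul_left _ _ (leafConst_ne θ _), avg, avg, ← mul_div_assoc,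
    ← mul_div_assoc, ← add_div]
  congr 1
  simp only [num, Finset.mul_sum, ← Finset.sum_add_distrib]
  exact Finset.sum_congr rfl fun A _ => by ring

theorem cv_comm (D : Finset V) (h : V → ℝ) (u w : V) : cv G θ D h u w = cv G θ D h w u := by
  simp only [cv, mul_comm (sp _ u)]
  ring

theorem cv_self_bound (h0 : 0 ≤ θ) (h1 : θ < 1) (D : Finset V) (h : V → ℝ) (u : V) :
    |cv G θ D h u u| ≤ 1 := by
  have h2 := abs_le.1 (abs_mag_le (G := G) h0 h1 D h u)
  rw [cv, show (fun A : Finset V => sp A u * sp A u) = fun _ => (1 : ℝ) from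
    funext fun A => sp_sq A u, avg_const h0 h1, abs_le]
  constructor <;> nlinarith

/-- The covariance of two spins is at most `θ ^ dist`, in every external field. -/
theorem cv_bound (hT : RTree G d) (h0 : 0 ≤ θ) (h1 : θ < 1) {D : Finset V} (hD : Conn G D) :
    ∀ (h : V → ℝ), ∀ u ∈ D, ∀ w ∈ D, |cv G θ D h u w| ≤ θ ^ G.dist u w := by
  obtain ⟨r, hr⟩ := hD.nonempty
  refine grow_induction hT (fun E => ∀ (h : V → ℝ), ∀ u ∈ E, ∀ w ∈ E,
    |cv G θ E h u w| ≤ θ ^ G.dist u w) (conn_singleton r) hD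
    (Finset.singleton_subset_iff.2 hr) ?_ ?_
  · intro h u hu w hw
    rw [Finset.mem_singleton] at hu hw
    rw [hu, hw, SimpleGraph.dist_self, pow_zero]
    exact cv_self_bound h0 h1 _ h r
  · intro E v p _ _ _ hv hp hadj huniq ih h
    set h' := Function.update h p (h p + leafShift θ (h v)) with hh'
    have hne : ∀ {u : V}, u ∈ E → u ≠ v := fun hu e => hv (e ▸ hu)
    have hold : ∀ u ∈ E, mag G θ (insert v E) h u = mag G θ E h' u := fun u hu =>
      avg_insert_of_inert h0 h1 hv hp hadj huniq h fun A _ => sp_insert (hne hu)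
    have hnew : ∀ w ∈ E, |cv G θ (insert v E) h v w| ≤ θ ^ G.dist v w := by
      intro w hw
      have e1 := avg_insert_spin h0 h1 hv hp hadj huniq h (f := fun A => sp A w)
        (fun A _ => sp_insert (hne hw))
      have e2 := avg_insert_spin h0 h1 hv hp hadj huniq h (f := fun _ => (1 : ℝ))
        (fun _ _ => rfl)
      simp only [mul_one] at e2
      have e3 : cv G θ (insert v E) h v w = leafSlope θ (h v) * cv G θ E h' p w := by
        rw [cv, cv, e1, hold w hw]
        simp only [mag]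
        rw [e2, avg_const h0 h1]
        ring
      rw [e3, abs_mul]
      have hdist : G.dist v w ≤ G.dist p w + 1 := by
        have := hT.conn.dist_triangle (u := v) (v := p) (w := w)
        rw [SimpleGraph.dist_eq_one_iff_adj.2 hadj] at this
        omega
      calc |leafSlope θ (h v)| * |cv G θ E h' p w| ≤ θ * θ ^ G.dist p w :=
            mul_le_mul (leafSlope_bound h0 h1 _) (ih h' p hp w hw) (abs_nonneg _) h0
        _ = θ ^ (G.dist p w + 1) := by rw [pow_succ']
        _ ≤ θ ^ G.dist v w := pow_le_pow_of_le_one h0 h1.le hdist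
    intro u hu w hw
    rcases Finset.mem_insert.1 hu with rfl | hu'
    · rcases Finset.mem_insert.1 hw with rfl | hw'
      · simpa using cv_self_bound h0 h1 _ h _
      · exact hnew w hw'
    · rcases Finset.mem_insert.1 hw with rfl | hw'
      · rw [cv_comm, SimpleGraph.dist_comm]
        exact hnew u hu'
      · have : cv G θ (insert v E) h u w = cv G θ E h' u w := by
          rw [cv, cv, hold u hu', hold w hw', avg_insert_of_inert h0 h1 hv hp hadj huniq h
            (fun A _ => by rw [sp_insert (hne hu'), sp_insert (hne hw')])]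
        rw [this]
        exact ih h' u hu' w hw'

theorem hasDerivAt_num (D : Finset V) (h Δ : V → ℝ) (f : Finset V → ℝ) (s : ℝ) :
    HasDerivAt (fun s => num G θ D (fun u => h u + s * Δ u) f)
      (num G θ D (fun u => h u + s * Δ u) (fun A => (∑ u ∈ D, Δ u * sp A u) * f A)) s := by
  simp only [num, bf]
  refine HasDerivAt.fun_sum fun A _ => ?_
  have h1 : HasDerivAt (fun s : ℝ => ∑ u ∈ D, (h u + s * Δ u) * sp A u)
      (∑ u ∈ D, Δ u * sp A u) s := by
    refine HasDerivAt.fun_sum fun u _ => ?_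
    simpa using (((hasDerivAt_id s).mul_const (Δ u)).const_add (h u)).mul_const (sp A u)
  have h2 := (h1.exp.const_mul (wt G θ D A)).mul_const (f A)
  exact h2.congr_deriv (by ring)

theorem num_linear (D : Finset V) (h Δ : V → ℝ) (f : Finset V → ℝ) :
    num G θ D h (fun A => (∑ u ∈ D, Δ u * sp A u) * f A) =
      ∑ u ∈ D, Δ u * num G θ D h (fun A => sp A u * f A) := by
  simp only [num, Finset.mul_sum, Finset.sum_mul]
  rw [Finset.sum_comm]
  exact Finset.sum_congr rfl fun u _ => Finset.sum_congr rfl fun A _ => by ring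

theorem hasDerivAt_mag (h0 : 0 ≤ θ) (h1 : θ < 1) (D : Finset V) (h Δ : V → ℝ) (v : V) (s : ℝ) :
    HasDerivAt (fun s => mag G θ D (fun u => h u + s * Δ u) v)
      (∑ u ∈ D, Δ u * cv G θ D (fun u => h u + s * Δ u) u v) s := by
  set hs := fun u => h u + s * Δ u with hhs
  have hn := hasDerivAt_num (G := G) (θ := θ) D h Δ (fun A => sp A v) s
  have hz := hasDerivAt_num (G := G) (θ := θ) D h Δ (fun _ => (1 : ℝ)) s
  have hZ := (part_pos (G := G) h0 h1 D hs).ne'
  refine ((hn.div hz hZ).congr_deriv ?_)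
  rw [num_linear, num_linear]
  simp only [← hhs, cv, mag, avg, part, mul_one]
  simp only [part] at hZ
  rw [Finset.sum_mul, Finset.mul_sum, ← Finset.sum_sub_distrib, Finset.sum_div]
  refine Finset.sum_congr rfl fun u _ => ?_
  field_simp

/-- The magnetization is Lipschitz with kernel `θ ^ dist`. -/
theorem mag_lip (hT : RTree G d) (h0 : 0 ≤ θ) (h1 : θ < 1) {D : Finset V} (hD : Conn G D)
    {v : V} (hv : v ∈ D) (h h' : V → ℝ) :
    |mag G θ D h v - mag G θ D h' v| ≤ ∑ u ∈ D, θ ^ G.dist v u * |h u - h' u| := by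
  set Δ := fun u => h u - h' u with hΔ
  have hb := norm_image_sub_le_of_norm_deriv_le_segment_01'
    (f := fun s => mag G θ D (fun u => h' u + s * Δ u) v)
    (f' := fun s => ∑ u ∈ D, Δ u * cv G θ D (fun u => h' u + s * Δ u) u v)
    (C := ∑ u ∈ D, θ ^ G.dist v u * |h u - h' u|)
    (fun s _ => (hasDerivAt_mag h0 h1 D h' Δ v s).hasDerivWithinAt) ?_
  · simpa [hΔ] using hb
  · intro s _
    rw [Real.norm_eq_abs]
    refine (Finset.abs_sum_le_sum_abs _ _).trans (Finset.sum_le_sum fun u hu => ?_)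
    rw [abs_mul, mul_comm (θ ^ _), SimpleGraph.dist_comm (u := v)]
    exact mul_le_mul_of_nonneg_left (cv_bound hT h0 h1 hD _ u hu v hv) (abs_nonneg _)

/-! ## Zero field -/

theorem leaf_zero : leafShift θ 0 = 0 ∧ leafConst θ 0 = 1 := by
  have h : ∀ s, leafSum θ 0 s = 1 := fun s => by simp [leafSum]; ring
  simp [leafShift, leafConst, h]

theorem num_zero_marginal (hT : RTree G d) (h0 : 0 ≤ θ) (h1 : θ < 1) {D D' : Finset V}
    (hD : Conn G D) (hD' : Conn G D') (hsub : D ⊆ D') {f : Finset V → ℝ}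
    (hf : ∀ A, f (A ∩ D) = f A) :
    num G θ D' (fun _ => 0) f = num G θ D (fun _ => 0) f := by
  refine grow_induction hT (fun E => num G θ E (fun _ => 0) f = num G θ D (fun _ => 0) f)
    hD hD' hsub rfl ?_
  intro E v p _ hDE _ hv hp hadj huniq ih
  have hinert : ∀ A, A ⊆ E → f (insert v A) = f A := fun A _ => by
    rw [← hf (insert v A), ← hf A, Finset.insert_inter_of_notMem (fun h => hv (hDE h))]
  rw [num_insert_of_inert h0 h1 hv hp hadj huniq _ hinert, leaf_zero.1, leaf_zero.2, one_mul,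
    ← ih]
  exact num_congr (fun u _ => by by_cases hu : u = p <;> simp [hu]) f

theorem part_zero (hT : RTree G d) (h0 : 0 ≤ θ) (h1 : θ < 1) {D : Finset V} (hD : Conn G D) :
    part G θ D (fun _ => 0) = 1 := by
  obtain ⟨r, hr⟩ := hD.nonempty
  rw [part, num_zero_marginal hT h0 h1 (conn_singleton r) hD (Finset.singleton_subset_iff.2 hr)
    (f := fun _ => (1 : ℝ)) (fun _ => rfl)]
  have : ({r} : Finset V).powerset = {∅, {r}} := by
    ext A; simp [Finset.subset_singleton_iff]
  rw [num, this, Finset.sum_pair (by simp)]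
  simp [wt, edgesIn_singleton, bf]
  norm_num

/-! ## Equivariance -/

theorem edgesIn_map (g : G ≃g G) (D : Finset V) :
    edgesIn G (D.map g.toEquiv.toEmbedding) =
      (edgesIn G D).map ⟨Sym2.map g, Sym2.map.injective g.injective⟩ := by
  ext e
  simp only [edgesIn, Finset.mem_filter, Finset.mem_map, Function.Embedding.coeFn_mk]
  induction e using Sym2.ind with
  | h a b =>
    constructor
    · rintro ⟨h1, h2⟩
      rw [Finset.mk_mem_sym2_iff, Finset.mem_map_equiv, Finset.mem_map_equiv] at h1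
      refine ⟨s(g.symm a, g.symm b), ⟨Finset.mk_mem_sym2_iff.2 h1, ?_⟩, by simp⟩
      exact g.symm.map_rel_iff.2 h2
    · rintro ⟨e, ⟨he1, he2⟩, he⟩
      induction e using Sym2.ind with
      | h x y =>
        rw [Sym2.map_mk] at he
        rw [← he, Finset.mk_mem_sym2_iff]
        rw [Finset.mk_mem_sym2_iff] at he1
        refine ⟨⟨Finset.mem_map_of_mem g.toEquiv.toEmbedding he1.1,
          Finset.mem_map_of_mem g.toEquiv.toEmbedding he1.2⟩, ?_⟩
        exact g.map_rel_iff.2 he2

theorem sp_map (g : G ≃g G) (A : Finset V) (u : V) :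
    sp (A.map g.toEquiv.toEmbedding) (g u) = sp A u := by
  have : g u ∈ A.map g.toEquiv.toEmbedding ↔ u ∈ A := Finset.mem_map' g.toEquiv.toEmbedding
  simp only [sp, this]

theorem wt_map (g : G ≃g G) (D A : Finset V) :
    wt G θ (D.map g.toEquiv.toEmbedding) (A.map g.toEquiv.toEmbedding) = wt G θ D A := by
  rw [wt, wt, edgesIn_map, Finset.prod_map]
  refine congrArg ((1 / 2 : ℝ) * ·) (Finset.prod_congr rfl fun e _ => ?_)
  induction e using Sym2.ind with
  | h a b =>
    rw [Function.Embedding.coeFn_mk, Sym2.map_mk, edgeWeight_mk, edgeWeight_mk]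
    have := sp_map g A
    simp only [sp] at this
    rw [this a, this b]

theorem num_map (g : G ≃g G) (D : Finset V) (h : V → ℝ) (f : Finset V → ℝ) :
    num G θ (D.map g.toEquiv.toEmbedding) h f =
      num G θ D (fun u => h (g u)) (fun A => f (A.map g.toEquiv.toEmbedding)) := by
  symm
  refine Finset.sum_nbij' (fun A => A.map g.toEquiv.toEmbedding)
    (fun B => B.map g.toEquiv.symm.toEmbedding) ?_ ?_ ?_ ?_ ?_
  · intro A hA
    simpa using Finset.mem_powerset.1 hA
  · intro B hB
    simp only [Finset.mem_powerset] at hB ⊢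
    intro u hu
    rw [Finset.mem_map_equiv] at hu
    have := hB hu
    rw [Finset.mem_map_equiv] at this
    rwa [Equiv.symm_symm, show g.toEquiv.symm (g.toEquiv u) = u from
      g.toEquiv.symm_apply_apply u] at this
  · intro A _
    ext u
    rw [Finset.mem_map_equiv, Equiv.symm_symm, Finset.mem_map_equiv,
      g.toEquiv.symm_apply_apply u]
  · intro B _
    ext u
    rw [Finset.mem_map_equiv, Finset.mem_map_equiv, Equiv.symm_symm,
      g.toEquiv.apply_symm_apply u]
  · intro A _
    have : bf (D.map g.toEquiv.toEmbedding) h (A.map g.toEquiv.toEmbedding) =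
        bf D (fun u => h (g u)) A := by
      simp [bf, sp_map]
    rw [wt_map, this]

theorem mag_map (g : G ≃g G) (D : Finset V) (h : V → ℝ) (v : V) :
    mag G θ (D.map g.toEquiv.toEmbedding) h (g v) = mag G θ D (fun u => h (g u)) v := by
  simp only [mag, avg, part, num_map, sp_map]

end Vale.Agent.P161
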