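import Mathlib.Probability.ProductMeasure
import Mathlib.Probability.Distributions.Gaussian.Real
import Mathlib.Logic.Function.DependsOn
import Mathlib.MeasureTheory.Integral.Prod
import Mathlib.MeasureTheory.Measure.WithDensity
import Mathlib.MeasureTheory.Integral.Bochner.ContinuousLinearMap

/-!
# Tools for countable families of independent standard Gaussians
-/

open MeasureTheory ProbabilityTheory Finset
open scoped ENNReal Classical

noncomputable section

namespace Vale.Agent.P161

variable {ι : Type*}

/-- The law of independent standard Gaussians indexed by `ι`. -/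
def gN (ι : Type*) : Measure (ι → ℝ) := Measure.infinitePi fun _ => gaussianReal 0 1

instance : IsProbabilityMeasure (gN ι) := by unfold gN; infer_instance

/-- Replace the coordinates in `S` of the first argument by those of the second. -/
def splice (S : Finset ι) (p : (ι → ℝ) × (ι → ℝ)) : ι → ℝ :=
  fun i => if i ∈ S then p.2 i else p.1 i

theorem measurable_splice (S : Finset ι) : Measurable (splice S) := by
  refine measurable_pi_lambda _ fun i => ?_
  simp only [splice]
  split_ifs <;> fun_prop

theorem splice_mp (S : Finset ι) :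
    MeasurePreserving (splice S) ((gN ι).prod (gN ι)) (gN ι) := by
  refine ⟨measurable_splice S, Measure.eq_infinitePi _ fun s t ht => ?_⟩
  rw [Measure.map_apply (measurable_splice S) (.pi s.countable_toSet fun i _ => ht i)]
  have : splice S ⁻¹' (Set.pi (s : Set ι) t) =
      (Set.pi ((s \ S : Finset ι) : Set ι) t) ×ˢ (Set.pi ((s ∩ S : Finset ι) : Set ι) t) := by
    ext p
    simp only [Set.mem_preimage, Set.mem_pi, Set.mem_prod, Finset.mem_coe, Finset.mem_sdiff,
      Finset.mem_inter, splice]
    constructor
    · intro h
      exact ⟨fun i hi => by simpa [hi.2] using h i hi.1, fun i hi => by simpa [hi.2] using h i hi.1⟩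
    · rintro ⟨h1, h2⟩ i hi
      by_cases hS : i ∈ S
      · simpa [hS] using h2 i ⟨hi, hS⟩
      · simpa [hS] using h1 i ⟨hi, hS⟩
  rw [this, Measure.prod_prod, gN, Measure.infinitePi_pi _ (fun i _ => ht i),
    Measure.infinitePi_pi _ (fun i _ => ht i)]
  rw [← Finset.prod_union (Finset.disjoint_sdiff_inter s S), Finset.sdiff_union_inter]

theorem lintegral_splice (S : Finset ι) {f : (ι → ℝ) → ℝ≥0∞} (hf : Measurable f) :
    ∫⁻ z, f z ∂gN ι = ∫⁻ z, ∫⁻ z', f (splice S (z, z')) ∂gN ι ∂gN ι := by
  rw [← (splice_mp S).lintegral_comp hf]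
  exact lintegral_prod _ (hf.comp (measurable_splice S)).aemeasurable

theorem dependsOn_splice {β : Type*} {S : Finset ι} {G : (ι → ℝ) → β}
    (h : DependsOn G (S : Set ι)ᶜ) (z z' : ι → ℝ) : G (splice S (z, z')) = G z :=
  h fun i hi => by simp only [Set.mem_compl_iff, Finset.mem_coe] at hi; simp [splice, hi]

/-- The one dimensional Cameron–Martin density. -/
def cm (a x : ℝ) : ℝ := Real.exp (a * x - a ^ 2 / 2)

theorem gaussian_shift (a : ℝ) :
    gaussianReal a 1 = (gaussianReal 0 1).withDensity (fun x => ENNReal.ofReal (cm a x)) := by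
  rw [gaussianReal_of_var_ne_zero a one_ne_zero, gaussianReal_of_var_ne_zero 0 one_ne_zero,
    ← withDensity_mul _ (measurable_gaussianPDF 0 1) (by unfold cm; fun_prop)]
  congr 1
  funext x
  rw [Pi.mul_apply, gaussianPDF, gaussianPDF, ← ENNReal.ofReal_mul (gaussianPDFReal_nonneg _ _ _)]
  congr 1
  simp only [gaussianPDFReal, cm, NNReal.coe_one, mul_assoc, ← Real.exp_add]
  congr 2
  ring

/-- A shift of one coordinate by an amount depending only on the other coordinates. -/
theorem shift_one (j : ι) {a : (ι → ℝ) → ℝ} (ha : Measurable a) (ha' : DependsOn a {j}ᶜ)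
    {G : (ι → ℝ) → ℝ≥0∞} (hG : Measurable G) (hG' : DependsOn G {j}ᶜ) :
    ((gN ι).withDensity G).map (fun z => Function.update z j (z j + a z)) =
      (gN ι).withDensity (fun z => G z * ENNReal.ofReal (cm (a z) (z j))) := by
  have hτ : Measurable (fun z : ι → ℝ => Function.update z j (z j + a z)) := by
    refine measurable_pi_lambda _ fun i => ?_
    by_cases h : i = j
    · subst h; simpa only [Function.update_self, Pi.add_def] using ((measurable_pi_apply i).add ha)
    · simpa [h] using measurable_pi_apply i
  have hcm : Measurable (fun z : ι → ℝ => ENNReal.ofReal (cm (a z) (z j))) := by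
    unfold cm; fun_prop
  refine Measure.ext_of_lintegral _ fun F hF => ?_
  rw [lintegral_map hF hτ, lintegral_withDensity_eq_lintegral_mul _ hG
      (show Measurable (fun z => F (Function.update z j (z j + a z))) from hF.comp hτ),
    lintegral_withDensity_eq_lintegral_mul _ (f := fun z => G z * ENNReal.ofReal (cm (a z) (z j)))
      (hG.mul hcm) hF]
  simp only [Pi.mul_apply]
  rw [lintegral_splice {j} (f := fun z => G z * F (Function.update z j (z j + a z)))
      (hG.mul (hF.comp hτ)),
    lintegral_splice {j} (f := fun z => G z * ENNReal.ofReal (cm (a z) (z j)) * F z)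
      ((hG.mul hcm).mul hF)]
  refine lintegral_congr fun z => ?_
  have hu : ∀ z' : ι → ℝ, splice {j} (z, z') = Function.update z j (z' j) := by
    intro z'; ext i
    by_cases h : i = j
    · subst h; simp [splice]
    · simp [splice, h]
  have hdep : ∀ {β : Type} {K : (ι → ℝ) → β}, DependsOn K {j}ᶜ → ∀ t, K (Function.update z j t) = K z :=
    fun hK t => hK fun i hi => by simp [show i ≠ j from hi]
  simp only [hu, Function.update_self, Function.update_idem, hdep hG', hdep ha']
  have hm1 : Measurable (fun t => F (Function.update z j t)) := hF.comp (measurable_update z)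
  have e1 : ∫⁻ z', G z * F (Function.update z j (z' j + a z)) ∂gN ι =
      G z * ∫⁻ t, F (Function.update z j t) ∂gaussianReal (a z) 1 := by
    have hlaw : gaussianReal (a z) 1 = (gN ι).map (fun z' => z' j + a z) := by
      rw [show (fun z' : ι → ℝ => z' j + a z) = (fun x => x + a z) ∘ (fun z' => z' j) from rfl,
        ← Measure.map_map (by fun_prop) (by fun_prop), gN, Measure.infinitePi_map_eval,
        gaussianReal_map_add_const, zero_add]
    rw [hlaw,
      lintegral_map hm1 (by fun_prop), lintegral_const_mul]
    exact hm1.comp (by fun_prop)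
  have e2 : ∫⁻ z', G z * ENNReal.ofReal (cm (a z) (z' j)) * F (Function.update z j (z' j)) ∂gN ι =
      G z * ∫⁻ t, F (Function.update z j t) ∂gaussianReal (a z) 1 := by
    have hm2 : Measurable (fun x => ENNReal.ofReal (cm (a z) x)) := by unfold cm; fun_prop
    rw [gaussian_shift, lintegral_withDensity_eq_lintegral_mul _ hm2 hm1,
      show gaussianReal 0 1 = (gN ι).map (fun z' => z' j) by rw [gN, Measure.infinitePi_map_eval],
      lintegral_map (hm2.mul hm1) (by fun_prop), ← lintegral_const_mul]
    · exact lintegral_congr fun z' => mul_assoc _ _ _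
    · exact (hm2.mul hm1).comp (measurable_pi_apply j)
  rw [e1, e2]

/-- A shift of a finite block of coordinates by amounts depending only on the other ones. -/
theorem shift_block (S : Finset ι) {a : ι → (ι → ℝ) → ℝ} (ha : ∀ i, Measurable (a i))
    (ha' : ∀ i ∈ S, DependsOn (a i) (S : Set ι)ᶜ)
    {G : (ι → ℝ) → ℝ≥0∞} (hG : Measurable G) (hG' : DependsOn G (S : Set ι)ᶜ) :
    ((gN ι).withDensity G).map (fun z i => if i ∈ S then z i + a i z else z i) =
      (gN ι).withDensity (fun z => G z * ∏ i ∈ S, ENNReal.ofReal (cm (a i z) (z i))) := by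
  induction S using Finset.induction_on with
  | empty => simp
  | @insert j S hj ih =>
    have hsub : ((insert j S : Finset ι) : Set ι)ᶜ ⊆ (S : Set ι)ᶜ := by
      intro i hi
      simp only [Finset.coe_insert, Set.mem_compl_iff, Set.mem_insert_iff, not_or] at hi
      exact hi.2
    have hsub' : ((insert j S : Finset ι) : Set ι)ᶜ ⊆ ({j} : Set ι)ᶜ := by
      intro i hi
      simp only [Finset.coe_insert, Set.mem_compl_iff, Set.mem_insert_iff, not_or] at hi
      exact hi.1
    have hτ : Measurable (fun z : ι → ℝ => fun i => if i ∈ S then z i + a i z else z i) := by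
      refine measurable_pi_lambda _ fun i => ?_
      split_ifs
      · exact (measurable_pi_apply i).add (ha i)
      · exact measurable_pi_apply i
    have hτj : Measurable (fun z : ι → ℝ => Function.update z j (z j + a j z)) := by
      refine measurable_pi_lambda _ fun i => ?_
      by_cases h : i = j
      · subst h; simpa only [Function.update_self, Pi.add_def] using ((measurable_pi_apply i).add (ha i))
      · simpa [h] using measurable_pi_apply i
    have hcomp : (fun z i => if i ∈ insert j S then z i + a i z else z i) =
        (fun z => Function.update z j (z j + a j z)) ∘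
          (fun z i => if i ∈ S then z i + a i z else z i) := by
      funext z i
      have hdep : a j (fun i => if i ∈ S then z i + a i z else z i) = a j z :=
        ha' j (Finset.mem_insert_self _ _) fun k hk => by
          simp [show k ∉ S from hsub hk]
      by_cases h : i = j
      · subst h; simp [Function.comp_apply, hj, hdep]
      · simp [Function.comp_apply, h]
    rw [hcomp, ← Measure.map_map hτj hτ,
      ih (fun i hi => (ha' i (Finset.mem_insert_of_mem hi)).mono hsub) (hG'.mono hsub),
      shift_one j (ha j) ((ha' j (Finset.mem_insert_self _ _)).mono hsub')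
        (G := fun z => G z * ∏ i ∈ S, ENNReal.ofReal (cm (a i z) (z i)))
        (hG.mul (Finset.measurable_prod _ fun i _ => by unfold cm; fun_prop))
        (fun x y hxy => ?_)]
    · congr 1
      funext z
      rw [Finset.prod_insert hj]
      ring
    · dsimp only
      rw [hG' (fun i hi => hxy i (hsub' hi))]
      congr 1
      refine Finset.prod_congr rfl fun i hi => ?_
      rw [ha' i (Finset.mem_insert_of_mem hi) (fun k hk => hxy k (hsub' hk)),
        hxy i (show i ≠ j from fun e => hj (e ▸ hi))]

/-- The Gaussian moment generating function. -/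
theorem lintegral_exp (S : Finset ι) (a : ι → ℝ) :
    ∫⁻ z, ENNReal.ofReal (Real.exp (∑ i ∈ S, a i * z i)) ∂gN ι =
      ENNReal.ofReal (Real.exp (∑ i ∈ S, a i ^ 2 / 2)) := by
  have hτ : Measurable (fun z : ι → ℝ => fun i => if i ∈ S then z i + a i else z i) := by
    refine measurable_pi_lambda _ fun i => ?_
    split_ifs <;> fun_prop
  have h := congrArg (fun m : Measure (ι → ℝ) => m Set.univ)
    (shift_block S (a := fun i _ => a i) (fun i => measurable_const) (fun i _ => fun _ _ _ => rfl)
      (G := fun _ => 1) measurable_const (fun _ _ _ => rfl))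
  simp only [Measure.map_apply hτ MeasurableSet.univ, Set.preimage_univ,
    withDensity_apply _ MeasurableSet.univ, Measure.restrict_univ, lintegral_const, one_mul,
    measure_univ] at h
  have hp : ∀ z : ι → ℝ, ENNReal.ofReal (Real.exp (∑ i ∈ S, a i * z i)) =
      (∏ i ∈ S, ENNReal.ofReal (cm (a i) (z i))) *
        ENNReal.ofReal (Real.exp (∑ i ∈ S, a i ^ 2 / 2)) := by
    intro z
    simp only [cm]
    rw [← ENNReal.ofReal_prod_of_nonneg (fun i _ => (Real.exp_pos _).le),
      ← ENNReal.ofReal_mul (Finset.prod_nonneg fun i _ => (Real.exp_pos _).le)]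
    simp only [← Real.exp_sum, ← Real.exp_add, ← Finset.sum_add_distrib, sub_add_cancel]
  simp only [hp]
  rw [lintegral_mul_const' _ _ ENNReal.ofReal_ne_top, ← h, one_mul]

theorem lintegral_exp' (S : Finset ι) (a : ι → ℝ) :
    Integrable (fun z => Real.exp (∑ i ∈ S, a i * z i)) (gN ι) ∧
    ∫ z, Real.exp (∑ i ∈ S, a i * z i) ∂gN ι = Real.exp (∑ i ∈ S, a i ^ 2 / 2) := by
  have hm : AEStronglyMeasurable (fun z : ι → ℝ => Real.exp (∑ i ∈ S, a i * z i)) (gN ι) :=
    (Real.measurable_exp.comp (Finset.measurable_sum _ fun i _ =>
      measurable_const.mul (measurable_pi_apply i))).aestronglyMeasurable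
  refine ⟨⟨hm, ?_⟩, ?_⟩
  · rw [hasFiniteIntegral_iff_ofReal (ae_of_all _ fun z => (Real.exp_pos _).le), lintegral_exp]
    exact ENNReal.ofReal_lt_top
  · rw [integral_eq_lintegral_of_nonneg_ae (ae_of_all _ fun z => (Real.exp_pos _).le) hm,
      lintegral_exp, ENNReal.toReal_ofReal (Real.exp_pos _).le]

theorem integrable_sq_coord (i : ι) : Integrable (fun z : ι → ℝ => z i ^ 2) (gN ι) := by
  have h : MeasurePreserving (fun z : ι → ℝ => z i) (gN ι) (gaussianReal 0 1) :=
    measurePreserving_eval_infinitePi _ i
  exact h.integrable_comp_of_integrable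
    ((memLp_id_gaussianReal (μ := 0) (v := 1) 2).integrable_sq)

theorem integral_sq_coord (i : ι) : ∫ z, z i ^ 2 ∂gN ι = 1 := by
  have h : MeasurePreserving (fun z : ι → ℝ => z i) (gN ι) (gaussianReal 0 1) :=
    measurePreserving_eval_infinitePi _ i
  have h2 := variance_id_gaussianReal (μ := 0) (v := 1)
  rw [variance_eq_integral (by fun_prop)] at h2
  simp only [id_eq, integral_id_gaussianReal, sub_zero, NNReal.coe_one] at h2
  rw [← h2, ← h.map_eq, integral_map h.measurable.aemeasurable (by fun_prop)]

theorem integrable_abs_coord (i : ι) : Integrable (fun z : ι → ℝ => |z i|) (gN ι) := by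
  refine Integrable.mono' (g := fun z : ι → ℝ => (1 + z i ^ 2) / 2)
    (((integrable_const _).add (integrable_sq_coord i)).div_const 2)
    (measurable_pi_apply i).abs.aestronglyMeasurable
    (ae_of_all _ fun z => ?_)
  rw [Real.norm_eq_abs, abs_abs]
  nlinarith [sq_nonneg (|z i| - 1), sq_abs (z i)]

theorem integral_abs_coord_le (i : ι) : ∫ z, |z i| ∂gN ι ≤ 1 := by
  calc ∫ z, |z i| ∂gN ι ≤ ∫ z, (1 + z i ^ 2) / 2 ∂gN ι :=
        integral_mono (integrable_abs_coord i)
          (((integrable_const _).add (integrable_sq_coord i)).div_const 2) fun z => by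
            nlinarith [sq_nonneg (|z i| - 1), sq_abs (z i)]
    _ = 1 := by
      rw [integral_div, integral_add (integrable_const _) (integrable_sq_coord i),
        integral_sq_coord]
      simp

/-! ## Conditional averages and the variance bound -/

theorem integrable_of_bdd {α : Type*} [MeasurableSpace α] {μ : Measure α} [IsFiniteMeasure μ]
    {f : α → ℝ} (hf : Measurable f) {B : ℝ} (hB : ∀ x, |f x| ≤ B) : Integrable f μ :=
  Integrable.of_bound hf.aestronglyMeasurable B (ae_of_all _ hB)

/-- Average out the coordinates in `S`. -/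
def resamp (S : Finset ι) (f : (ι → ℝ) → ℝ) (z : ι → ℝ) : ℝ :=
  ∫ z', f (splice S (z, z')) ∂gN ι

theorem measurable_resamp (S : Finset ι) {f : (ι → ℝ) → ℝ} (hf : Measurable f) :
    Measurable (resamp S f) :=
  ((hf.comp (measurable_splice S)).stronglyMeasurable.integral_prod_right'
    (ν := gN ι)).measurable

theorem abs_resamp_le (S : Finset ι) {f : (ι → ℝ) → ℝ} {B : ℝ} (hB : ∀ x, |f x| ≤ B) (z : ι → ℝ) :
    |resamp S f z| ≤ B := by
  have := norm_integral_le_of_norm_le_const (μ := gN ι) (C := B)
    (f := fun z' => f (splice S (z, z'))) (ae_of_all _ fun z' => hB _)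
  simpa [resamp, Real.norm_eq_abs] using this

theorem dependsOn_resamp (S : Finset ι) {f : (ι → ℝ) → ℝ} {T : Set ι} (hf : DependsOn f T) :
    DependsOn (resamp S f) (T \ S) := by
  intro x y hxy
  simp only [resamp]
  refine integral_congr_ae (ae_of_all _ fun z' => hf fun i hi => ?_)
  by_cases h : i ∈ S
  · simp [splice, h]
  · simp [splice, h, hxy i ⟨hi, by simpa using h⟩]

theorem resamp_splice (S : Finset ι) (f : (ι → ℝ) → ℝ) (z z' : ι → ℝ) :
    resamp S f (splice S (z, z')) = resamp S f z := by
  simp only [resamp]
  congr 1
  funext w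
  congr 1
  funext i
  by_cases h : i ∈ S <;> simp [splice, h]

theorem integral_splice (S : Finset ι) {f : (ι → ℝ) → ℝ} (hf : Measurable f) {B : ℝ}
    (hB : ∀ x, |f x| ≤ B) : ∫ z, f z ∂gN ι = ∫ z, resamp S f z ∂gN ι := by
  conv_lhs => rw [← (splice_mp S).map_eq, integral_map (measurable_splice S).aemeasurable
    hf.aestronglyMeasurable]
  exact integral_prod _ (integrable_of_bdd (hf.comp (measurable_splice S)) fun x => hB _)

theorem resamp_const_mul (S : Finset ι) {f g : (ι → ℝ) → ℝ}
    (hg : ∀ z z', g (splice S (z, z')) = g z) (z : ι → ℝ) :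
    resamp S (fun x => g x * f x) z = g z * resamp S f z := by
  simp only [resamp, hg, integral_const_mul]

/-- The squared distance to a conditional average is the average conditional variance. -/
theorem integral_sq_sub_resamp (S : Finset ι) {f : (ι → ℝ) → ℝ} (hf : Measurable f) {B : ℝ}
    (hB : ∀ x, |f x| ≤ B) :
    ∫ z, (f z - resamp S f z) ^ 2 ∂gN ι =
      ∫ z, ∫ z', (f (splice S (z, z')) - resamp S f z) ^ 2 ∂gN ι ∂gN ι := by
  rw [integral_splice S (f := fun z => (f z - resamp S f z) ^ 2)
    ((hf.sub (measurable_resamp S hf)).pow_const 2) (B := (2 * B) ^ 2) (fun x => ?_)]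
  · refine integral_congr_ae (ae_of_all _ fun z => ?_)
    show resamp S (fun z => (f z - resamp S f z) ^ 2) z = _
    simp only [resamp.eq_def S (fun z => (f z - resamp S f z) ^ 2), resamp_splice]
  · have h1 := abs_le.1 (hB x)
    have h2 := abs_le.1 (abs_resamp_le S hB x)
    rw [abs_of_nonneg (sq_nonneg _)]
    nlinarith

/-- Variance bound for functions Lipschitz in each coordinate. -/
theorem variance_le (S : Finset ι) : ∀ {f : (ι → ℝ) → ℝ}, Measurable f →
    ∀ {B : ℝ}, (∀ x, |f x| ≤ B) → DependsOn f (S : Set ι) → ∀ {L : ι → ℝ},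
    (∀ i ∈ S, ∀ z x y, |f (Function.update z i x) - f (Function.update z i y)| ≤ L i * |x - y|) →
    ∫ z, (f z - ∫ w, f w ∂gN ι) ^ 2 ∂gN ι ≤ ∑ i ∈ S, L i ^ 2 := by
  induction S using Finset.induction_on with
  | empty =>
    intro f hf B hB hdep L _
    have hc : ∀ z w, f z = f w := fun z w => hdep fun i hi => absurd hi (by simp)
    have : ∀ z, f z - ∫ w, f w ∂gN ι = 0 := fun z => by simp [hc _ z]
    simp [this]
  | @insert j S hj ih =>
    intro f hf B hB hdep L hL
    set g := resamp {j} f with hg
    set c := ∫ w, f w ∂gN ι with hc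
    have hgm : Measurable g := measurable_resamp _ hf
    have hgB : ∀ x, |g x| ≤ B := abs_resamp_le _ hB
    have hcB : |c| ≤ B := by
      have := norm_integral_le_of_norm_le_const (μ := gN ι) (C := B) (f := f) (ae_of_all _ hB)
      simpa [Real.norm_eq_abs] using this
    have hu : ∀ z z' : ι → ℝ, splice {j} (z, z') = Function.update z j (z' j) := by
      intro z z'; ext i
      by_cases h : i = j
      · subst h; simp [splice]
      · simp [splice, h]
    have hgint : ∫ w, g w ∂gN ι = c := (integral_splice {j} hf hB).symm
    have hgdep : DependsOn g (S : Set ι) := (dependsOn_resamp {j} hdep).mono fun i hi => by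
      simp only [Finset.coe_insert, Finset.coe_singleton, Set.mem_sdiff, Set.mem_insert_iff,
        Set.mem_singleton_iff] at hi
      exact hi.1.resolve_left hi.2
    have hgL : ∀ i ∈ S, ∀ z x y,
        |g (Function.update z i x) - g (Function.update z i y)| ≤ L i * |x - y| := by
      intro i hi z x y
      have hij : i ≠ j := fun e => hj (e ▸ hi)
      simp only [hg, resamp, hu]
      have hint : ∀ t, Integrable (fun z' => f (Function.update (Function.update z i t) j (z' j)))
          (gN ι) := fun t => integrable_of_bdd
            (hf.comp ((measurable_update _).comp (measurable_pi_apply j))) (fun _ => hB _)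
      rw [← integral_sub (hint x) (hint y)]
      have := norm_integral_le_of_norm_le_const (μ := gN ι) (C := L i * |x - y|)
        (f := fun z' => f (Function.update (Function.update z i x) j (z' j)) -
          f (Function.update (Function.update z i y) j (z' j))) (ae_of_all _ fun z' => ?_)
      · simpa [Real.norm_eq_abs] using this
      · rw [Function.update_comm hij, Function.update_comm hij, Real.norm_eq_abs]
        exact hL i (Finset.mem_insert_of_mem hi) _ x y
    have hfg : ∫ z, (f z - g z) ^ 2 ∂gN ι ≤ L j ^ 2 := by
      rw [hg, integral_sq_sub_resamp {j} hf hB]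
      have hb : ∀ z, ∫ z', (f (splice {j} (z, z')) - resamp {j} f z) ^ 2 ∂gN ι ≤ L j ^ 2 := by
        intro z
        set a := f (Function.update z j 0) with ha
        set m := resamp {j} f z with hm
        have hint : Integrable (fun z' => f (splice {j} (z, z'))) (gN ι) :=
          integrable_of_bdd (hf.comp ((measurable_splice _).comp (by fun_prop))) (fun _ => hB _)
        have hint2 : Integrable (fun z' => (f (splice {j} (z, z')) - a) ^ 2) (gN ι) :=
          integrable_of_bdd (((hf.comp ((measurable_splice _).comp (by fun_prop))).sub_const a).pow_const 2)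
            (B := (2 * B) ^ 2) (fun z' => by
              have h1 := abs_le.1 (hB (splice {j} (z, z')))
              have h2 := abs_le.1 (hB (Function.update z j 0))
              rw [abs_of_nonneg (sq_nonneg _)]
              nlinarith)
        have e : ∀ z', (f (splice {j} (z, z')) - m) ^ 2 =
            (f (splice {j} (z, z')) - a) ^ 2 - 2 * (m - a) * f (splice {j} (z, z'))
              + (m ^ 2 - a ^ 2) := fun z' => by ring
        simp only [e]
        rw [integral_add (f := fun z' => (f (splice {j} (z, z')) - a) ^ 2 -
            2 * (m - a) * f (splice {j} (z, z'))) (hint2.sub (hint.const_mul _))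
            (integrable_const _),
          integral_sub hint2 (hint.const_mul _), integral_const_mul, integral_const]
        simp only [probReal_univ, smul_eq_mul, one_mul]
        have hmval : ∫ z', f (splice {j} (z, z')) ∂gN ι = m := rfl
        rw [hmval]
        have h2 : ∫ z', (f (splice {j} (z, z')) - a) ^ 2 ∂gN ι ≤
            ∫ z', L j ^ 2 * z' j ^ 2 ∂gN ι := by
          refine integral_mono hint2 ((integrable_sq_coord j).const_mul _) fun z' => ?_
          simp only [hu, ha]
          have := hL j (Finset.mem_insert_self _ _) z (z' j) 0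
          rw [sub_zero] at this
          have h3 := pow_le_pow_left₀ (abs_nonneg _) this 2
          rwa [sq_abs, mul_pow, sq_abs] at h3
        rw [integral_const_mul, integral_sq_coord, mul_one] at h2
        nlinarith [sq_nonneg (m - a)]
      have hm2 : Measurable (fun z : ι → ℝ =>
          ∫ z', (f (splice {j} (z, z')) - resamp {j} f z) ^ 2 ∂gN ι) :=
        (((hf.comp (measurable_splice {j})).sub ((measurable_resamp {j} hf).comp
          measurable_fst)).pow_const 2).stronglyMeasurable.integral_prod_right'.measurable
      have hnn : ∀ z, 0 ≤ ∫ z', (f (splice {j} (z, z')) - resamp {j} f z) ^ 2 ∂gN ι :=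
        fun z => integral_nonneg fun _ => sq_nonneg _
      calc _ ≤ ∫ _z, L j ^ 2 ∂gN ι := integral_mono
            (integrable_of_bdd hm2 fun z => by rw [abs_of_nonneg (hnn z)]; exact hb z)
            (integrable_const _) hb
        _ = L j ^ 2 := by simp
    have horth : ∫ z, (f z - g z) * (g z - c) ∂gN ι = 0 := by
      rw [integral_splice {j} (f := fun z => (f z - g z) * (g z - c))
        ((hf.sub hgm).mul (hgm.sub_const c)) (B := (2 * B) * (2 * B)) (fun x => ?_)]
      · have : ∀ z, resamp {j} (fun z => (f z - g z) * (g z - c)) z = 0 := by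
          intro z
          simp only [resamp, hg, resamp_splice, integral_mul_const]
          have hi : Integrable (fun z' => f (splice {j} (z, z'))) (gN ι) :=
            integrable_of_bdd (hf.comp ((measurable_splice _).comp measurable_prodMk_left))
              (fun _ => hB _)
          rw [integral_sub hi (integrable_const _), integral_const]
          simp
        simp [this]
      · rw [abs_mul]
        exact mul_le_mul ((abs_sub _ _).trans (by linarith [hB x, hgB x]))
          ((abs_sub _ _).trans (by linarith [hgB x])) (abs_nonneg _)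
          (by linarith [(abs_nonneg _).trans (hB x)])
    have hsplit : ∫ z, (f z - c) ^ 2 ∂gN ι =
        ∫ z, (f z - g z) ^ 2 ∂gN ι + ∫ z, (g z - c) ^ 2 ∂gN ι := by
      have e : ∀ z, (f z - c) ^ 2 = ((f z - g z) ^ 2 + (g z - c) ^ 2)
          + 2 * ((f z - g z) * (g z - c)) := fun z => by ring
      have i1 : Integrable (fun z => (f z - g z) ^ 2) (gN ι) :=
        integrable_of_bdd ((hf.sub hgm).pow_const 2) (B := (2 * B) ^ 2) fun x => by
          have h1 := abs_le.1 (hB x); have h2 := abs_le.1 (hgB x)
          rw [abs_of_nonneg (sq_nonneg _)]; nlinarith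
      have i2 : Integrable (fun z => (g z - c) ^ 2) (gN ι) :=
        integrable_of_bdd ((hgm.sub_const c).pow_const 2) (B := (2 * B) ^ 2) fun x => by
          have h1 := abs_le.1 hcB; have h2 := abs_le.1 (hgB x)
          rw [abs_of_nonneg (sq_nonneg _)]; nlinarith
      have i3 : Integrable (fun z => (f z - g z) * (g z - c)) (gN ι) :=
        integrable_of_bdd ((hf.sub hgm).mul (hgm.sub_const c)) (B := (2 * B) * (2 * B)) fun x => by
          rw [abs_mul]
          exact mul_le_mul ((abs_sub _ _).trans (by linarith [hB x, hgB x]))
            ((abs_sub _ _).trans (by linarith [hgB x])) (abs_nonneg _)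
            (by linarith [(abs_nonneg _).trans (hB x)])
      simp only [e]
      rw [integral_add (f := fun z => (f z - g z) ^ 2 + (g z - c) ^ 2) (i1.add i2) (i3.const_mul 2),
        integral_add i1 i2, integral_const_mul, horth, mul_zero, add_zero]
    rw [hsplit, Finset.sum_insert hj]
    refine add_le_add hfg ?_
    have := ih hgm hgB hgdep hgL
    rwa [hgint] at this

/-- A Lipschitz function is close to its average over coordinates with small Lipschitz constants. -/
theorem integral_sq_sub_resamp_le (S : Finset ι) {f : (ι → ℝ) → ℝ} (hf : Measurable f) {B : ℝ}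
    (hB : ∀ x, |f x| ≤ B) {L : ι → ℝ}
    (hL : ∀ i ∈ S, ∀ z x y, |f (Function.update z i x) - f (Function.update z i y)| ≤ L i * |x - y|) :
    ∫ z, (f z - resamp S f z) ^ 2 ∂gN ι ≤ ∑ i ∈ S, L i ^ 2 := by
  rw [integral_sq_sub_resamp S hf hB]
  have hb : ∀ z, ∫ z', (f (splice S (z, z')) - resamp S f z) ^ 2 ∂gN ι ≤ ∑ i ∈ S, L i ^ 2 := by
    intro z
    refine variance_le S (f := fun z' => f (splice S (z, z')))
      (hf.comp ((measurable_splice _).comp (by fun_prop))) (fun _ => hB _)
      (fun x y hxy => congrArg f (funext fun i => ?_)) (fun i hi w x y => ?_)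
    · by_cases h : i ∈ S
      · simp [splice, h, hxy i (by simpa using h)]
      · simp [splice, h]
    · have e : ∀ t, splice S (z, Function.update w i t) =
          Function.update (splice S (z, w)) i t := by
        intro t; funext k
        by_cases hk : k = i
        · subst hk; simp [splice, hi]
        · simp [splice, hk]
      simp only [e]
      exact hL i hi _ x y
  have hm2 : Measurable (fun z : ι → ℝ =>
      ∫ z', (f (splice S (z, z')) - resamp S f z) ^ 2 ∂gN ι) :=
    (((hf.comp (measurable_splice S)).sub ((measurable_resamp S hf).comp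
      measurable_fst)).pow_const 2).stronglyMeasurable.integral_prod_right'.measurable
  calc _ ≤ ∫ _z, ∑ i ∈ S, L i ^ 2 ∂gN ι := integral_mono
        (integrable_of_bdd hm2 fun z => by
          rw [abs_of_nonneg (integral_nonneg fun _ => sq_nonneg _)]; exact hb z)
        (integrable_const _) hb
    _ = _ := by simp

end Vale.Agent.P161
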