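import Vale.Agent.P161.Tree
import Mathlib.Data.List.Chain

/-!
# A concrete regular tree
-/

open SimpleGraph

namespace Vale.Agent.P161

/-- Reduced words: lists without two equal consecutive letters. -/
abbrev Word (d : ℕ) := {l : List (Fin d) // l.IsChain (· ≠ ·)}

/-- The tree of reduced words. -/
def wordTree (d : ℕ) : SimpleGraph (Word d) :=
  SimpleGraph.fromRel fun x y => ∃ a, y.1 = a :: x.1

theorem wordTree_adj {d : ℕ} {x y : Word d} :
    (wordTree d).Adj x y ↔ (∃ a, y.1 = a :: x.1) ∨ (∃ a, x.1 = a :: y.1) := by
  rw [wordTree, SimpleGraph.fromRel_adj]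
  constructor
  · exact fun h => h.2
  · intro h
    refine ⟨fun e => ?_, h⟩
    subst e
    rcases h with ⟨a, ha⟩ | ⟨a, ha⟩ <;>
      · have := congrArg List.length ha
        simp at this

theorem wordTree_isTree (d : ℕ) : (wordTree d).IsTree := by
  have hreach : ∀ (l : List (Fin d)) (h : l.IsChain (· ≠ ·)),
      (wordTree d).Reachable ⟨[], List.isChain_nil⟩ ⟨l, h⟩ := by
    intro l
    induction l with
    | nil => intro h; rfl
    | cons a l ih =>
      intro h
      exact (ih h.of_cons).trans (Adj.reachable (wordTree_adj.2 (Or.inl ⟨a, rfl⟩)))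
  have : Nonempty (Word d) := ⟨⟨[], List.isChain_nil⟩⟩
  refine ⟨Connected.mk fun x y => (hreach x.1 x.2).symm.trans (hreach y.1 y.2), ?_⟩
  have key : ∀ x y : Word d, (∃ a, y.1 = a :: x.1) → (wordTree d).IsBridge s(x, y) := by
    rintro x y ⟨a, ha⟩
    rw [SimpleGraph.isBridge_iff]
    rintro ⟨w⟩
    have inv : ∀ {p q : Word d}, ((wordTree d).deleteEdges {s(x, y)}).Walk p q →
        y.1 <:+ q.1 → y.1 <:+ p.1 := by
      intro p q w
      induction w with
      | nil => exact id
      | @cons u v z huv _ ih =>
        intro hz
        have hv := ih hz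
        obtain ⟨hadj, hne⟩ := SimpleGraph.deleteEdges_adj.1 huv
        rcases wordTree_adj.1 hadj with ⟨c, hc⟩ | ⟨c, hc⟩
        · rw [hc, List.suffix_cons_iff] at hv
          rcases hv with hv | hv
          · exfalso
            apply hne
            have hvy : v = y := Subtype.ext (by rw [hc, hv])
            have hux : u = x := Subtype.ext (List.cons.inj (hv.symm.trans ha)).2
            rw [hvy, hux]
            rfl
          · exact hv
        · rw [hc]
          exact hv.trans (List.suffix_cons c v.1)
    have h := inv w List.suffix_rfl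
    rw [ha] at h
    exact absurd h.length_le (by simp)
  rw [SimpleGraph.isAcyclic_iff_forall_adj_isBridge]
  intro x y hxy
  rcases wordTree_adj.1 hxy with h | h
  · exact key x y h
  · rw [Sym2.eq_swap]; exact key y x h

theorem wordTree_degree (d : ℕ) (x : Word d) : ((wordTree d).neighborSet x).ncard = d := by
  classical
  obtain ⟨l, hl⟩ := x
  cases l with
  | nil =>
    have : (wordTree d).neighborSet ⟨[], hl⟩ =
        Set.range fun a : Fin d => (⟨[a], List.isChain_singleton a⟩ : Word d) := by
      ext y
      simp only [SimpleGraph.mem_neighborSet, wordTree_adj, Set.mem_range]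
      constructor
      · rintro (⟨a, ha⟩ | ⟨a, ha⟩)
        · exact ⟨a, Subtype.ext ha.symm⟩
        · simp at ha
      · rintro ⟨a, rfl⟩
        exact Or.inl ⟨a, rfl⟩
    rw [this, Set.ncard_range_of_injective (fun a b h => by simpa using h), Nat.card_fin]
  | cons b l =>
    set f : Fin d → Word d := fun a =>
      if h : a = b then ⟨l, hl.of_cons⟩
      else ⟨a :: b :: l, List.IsChain.cons_cons h hl⟩ with hf
    have hinj : Function.Injective f := by
      intro p q hpq
      by_cases hp : p = b <;> by_cases hq : q = b
      · rw [hp, hq]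
      · exfalso
        simp only [hf, dif_pos hp, dif_neg hq] at hpq
        have := congrArg (fun w : Word d => w.1.length) hpq
        simp only [List.length_cons] at this
        omega
      · exfalso
        simp only [hf, dif_neg hp, dif_pos hq] at hpq
        have := congrArg (fun w : Word d => w.1.length) hpq
        simp only [List.length_cons] at this
        omega
      · simp only [hf, dif_neg hp, dif_neg hq] at hpq
        exact (List.cons.inj (Subtype.ext_iff.1 hpq)).1
    have : (wordTree d).neighborSet ⟨b :: l, hl⟩ = Set.range f := by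
      ext y
      simp only [SimpleGraph.mem_neighborSet, wordTree_adj, Set.mem_range]
      constructor
      · rintro (⟨a, ha⟩ | ⟨a, ha⟩)
        · have hab : a ≠ b := by
            have := y.2
            rw [ha] at this
            exact this.rel_head
          exact ⟨a, Subtype.ext (by simp [hf, dif_neg hab, ha])⟩
        · exact ⟨b, Subtype.ext (by simp [hf, (List.cons.inj ha).2])⟩
      · rintro ⟨a, rfl⟩
        by_cases ha : a = b
        · exact Or.inr ⟨b, by simp [hf, ha]⟩
        · exact Or.inl ⟨a, by simp [hf, ha]⟩
    rw [this, Set.ncard_range_of_injective hinj, Nat.card_fin]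

theorem exists_regularTree (d : ℕ) : ∃ (W : Type) (G : SimpleGraph W), IsRegularTree G d :=
  ⟨Word d, wordTree d, wordTree_isTree d, wordTree_degree d⟩

end Vale.Agent.P161
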