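import Vale.Agent.P161.Finite
import Vale.Agent.P161.Gauss
import Mathlib.Analysis.SpecialFunctions.Pow.Real
import Mathlib.Analysis.SpecialFunctions.Trigonometric.Deriv

/-!
# Discretized stochastic localization on finite subtrees

`z : ℕ × V → ℝ` is the noise; `z (k, v)` is the standardized increment of step `k` at vertex `v`.
-/

open MeasureTheory ProbabilityTheory Finset Real
open scoped ENNReal Classical

noncomputable section

namespace Vale.Agent.P161

variable {V : Type*} {G : SimpleGraph V} {d : ℕ} {θ δ : ℝ}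

/-- The field after `k` steps as a function of the observed increments. -/
def fieldOf (D : Finset V) (δ : ℝ) (x : ℕ × V → ℝ) (k : ℕ) : V → ℝ :=
  fun v => if v ∈ D then √δ * ∑ j ∈ range k, x (j, v) else 0

/-- The Euler scheme driven by the noise `z`. -/
def scheme (G : SimpleGraph V) (θ : ℝ) (D : Finset V) (δ : ℝ) (z : ℕ × V → ℝ) : ℕ → V → ℝ
  | 0 => fun _ => 0
  | k + 1 => fun v => scheme G θ D δ z k v +
      if v ∈ D then δ * mag G θ D (scheme G θ D δ z k) v + √δ * z (k, v) else 0

/-- The increments produced by the scheme during the first `k` steps. -/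
def xmap (G : SimpleGraph V) (θ : ℝ) (D : Finset V) (δ : ℝ) (k : ℕ) (z : ℕ × V → ℝ) :
    ℕ × V → ℝ :=
  fun p => if p.1 < k ∧ p.2 ∈ D then z p + √δ * mag G θ D (scheme G θ D δ z p.1) p.2 else z p

theorem scheme_eq (hδ : 0 ≤ δ) (D : Finset V) (z : ℕ × V → ℝ) {k n : ℕ} (hkn : k ≤ n) :
    scheme G θ D δ z k = fieldOf D δ (xmap G θ D δ n z) k := by
  induction k with
  | zero => funext v; simp [scheme, fieldOf]
  | succ k ih =>
    funext v
    by_cases hv : v ∈ D
    · have := congrFun (ih (by omega)) v
      simp only [scheme, fieldOf, if_pos hv] at this ⊢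
      rw [Finset.sum_range_succ, mul_add, this]
      simp only [xmap, show k < n by omega, hv, and_self, if_true]
      have hs := Real.mul_self_sqrt hδ
      linear_combination (-(mag G θ D (scheme G θ D δ z k) v)) * hs
    · have := congrFun (ih (by omega)) v
      simp only [scheme, fieldOf, if_neg hv] at this ⊢
      rw [this, add_zero]

theorem measurable_num (D : Finset V) (f : Finset V → ℝ) :
    Measurable (fun h : V → ℝ => num G θ D h f) := by
  refine Finset.measurable_sum _ fun A _ => ?_
  refine (measurable_const.mul (Real.measurable_exp.comp ?_)).mul_const _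
  exact Finset.measurable_sum _ fun u _ => (measurable_pi_apply u).mul_const _

theorem measurable_mag (D : Finset V) (v : V) : Measurable (fun h : V → ℝ => mag G θ D h v) :=
  (measurable_num D _).div (measurable_num D _)

theorem measurable_fieldOf (D : Finset V) (δ : ℝ) (k : ℕ) :
    Measurable (fun x : ℕ × V → ℝ => fieldOf D δ x k) := by
  refine measurable_pi_lambda _ fun v => ?_
  simp only [fieldOf]
  split_ifs
  · exact measurable_const.mul (Finset.measurable_sum _ fun j _ => measurable_pi_apply (j, v))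
  · exact measurable_const

theorem measurable_scheme (D : Finset V) (δ : ℝ) (k : ℕ) :
    Measurable (fun z : ℕ × V → ℝ => scheme G θ D δ z k) := by
  induction k with
  | zero => exact measurable_const
  | succ k ih =>
    refine measurable_pi_lambda _ fun v => ?_
    simp only [scheme]
    refine ((measurable_pi_apply v).comp ih).add ?_
    split_ifs
    · exact (measurable_const.mul ((measurable_mag D v).comp ih)).add
        (measurable_const.mul (measurable_pi_apply (k, v)))
    · exact measurable_const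

theorem measurable_xmap (D : Finset V) (δ : ℝ) (k : ℕ) :
    Measurable (xmap G θ D δ k) := by
  refine measurable_pi_lambda _ fun p => ?_
  simp only [xmap]
  split_ifs
  · exact (measurable_pi_apply p).add (measurable_const.mul
      ((measurable_mag D p.2).comp (measurable_scheme D δ p.1)))
  · exact measurable_pi_apply p

/-- The coordinates of the steps `< k` at vertices of `D`. -/
def coords (D : Finset V) (k : ℕ) : Finset (ℕ × V) := range k ×ˢ D

theorem mem_coords {D : Finset V} {k : ℕ} {p : ℕ × V} : p ∈ coords D k ↔ p.1 < k ∧ p.2 ∈ D := by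
  simp [coords]

theorem fieldOf_congr {D : Finset V} {k : ℕ} {x y : ℕ × V → ℝ}
    (h : ∀ p ∈ coords D k, x p = y p) : fieldOf D δ x k = fieldOf D δ y k := by
  funext v
  simp only [fieldOf]
  split_ifs with hv
  · congr 1
    exact Finset.sum_congr rfl fun j hj => h (j, v) (mem_coords.2 ⟨Finset.mem_range.1 hj, hv⟩)
  · rfl

theorem scheme_congr {D : Finset V} {k : ℕ} {x y : ℕ × V → ℝ}
    (h : ∀ p ∈ coords D k, x p = y p) : scheme G θ D δ x k = scheme G θ D δ y k := by
  induction k with
  | zero => rfl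
  | succ k ih =>
    have hk := ih fun p hp => h p (mem_coords.2 ⟨by have := (mem_coords.1 hp).1; omega,
      (mem_coords.1 hp).2⟩)
    funext v
    simp only [scheme, hk]
    split_ifs with hv
    · rw [h (k, v) (mem_coords.2 ⟨by simp, hv⟩)]
    · rfl

/-! ## The two densities -/

/-- The exponent of the density of the scheme. -/
def mExp (G : SimpleGraph V) (θ : ℝ) (D : Finset V) (δ : ℝ) (k : ℕ) (x : ℕ × V → ℝ) : ℝ :=
  ∑ j ∈ range k, ∑ v ∈ D, (√δ * mag G θ D (fieldOf D δ x j) v * x (j, v) -
    δ * mag G θ D (fieldOf D δ x j) v ^ 2 / 2)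

/-- The density of the scheme increments with respect to the Gaussian law. -/
def mDens (G : SimpleGraph V) (θ : ℝ) (D : Finset V) (δ : ℝ) (k : ℕ) (x : ℕ × V → ℝ) : ℝ :=
  exp (mExp G θ D δ k x)

/-- The exact observation chain, weighted by a function of the hidden configuration. -/
def post (G : SimpleGraph V) (θ : ℝ) (D : Finset V) (δ : ℝ) (k : ℕ) (f : Finset V → ℝ)
    (x : ℕ × V → ℝ) : ℝ :=
  exp (-(k * δ * D.card / 2)) * num G θ D (fieldOf D δ x k) f

/-- The density of the exact observation chain with respect to the Gaussian law. -/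
def lDens (G : SimpleGraph V) (θ : ℝ) (D : Finset V) (δ : ℝ) (k : ℕ) (x : ℕ × V → ℝ) : ℝ :=
  post G θ D δ k (fun _ => 1) x

theorem measurable_mExp (D : Finset V) (δ : ℝ) (k : ℕ) : Measurable (mExp G θ D δ k) := by
  refine Finset.measurable_sum _ fun j _ => Finset.measurable_sum _ fun v _ => ?_
  have := (measurable_mag (G := G) (θ := θ) D v).comp (measurable_fieldOf D δ j)
  exact ((measurable_const.mul this).mul (measurable_pi_apply (j, v))).sub
    (((measurable_const.mul (this.pow_const 2))).div_const 2)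

theorem measurable_mDens (D : Finset V) (δ : ℝ) (k : ℕ) : Measurable (mDens G θ D δ k) :=
  Real.measurable_exp.comp (measurable_mExp D δ k)

theorem measurable_post (D : Finset V) (δ : ℝ) (k : ℕ) (f : Finset V → ℝ) :
    Measurable (post G θ D δ k f) :=
  measurable_const.mul ((measurable_num D f).comp (measurable_fieldOf D δ k))

theorem lDens_pos (h0 : 0 ≤ θ) (h1 : θ < 1) (D : Finset V) (δ : ℝ) (k : ℕ) (x : ℕ × V → ℝ) :
    0 < lDens G θ D δ k x := mul_pos (exp_pos _) (part_pos h0 h1 D _)

theorem mExp_congr {D : Finset V} {k : ℕ} {x y : ℕ × V → ℝ}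
    (h : ∀ p ∈ coords D k, x p = y p) : mExp G θ D δ k x = mExp G θ D δ k y := by
  refine Finset.sum_congr rfl fun j hj => Finset.sum_congr rfl fun v hv => ?_
  have hj' := Finset.mem_range.1 hj
  have hf : fieldOf D δ x j = fieldOf D δ y j := fieldOf_congr fun p hp => h p
    (mem_coords.2 ⟨by have := (mem_coords.1 hp).1; omega, (mem_coords.1 hp).2⟩)
  rw [hf, h (j, v) (mem_coords.2 ⟨hj', hv⟩)]

theorem map_xmap (hδ : 0 ≤ δ) (D : Finset V) (k : ℕ) :
    (gN (ℕ × V)).map (xmap G θ D δ k) =
      (gN (ℕ × V)).withDensity (fun x => ENNReal.ofReal (mDens G θ D δ k x)) := by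
  induction k with
  | zero =>
    have h1 : xmap G θ D δ 0 = id := by funext z p; simp [xmap]
    simp [h1, mDens, mExp]
  | succ k ih =>
    set S : Finset (ℕ × V) := {k} ×ˢ D with hS
    set a : ℕ × V → (ℕ × V → ℝ) → ℝ :=
      fun p y => √δ * mag G θ D (fieldOf D δ y k) p.2 with ha
    have hcompl : ∀ p ∈ coords D k, p ∈ (S : Set (ℕ × V))ᶜ := by
      intro p hp
      simp only [hS, Set.mem_compl_iff, Finset.mem_coe, Finset.mem_product, Finset.mem_singleton]
      rintro ⟨rfl, -⟩
      exact absurd (mem_coords.1 hp).1 (lt_irrefl _)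
    have hcomp : xmap G θ D δ (k + 1) =
        (fun y p => if p ∈ S then y p + a p y else y p) ∘ xmap G θ D δ k := by
      funext z p
      obtain ⟨j, v⟩ := p
      have hsch := scheme_eq (G := G) (θ := θ) hδ D z (le_refl k)
      simp only [Function.comp_apply, hS, ha, Finset.mem_product, Finset.mem_singleton, ← hsch]
      simp only [xmap]
      by_cases hv : v ∈ D
      · rcases lt_trichotomy j k with hj | rfl | hj
        · simp [hv, hj, hj.ne, show j < k + 1 by omega]
        · simp [hv]
        · simp [hv, show ¬ j < k by omega, hj.ne', show ¬ j < k + 1 by omega]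
      · simp [hv]
    have hτ : Measurable (fun (y : ℕ × V → ℝ) p => if p ∈ S then y p + a p y else y p) := by
      refine measurable_pi_lambda _ fun p => ?_
      split_ifs
      · exact (measurable_pi_apply p).add (measurable_const.mul
          ((measurable_mag D p.2).comp (measurable_fieldOf D δ k)))
      · exact measurable_pi_apply p
    rw [hcomp, ← Measure.map_map hτ (measurable_xmap D δ k), ih]
    have hsb := shift_block S (a := a)
      (fun p => measurable_const.mul
        ((measurable_mag (G := G) (θ := θ) D p.2).comp (measurable_fieldOf D δ k)))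
      (fun p _ x y hxy => by
        simp only [ha]; rw [fieldOf_congr fun q hq => hxy q (hcompl q hq)])
      (G := fun x => ENNReal.ofReal (mDens G θ D δ k x))
      (measurable_mDens D δ k).ennreal_ofReal
      (fun x y hxy => by
        simp only [mDens]; rw [mExp_congr fun q hq => hxy q (hcompl q hq)])
    refine Eq.trans ?_ (hsb.trans ?_)
    · congr 1
      funext y p
      split_ifs <;> rfl
    congr 1
    funext x
    simp only [cm, mDens]
    rw [← ENNReal.ofReal_prod_of_nonneg (fun p _ => (exp_pos _).le),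
      ← ENNReal.ofReal_mul (exp_pos _).le]
    congr 1
    simp only [← Real.exp_sum, ← Real.exp_add]
    congr 1
    simp only [mExp, Finset.sum_range_succ, hS, ha, Finset.sum_product, Finset.sum_singleton]
    congr 1
    refine Finset.sum_congr rfl fun v _ => ?_
    rw [mul_pow, Real.sq_sqrt hδ]

theorem integrable_mDens (hδ : 0 ≤ δ) (D : Finset V) (k : ℕ) :
    Integrable (mDens G θ D δ k) (gN (ℕ × V)) ∧ ∫ x, mDens G θ D δ k x ∂gN (ℕ × V) = 1 := by
  have h := congrArg (fun m : Measure (ℕ × V → ℝ) => m Set.univ) (map_xmap (G := G) (θ := θ) hδ D k)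
  simp only [Measure.map_apply (measurable_xmap D δ k) MeasurableSet.univ, Set.preimage_univ,
    measure_univ, withDensity_apply _ MeasurableSet.univ, Measure.restrict_univ] at h
  have hm := (measurable_mDens (G := G) (θ := θ) D δ k).aestronglyMeasurable (μ := gN (ℕ × V))
  have hnn : ∀ x, 0 ≤ mDens G θ D δ k x := fun x => (exp_pos _).le
  refine ⟨⟨hm, ?_⟩, ?_⟩
  · rw [hasFiniteIntegral_iff_ofReal (ae_of_all _ hnn), ← h]
    exact ENNReal.one_lt_top
  · rw [integral_eq_lintegral_of_nonneg_ae (ae_of_all _ hnn) hm, ← h, ENNReal.toReal_one]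

theorem integral_comp_xmap (hδ : 0 ≤ δ) (D : Finset V) (k : ℕ) {F : (ℕ × V → ℝ) → ℝ}
    (hF : Measurable F) :
    ∫ z, F (xmap G θ D δ k z) ∂gN (ℕ × V) = ∫ x, F x * mDens G θ D δ k x ∂gN (ℕ × V) := by
  rw [← integral_map (measurable_xmap D δ k).aemeasurable hF.aestronglyMeasurable, map_xmap hδ,
    integral_withDensity_eq_integral_toReal_smul (measurable_mDens D δ k).ennreal_ofReal
      (ae_of_all _ fun _ => ENNReal.ofReal_lt_top)]
  refine integral_congr_ae (ae_of_all _ fun x => ?_)
  show (ENNReal.ofReal (mDens G θ D δ k x)).toReal • F x = F x * mDens G θ D δ k x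
  rw [smul_eq_mul, mul_comm, ENNReal.toReal_ofReal (show 0 ≤ mDens G θ D δ k x from (exp_pos _).le)]

/-! ## Integrating out observations -/

theorem bf_fieldOf (D : Finset V) (δ : ℝ) (k : ℕ) (x : ℕ × V → ℝ) (A : Finset V) :
    bf D (fieldOf D δ x k) A = exp (∑ p ∈ coords D k, √δ * sp A p.2 * x p) := by
  simp only [bf, coords, Finset.sum_product]
  rw [Finset.sum_comm]
  congr 1
  refine Finset.sum_congr rfl fun v hv => ?_
  rw [fieldOf, if_pos hv, mul_comm, ← mul_assoc, Finset.mul_sum]
  exact Finset.sum_congr rfl fun j _ => by ring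

theorem post_eq_sum (D : Finset V) (δ : ℝ) (k : ℕ) (f : Finset V → ℝ) (x : ℕ × V → ℝ) :
    post G θ D δ k f x = ∑ A ∈ D.powerset, exp (-(k * δ * D.card / 2)) * wt G θ D A * f A *
      exp (∑ p ∈ coords D k, √δ * sp A p.2 * x p) := by
  rw [post, num, Finset.mul_sum]
  refine Finset.sum_congr rfl fun A _ => ?_
  rw [bf_fieldOf]; ring

theorem integrable_post (D : Finset V) (δ : ℝ) (k : ℕ) (f : Finset V → ℝ) :
    Integrable (post G θ D δ k f) (gN (ℕ × V)) := by
  rw [show post G θ D δ k f = _ from funext (post_eq_sum D δ k f)]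
  exact integrable_finsetSum _ fun A _ =>
    ((lintegral_exp' (coords D k) (fun p => √δ * sp A p.2)).1).const_mul _

theorem integrable_bdd_post (D : Finset V) (δ : ℝ) (k : ℕ) (f : Finset V → ℝ)
    {g : (ℕ × V → ℝ) → ℝ} (hg : Measurable g) {B : ℝ} (hB : ∀ x, |g x| ≤ B) :
    Integrable (fun x => g x * post G θ D δ k f x) (gN (ℕ × V)) :=
  (integrable_post D δ k f).bdd_mul hg.aestronglyMeasurable (ae_of_all _ hB)

/-- Observations that are later in time or outside `D` can be integrated out. -/
theorem int_out (hT : RTree G d) (h0 : 0 ≤ θ) (h1 : θ < 1) (hδ : 0 ≤ δ) {D D' : Finset V}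
    (hD : Conn G D) (hD' : Conn G D') (hsub : D ⊆ D') {k k' : ℕ} (hk : k ≤ k')
    {f : Finset V → ℝ} (hf : ∀ A, f (A ∩ D) = f A)
    {g : (ℕ × V → ℝ) → ℝ} (hg : Measurable g) {B : ℝ} (hB : ∀ x, |g x| ≤ B)
    (hgdep : DependsOn g (coords D k : Set (ℕ × V))) :
    ∫ x, g x * post G θ D' δ k' f x ∂gN (ℕ × V) = ∫ x, g x * post G θ D δ k f x ∂gN (ℕ × V) := by
  set S := coords D' k' \ coords D k with hS
  have hcs : coords D k ⊆ coords D' k' := by
    intro p hp
    rw [mem_coords] at hp ⊢
    exact ⟨by omega, hsub hp.2⟩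
  have hgint := integrable_bdd_post (G := G) (θ := θ) D' δ k' f hg hB
  have key : ∀ z, ∫ z', g (splice S (z, z')) * post G θ D' δ k' f (splice S (z, z')) ∂gN (ℕ × V)
      = g z * post G θ D δ k f z := by
    intro z
    have hg' : ∀ z', g (splice S (z, z')) = g z := fun z' => hgdep fun p hp => by
      have hp' : p ∉ S := fun h => (Finset.mem_sdiff.1 h).2 hp
      simp [splice, hp']
    have hsum : ∀ A z', ∑ p ∈ coords D' k', √δ * sp A p.2 * splice S (z, z') p =
        ∑ p ∈ coords D k, √δ * sp A p.2 * z p + ∑ p ∈ S, √δ * sp A p.2 * z' p := by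
      intro A z'
      rw [← Finset.sum_sdiff hcs, ← hS, add_comm]
      congr 1
      · exact Finset.sum_congr rfl fun p hp => by
          have hp' : p ∉ S := fun h => (Finset.mem_sdiff.1 h).2 hp
          simp [splice, hp']
      · exact Finset.sum_congr rfl fun p hp => by simp [splice, hp]
    simp only [hg', post_eq_sum, hsum, Real.exp_add, integral_const_mul]
    congr 1
    rw [integral_finsetSum]
    swap
    · intro A _
      simp only [← mul_assoc]
      exact ((lintegral_exp' S (fun p => √δ * sp A p.2)).1).const_mul _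
    simp only [← mul_assoc, integral_const_mul, (lintegral_exp' S (fun p => √δ * sp _ p.2)).2,
      mul_pow, Real.sq_sqrt hδ, sq (sp _ _), sp_sq, mul_one, Finset.sum_const, nsmul_eq_mul]
    have hcard : (S.card : ℝ) = k' * D'.card - k * D.card := by
      rw [hS, Finset.card_sdiff_of_subset hcs, Nat.cast_sub (Finset.card_le_card hcs)]
      simp [coords]
    have hmarg := num_zero_marginal hT h0 h1 hD hD' hsub
      (f := fun A => exp (∑ p ∈ coords D k, √δ * sp A p.2 * z p) * f A) (fun A => ?_)
    · simp only [num, bf, zero_mul, Finset.sum_const_zero, Real.exp_zero, mul_one] at hmarg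
      have hc : exp (-(k' * δ * D'.card / 2)) * exp (S.card * (δ / 2)) =
          exp (-(k * δ * D.card / 2)) := by
        rw [← Real.exp_add, hcard]; congr 1; ring
      rw [← hc]
      calc _ = exp (-(k' * δ * D'.card / 2)) * exp (S.card * (δ / 2)) *
            ∑ A ∈ D'.powerset, wt G θ D' A *
              (exp (∑ p ∈ coords D k, √δ * sp A p.2 * z p) * f A) := by
            rw [Finset.mul_sum]; exact Finset.sum_congr rfl fun A _ => by ring
        _ = exp (-(k' * δ * D'.card / 2)) * exp (S.card * (δ / 2)) *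
            ∑ A ∈ D.powerset, wt G θ D A *
              (exp (∑ p ∈ coords D k, √δ * sp A p.2 * z p) * f A) := by rw [hmarg]
        _ = _ := by rw [Finset.mul_sum]; exact Finset.sum_congr rfl fun A _ => by ring
    · rw [hf]
      congr 2
      refine Finset.sum_congr rfl fun p hp => ?_
      simp [sp, (mem_coords.1 hp).2]
  calc ∫ x, g x * post G θ D' δ k' f x ∂gN (ℕ × V)
      = ∫ x, g x * post G θ D' δ k' f x ∂((gN (ℕ × V)).prod (gN (ℕ × V))).map (splice S) := by
        rw [(splice_mp S).map_eq]
    _ = ∫ p, g (splice S p) * post G θ D' δ k' f (splice S p) ∂(gN (ℕ × V)).prod (gN (ℕ × V)) :=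
        integral_map (measurable_splice S).aemeasurable
          (hg.mul (measurable_post D' δ k' f)).aestronglyMeasurable
    _ = ∫ z, ∫ z', g (splice S (z, z')) * post G θ D' δ k' f (splice S (z, z'))
          ∂gN (ℕ × V) ∂gN (ℕ × V) :=
        integral_prod _ ((splice_mp S).integrable_comp_of_integrable hgint)
    _ = _ := by simp only [key]

theorem post_eq_avg (h0 : 0 ≤ θ) (h1 : θ < 1) (D : Finset V) (δ : ℝ) (k : ℕ) (f : Finset V → ℝ)
    (x : ℕ × V → ℝ) :
    post G θ D δ k f x = lDens G θ D δ k x * avg G θ D (fieldOf D δ x k) f := by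
  rw [lDens, post, post, avg, ← part, mul_assoc (exp _), mul_div_cancel₀ _ (part_pos h0 h1 D _).ne']

theorem integral_lDens (hT : RTree G d) (h0 : 0 ≤ θ) (h1 : θ < 1) (hδ : 0 ≤ δ) {D : Finset V}
    (hD : Conn G D) (k : ℕ) : ∫ x, lDens G θ D δ k x ∂gN (ℕ × V) = 1 := by
  have := int_out hT h0 h1 hδ hD hD subset_rfl (Nat.zero_le k) (f := fun _ => 1) (fun _ => rfl)
    (g := fun _ => 1) measurable_const (B := 1) (fun _ => by simp) (fun _ _ _ => rfl)
  simp only [one_mul] at this
  simp only [lDens]
  rw [this]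
  have hp : ∀ x, post G θ D δ 0 (fun _ => 1) x = 1 := fun x => by
    have hz : fieldOf D δ x 0 = fun _ => (0 : ℝ) := by funext v; simp [fieldOf]
    rw [post, hz, ← part, part_zero hT h0 h1 hD]; simp
  simp [hp]

/-- At large times the field has the sign of the hidden spin, except with small probability. -/
theorem tanh_approx (hT : RTree G d) (h0 : 0 ≤ θ) (h1 : θ < 1) (hδ : 0 ≤ δ) {D : Finset V}
    (hD : Conn G D) {v : V} (hv : v ∈ D) (k : ℕ) :
    ∫ x, lDens G θ D δ k x *
        (1 - mag G θ D (fieldOf D δ x k) v * Real.tanh (fieldOf D δ x k v)) ∂gN (ℕ × V) ≤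
      exp (-(k * δ / 2)) := by
  have hpt : ∀ a : ℝ, (a = 1 ∨ a = -1) → ∀ y : ℝ, 1 - a * Real.tanh y ≤ exp (-(a * y)) := by
    have key : ∀ y : ℝ, 1 - Real.tanh y ≤ exp (-y) := by
      intro y
      have hc := Real.cosh_pos y
      have h2 : Real.cosh y - Real.sinh y = exp (-y) := Real.cosh_sub_sinh y
      rw [Real.tanh_eq_sinh_div_cosh, sub_le_iff_le_add', ← sub_le_iff_le_add, le_div_iff₀ hc]
      nlinarith [exp_pos (-y), Real.one_le_cosh y]
    rintro a (rfl | rfl) y
    · simpa using key y
    · simpa [Real.tanh_neg] using key (-y)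
  set P := fun (A : Finset V) (x : ℕ × V → ℝ) =>
    exp (∑ p ∈ coords D k, (√δ * sp A p.2 - (if p.2 = v then √δ * sp A v else 0)) * x p) with hP
  have hbound : ∀ x, lDens G θ D δ k x *
      (1 - mag G θ D (fieldOf D δ x k) v * Real.tanh (fieldOf D δ x k v)) ≤
      ∑ A ∈ D.powerset, exp (-(k * δ * D.card / 2)) * wt G θ D A * P A x := by
    intro x
    set t := Real.tanh (fieldOf D δ x k v)
    have e1 : lDens G θ D δ k x * (1 - mag G θ D (fieldOf D δ x k) v * t) =
        post G θ D δ k (fun A => 1 - sp A v * t) x := by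
      have := post_eq_avg (G := G) h0 h1 D δ k (fun A => sp A v) x
      rw [mul_sub, mul_one, mag, ← mul_assoc, ← this, lDens, post, post, post, num, num, num]
      simp only [Finset.mul_sum, Finset.sum_mul, ← Finset.sum_sub_distrib]
      exact Finset.sum_congr rfl fun A _ => by ring
    rw [e1, post_eq_sum]
    refine Finset.sum_le_sum fun A _ => ?_
    rw [mul_assoc (exp _ * wt G θ D A)]
    refine mul_le_mul_of_nonneg_left ?_ (mul_nonneg (exp_pos _).le (wt_pos h0 h1 D A).le)
    refine (mul_le_mul_of_nonneg_right (hpt _ (sp_cases A v) _) (exp_pos _).le).trans (le_of_eq ?_)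
    rw [hP, ← Real.exp_add]
    congr 1
    simp only [coords, Finset.sum_product, sub_mul, Finset.sum_sub_distrib, ite_mul, zero_mul,
      Finset.sum_ite_eq', if_pos hv, fieldOf, Finset.mul_sum]
    rw [neg_add_eq_sub]
    congr 1
    exact Finset.sum_congr rfl fun j _ => by ring
  have hlhs : Integrable (fun x => lDens G θ D δ k x *
      (1 - mag G θ D (fieldOf D δ x k) v * Real.tanh (fieldOf D δ x k v))) (gN (ℕ × V)) := by
    have hm : Measurable (fun x : ℕ × V → ℝ =>
        1 - mag G θ D (fieldOf D δ x k) v * Real.tanh (fieldOf D δ x k v)) := by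
      have hmm := (measurable_mag (G := G) (θ := θ) D v).comp (measurable_fieldOf D δ k)
      have ht : Measurable Real.tanh := by
        rw [funext Real.tanh_eq_sinh_div_cosh]; exact Real.measurable_sinh.div Real.measurable_cosh
      exact (hmm.mul (ht.comp ((measurable_pi_apply v).comp (measurable_fieldOf D δ k)))).const_sub 1
    refine (integrable_bdd_post D δ k (fun _ => 1) hm (B := 2) (fun x => ?_)).congr
      (ae_of_all _ fun x => mul_comm _ _)
    refine (abs_sub _ _).trans ?_
    rw [abs_one, abs_mul]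
    nlinarith [abs_mag_le (G := G) h0 h1 D (fieldOf D δ x k) v,
      (Real.abs_tanh_lt_one (fieldOf D δ x k v)).le,
      abs_nonneg (Real.tanh (fieldOf D δ x k v)), abs_nonneg (mag G θ D (fieldOf D δ x k) v)]
  have hrhs : ∀ A, Integrable (fun x => exp (-(k * δ * D.card / 2)) * wt G θ D A * P A x)
      (gN (ℕ × V)) := fun A =>
    ((lintegral_exp' (coords D k) _).1).const_mul _
  refine (integral_mono hlhs (integrable_finsetSum _ fun A _ => hrhs A) hbound).trans ?_
  rw [integral_finsetSum _ fun A _ => hrhs A]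
  have hval : ∀ A, ∫ x, P A x ∂gN (ℕ × V) = exp (k * (D.card - 1) * (δ / 2)) := by
    intro A
    rw [hP, (lintegral_exp' (coords D k) _).2]
    congr 1
    simp only [coords, Finset.sum_product]
    have : ∀ j ∈ range k, ∑ w ∈ D,
        (√δ * sp A w - if w = v then √δ * sp A v else 0) ^ 2 / 2 = ((D.card : ℝ) - 1) * (δ / 2) := by
      intro j _
      have e : ∀ w, (√δ * sp A w - if w = v then √δ * sp A v else 0) ^ 2 / 2 =
          δ / 2 - if w = v then δ / 2 else 0 := by
        intro w
        by_cases hw : w = v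
        · subst hw; simp
        · simp [hw, mul_pow, Real.sq_sqrt hδ, sq (sp A w), sp_sq]
      simp only [e, Finset.sum_sub_distrib, Finset.sum_ite_eq', if_pos hv, Finset.sum_const,
        nsmul_eq_mul]
      ring
    rw [Finset.sum_congr rfl this, Finset.sum_const, Finset.card_range, nsmul_eq_mul]
    ring
  simp only [integral_const_mul, hval]
  have hone := part_zero (G := G) hT h0 h1 hD
  simp only [part, num, bf, zero_mul, Finset.sum_const_zero, Real.exp_zero, mul_one] at hone
  rw [← Finset.sum_mul, ← Finset.mul_sum, hone, mul_one, ← Real.exp_add]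
  refine Real.exp_le_exp.2 (le_of_eq ?_)
  ring

/-! ## The chi-square bound -/

/-- The squared density of the exact chain divided by the density of the scheme. -/
def qDens (G : SimpleGraph V) (θ : ℝ) (D : Finset V) (δ : ℝ) (k : ℕ) (x : ℕ × V → ℝ) : ℝ :=
  lDens G θ D δ k x ^ 2 / mDens G θ D δ k x

theorem measurable_qDens (D : Finset V) (δ : ℝ) (k : ℕ) : Measurable (qDens G θ D δ k) :=
  ((measurable_post D δ k _).pow_const 2).div (measurable_mDens D δ k)

theorem qDens_pos (h0 : 0 ≤ θ) (h1 : θ < 1) (D : Finset V) (δ : ℝ) (k : ℕ) (x : ℕ × V → ℝ) :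
    0 < qDens G θ D δ k x := div_pos (pow_pos (lDens_pos h0 h1 D δ k x) 2) (exp_pos _)

theorem lintegral_qDens (hT : RTree G d) (h0 : 0 ≤ θ) (h1 : θ < 1) (hδ : 0 ≤ δ) {D : Finset V}
    (hD : Conn G D) (hsmall : 4 * D.card * δ ≤ 1) (k : ℕ) :
    ∫⁻ x, ENNReal.ofReal (qDens G θ D δ k x) ∂gN (ℕ × V) ≤
      ENNReal.ofReal ((1 + 16 * (D.card : ℝ) ^ 2 * δ ^ 2) ^ k) := by
  induction k with
  | zero =>
    have h : ∀ x, qDens G θ D δ 0 x = 1 := fun x => by
      have hz : fieldOf D δ x 0 = fun _ => (0 : ℝ) := by funext v; simp [fieldOf]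
      have hp : num G θ D (fun _ => 0) (fun _ => 1) = 1 := part_zero hT h0 h1 hD
      simp [qDens, lDens, post, hz, hp, mDens, mExp]
    simp [h]
  | succ k ih =>
    set C := 1 + 16 * (D.card : ℝ) ^ 2 * δ ^ 2 with hC
    set S : Finset (ℕ × V) := {k} ×ˢ D with hS
    have hnot : ∀ p ∈ coords D k, p ∉ S := by
      intro p hp h
      rw [hS, Finset.mem_product, Finset.mem_singleton] at h
      exact absurd (h.1 ▸ (mem_coords.1 hp).1) (lt_irrefl _)
    rw [lintegral_splice S (measurable_qDens D δ (k + 1)).ennreal_ofReal]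
    have key : ∀ z, ∫⁻ z', ENNReal.ofReal (qDens G θ D δ (k + 1) (splice S (z, z')))
        ∂gN (ℕ × V) ≤ ENNReal.ofReal (qDens G θ D δ k z * C) := by
      intro z
      set h := fieldOf D δ z k with hh
      set m := mag G θ D h with hm
      set p := fun A => wt G θ D A * bf D h A / part G θ D h with hp
      set W := fun (A B : Finset V) => ∑ v ∈ D, (sp A v - m v) * (sp B v - m v) with hW
      set c := fun (A B : Finset V) (q : ℕ × V) => √δ * (sp A q.2 + sp B q.2 - m q.2) with hc
      set K := qDens G θ D δ k z with hK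
      have hKpos : 0 ≤ K := (qDens_pos h0 h1 D δ k z).le
      have hZ := (part_pos (G := G) h0 h1 D h).ne'
      have hsq := Real.mul_self_sqrt hδ
      have hq : ∀ z', qDens G θ D δ (k + 1) (splice S (z, z')) =
          ∑ A ∈ D.powerset, ∑ B ∈ D.powerset, K * (p A * p B) *
            exp (∑ v ∈ D, (δ * m v ^ 2 / 2 - δ)) * exp (∑ q ∈ S, c A B q * z' q) := by
        intro z'
        have hfk : fieldOf D δ (splice S (z, z')) k = h :=
          fieldOf_congr fun q hq => by simp [splice, hnot q hq]
        have hfk1 : ∀ A, bf D (fieldOf D δ (splice S (z, z')) (k + 1)) A =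
            bf D h A * exp (∑ v ∈ D, √δ * sp A v * z' (k, v)) := by
          intro A
          simp only [bf, ← Real.exp_add, ← Finset.sum_add_distrib]
          congr 1
          refine Finset.sum_congr rfl fun v hv => ?_
          have := congrFun hfk v
          simp only [fieldOf, if_pos hv, Finset.sum_range_succ] at this ⊢
          rw [mul_add, this, show splice S (z, z') (k, v) = z' (k, v) by simp [splice, hS, hv]]
          ring
        have hL : lDens G θ D δ (k + 1) (splice S (z, z')) = lDens G θ D δ k z *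
            (exp (-(δ * D.card / 2)) *
              ∑ A ∈ D.powerset, p A * exp (∑ v ∈ D, √δ * sp A v * z' (k, v))) := by
          rw [lDens, lDens, post, post, ← hh, ← part.eq_def G θ D h, num]
          simp only [hfk1, mul_one, Finset.mul_sum, hp]
          refine Finset.sum_congr rfl fun A _ => ?_
          rw [show (-(((k + 1 : ℕ) : ℝ) * δ * D.card / 2)) =
            -((k : ℝ) * δ * D.card / 2) + -(δ * D.card / 2) by push_cast; ring, Real.exp_add]
          field_simp
        have hM : mDens G θ D δ (k + 1) (splice S (z, z')) = mDens G θ D δ k z *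
            exp (∑ v ∈ D, (√δ * m v * z' (k, v) - δ * m v ^ 2 / 2)) := by
          rw [mDens, mDens, ← Real.exp_add]
          congr 1
          have e : mExp G θ D δ k (splice S (z, z')) = mExp G θ D δ k z :=
            mExp_congr fun q hq => by simp [splice, hnot q hq]
          simp only [mExp] at e ⊢
          rw [Finset.sum_range_succ, e, hfk]
          congr 1
          exact Finset.sum_congr rfl fun v hv => by
            rw [show splice S (z, z') (k, v) = z' (k, v) by simp [splice, hS, hv]]
        rw [qDens, hL, hM, mul_pow, mul_div_mul_comm, show lDens G θ D δ k z ^ 2 / mDens G θ D δ k z = K from rfl, mul_pow,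
          sq (∑ A ∈ D.powerset, _), Finset.sum_mul_sum]
        simp only [Finset.mul_sum, Finset.sum_div]
        refine Finset.sum_congr rfl fun A _ => Finset.sum_congr rfl fun B _ => ?_
        rw [div_eq_mul_inv, ← Real.exp_neg]
        simp only [hc, hS, Finset.sum_product, Finset.sum_singleton]
        have : exp (-(δ * D.card / 2)) ^ 2 * exp (∑ v ∈ D, √δ * sp A v * z' (k, v)) *
            exp (∑ v ∈ D, √δ * sp B v * z' (k, v)) *
            exp (-∑ v ∈ D, (√δ * m v * z' (k, v) - δ * m v ^ 2 / 2)) =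
            exp (∑ v ∈ D, (δ * m v ^ 2 / 2 - δ)) *
              exp (∑ v ∈ D, √δ * (sp A v + sp B v - m v) * z' (k, v)) := by
          simp only [sq, ← Real.exp_add]
          congr 1
          simp only [Finset.sum_sub_distrib, Finset.sum_const, nsmul_eq_mul, mul_add, mul_sub,
            add_mul, sub_mul, Finset.sum_add_distrib]
          ring
        linear_combination (K * p A * p B) * this
      have hint : ∀ A B, Integrable (fun z' => K * (p A * p B) *
          exp (∑ v ∈ D, (δ * m v ^ 2 / 2 - δ)) * exp (∑ q ∈ S, c A B q * z' q)) (gN (ℕ × V)) :=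
        fun A B => ((lintegral_exp' S (c A B)).1).const_mul _
      have hint2 : Integrable (fun z' => qDens G θ D δ (k + 1) (splice S (z, z'))) (gN (ℕ × V)) := by
        rw [show (fun z' => qDens G θ D δ (k + 1) (splice S (z, z'))) = _ from funext hq]
        exact integrable_finsetSum _ fun A _ => integrable_finsetSum _ fun B _ => hint A B
      rw [← ofReal_integral_eq_lintegral_ofReal hint2
        (ae_of_all _ fun z' => (qDens_pos h0 h1 D δ _ _).le)]
      refine ENNReal.ofReal_le_ofReal ?_
      simp only [hq]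
      rw [integral_finsetSum _ (fun A _ => integrable_finsetSum _ fun B _ => hint A B)]
      simp only [integral_finsetSum _ (fun B _ => hint _ B), integral_const_mul,
        (lintegral_exp' S (c _ _)).2]
      have hW' : ∀ A B, exp (∑ v ∈ D, (δ * m v ^ 2 / 2 - δ)) * exp (∑ q ∈ S, c A B q ^ 2 / 2) =
          exp (δ * W A B) := by
        intro A B
        simp only [← Real.exp_add, hc, hS, hW, Finset.sum_product, Finset.sum_singleton,
          ← Finset.sum_add_distrib, Finset.mul_sum]
        congr 1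
        refine Finset.sum_congr rfl fun v _ => ?_
        rw [mul_pow, Real.sq_sqrt hδ]
        linear_combination (δ / 2) * sp_sq A v + (δ / 2) * sp_sq B v
      have hpnn : ∀ A, 0 ≤ p A := fun A =>
        div_nonneg (mul_nonneg (wt_pos h0 h1 D A).le (exp_pos _).le) (part_pos h0 h1 D h).le
      have hsum1 : ∑ A ∈ D.powerset, p A = 1 := by
        simp only [hp, ← Finset.sum_div]
        rw [div_eq_one_iff_eq hZ]
        simp [part, num]
      have hmean : ∀ v, ∑ A ∈ D.powerset, p A * (sp A v - m v) = 0 := by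
        intro v
        simp only [mul_sub, Finset.sum_sub_distrib, ← Finset.sum_mul, hsum1, one_mul]
        rw [sub_eq_zero]
        simp only [hp, hm, mag, avg, num, div_mul_eq_mul_div, ← Finset.sum_div]
      have hWb : ∀ A B, |W A B| ≤ 4 * D.card := by
        intro A B
        refine (Finset.abs_sum_le_sum_abs _ _).trans ((Finset.sum_le_card_nsmul _ _ 4 fun v _ => ?_)
          |>.trans (le_of_eq ?_))
        · rw [abs_mul]
          have hb : ∀ A : Finset V, |sp A v - m v| ≤ 2 := fun A =>
            (abs_sub _ _).trans (by rw [abs_sp]; linarith [abs_mag_le (G := G) h0 h1 D h v])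
          nlinarith [hb A, hb B, abs_nonneg (sp A v - m v), abs_nonneg (sp B v - m v)]
        · rw [nsmul_eq_mul]; ring
      have hexp : ∀ A B, exp (δ * W A B) ≤ 1 + δ * W A B + 16 * (D.card : ℝ) ^ 2 * δ ^ 2 := by
        intro A B
        have hx : |δ * W A B| ≤ 4 * D.card * δ := by
          rw [abs_mul, abs_of_nonneg hδ]
          calc δ * |W A B| ≤ δ * (4 * D.card) := mul_le_mul_of_nonneg_left (hWb A B) hδ
            _ = _ := by ring
        have h2 := Real.abs_exp_sub_one_sub_id_le (hx.trans hsmall)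
        have h3 : (δ * W A B) ^ 2 ≤ (4 * D.card * δ) ^ 2 := by
          rw [← sq_abs]; exact pow_le_pow_left₀ (abs_nonneg _) hx 2
        have h4 := (abs_le.1 h2).2
        linarith [h3, h4, show (4 * (D.card : ℝ) * δ) ^ 2 = 16 * (D.card : ℝ) ^ 2 * δ ^ 2 by ring]
      have hWsum : ∀ A, ∑ B ∈ D.powerset, p B * W A B = 0 := by
        intro A
        simp only [hW, Finset.mul_sum]
        rw [Finset.sum_comm]
        refine Finset.sum_eq_zero fun v _ => ?_
        simp only [mul_left_comm (p _)]
        rw [← Finset.mul_sum, hmean v, mul_zero]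
      calc ∑ A ∈ D.powerset, ∑ B ∈ D.powerset, K * (p A * p B) *
            exp (∑ v ∈ D, (δ * m v ^ 2 / 2 - δ)) * exp (∑ q ∈ S, c A B q ^ 2 / 2)
          = K * ∑ A ∈ D.powerset, p A * ∑ B ∈ D.powerset, p B * exp (δ * W A B) := by
            simp only [Finset.mul_sum, ← hW']
            exact Finset.sum_congr rfl fun A _ => Finset.sum_congr rfl fun B _ => by ring
        _ ≤ K * ∑ A ∈ D.powerset, p A * C := by
            refine mul_le_mul_of_nonneg_left (Finset.sum_le_sum fun A _ =>
              mul_le_mul_of_nonneg_left ?_ (hpnn A)) hKpos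
            calc ∑ B ∈ D.powerset, p B * exp (δ * W A B)
                ≤ ∑ B ∈ D.powerset, p B * (1 + δ * W A B + 16 * (D.card : ℝ) ^ 2 * δ ^ 2) :=
                  Finset.sum_le_sum fun B _ => mul_le_mul_of_nonneg_left (hexp A B) (hpnn B)
              _ = C := by
                  simp only [mul_add, Finset.sum_add_distrib, ← Finset.sum_mul, mul_left_comm (p _) δ,
                    ← Finset.mul_sum, hWsum, hsum1, hC]
                  ring
        _ = K * C := by rw [← Finset.sum_mul, hsum1, one_mul]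
    have hC0 : 0 ≤ C := by rw [hC]; positivity
    refine (lintegral_mono key).trans ?_
    simp only [ENNReal.ofReal_mul (qDens_pos h0 h1 D δ k _).le]
    rw [lintegral_mul_const' _ _ ENNReal.ofReal_ne_top, pow_succ,
      ENNReal.ofReal_mul (pow_nonneg hC0 _)]
    exact mul_le_mul' ih le_rfl

/-- The scheme and the exact chain give close expectations to bounded functions. -/
theorem transfer (hT : RTree G d) (h0 : 0 ≤ θ) (h1 : θ < 1) (hδ : 0 < δ) {D : Finset V}
    (hD : Conn G D) {T : ℝ} {k : ℕ} (hkT : k * δ ≤ T)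
    (hsmall : 4 * D.card * δ ≤ 1) (hsmall2 : 16 * (D.card : ℝ) ^ 2 * T * δ ≤ 1)
    {F : (ℕ × V → ℝ) → ℝ} (hF : Measurable F) {B : ℝ} (hB : ∀ x, |F x| ≤ B) :
    |∫ z, F (xmap G θ D δ k z) ∂gN (ℕ × V) - ∫ x, F x * lDens G θ D δ k x ∂gN (ℕ × V)| ≤
      B * (√δ * (16 * (D.card : ℝ) ^ 2 * T + 1)) := by
  have hB0 : 0 ≤ B := (abs_nonneg _).trans (hB fun _ => 0)
  obtain ⟨hMi, hM1⟩ := integrable_mDens (G := G) (θ := θ) hδ.le D k
  have hLi : Integrable (lDens G θ D δ k) (gN (ℕ × V)) := integrable_post D δ k _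
  have hQ := lintegral_qDens hT h0 h1 hδ.le hD hsmall k
  have hQnn : ∀ x, 0 ≤ qDens G θ D δ k x := fun x => (qDens_pos h0 h1 D δ k x).le
  have hQi : Integrable (qDens G θ D δ k) (gN (ℕ × V)) := by
    refine ⟨(measurable_qDens D δ k).aestronglyMeasurable, ?_⟩
    rw [hasFiniteIntegral_iff_ofReal (ae_of_all _ hQnn)]
    exact hQ.trans_lt ENNReal.ofReal_lt_top
  set c := 16 * (D.card : ℝ) ^ 2 * T with hc
  have hT0 : 0 ≤ T := le_trans (by positivity) hkT
  have hQ1 : ∫ x, qDens G θ D δ k x ∂gN (ℕ × V) ≤ 1 + 2 * c * δ := by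
    have h2 : ∫ x, qDens G θ D δ k x ∂gN (ℕ × V) ≤ (1 + 16 * (D.card : ℝ) ^ 2 * δ ^ 2) ^ k := by
      rw [integral_eq_lintegral_of_nonneg_ae (ae_of_all _ hQnn)
        (measurable_qDens D δ k).aestronglyMeasurable]
      exact ENNReal.toReal_le_of_le_ofReal (by positivity) hQ
    have h3 : (1 + 16 * (D.card : ℝ) ^ 2 * δ ^ 2) ^ k ≤ exp (c * δ) := by
      calc (1 + 16 * (D.card : ℝ) ^ 2 * δ ^ 2) ^ k ≤ exp (16 * (D.card : ℝ) ^ 2 * δ ^ 2) ^ k :=
            pow_le_pow_left₀ (by positivity)
              ((add_comm _ _).trans_le (add_one_le_exp (16 * (D.card : ℝ) ^ 2 * δ ^ 2))) k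
        _ = exp (k * (16 * (D.card : ℝ) ^ 2 * δ ^ 2)) := by rw [← Real.exp_nat_mul]
        _ ≤ exp (c * δ) := Real.exp_le_exp.2 (by
            have : 0 ≤ 16 * (D.card : ℝ) ^ 2 * δ := by positivity
            rw [hc]; nlinarith [mul_le_mul_of_nonneg_left hkT this])
    have hc0 : 0 ≤ c * δ := by positivity
    have h4 : |c * δ| ≤ 1 := by rw [abs_of_nonneg hc0]; exact hsmall2
    have h5 := (abs_le.1 (Real.abs_exp_sub_one_sub_id_le h4)).2
    rw [abs_of_nonneg hc0] at h4
    nlinarith [mul_le_mul_of_nonneg_left h4 hc0]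
  have hs : 0 < √δ := Real.sqrt_pos.2 hδ
  rw [integral_comp_xmap hδ.le D k hF, ← integral_sub (hMi.bdd_mul hF.aestronglyMeasurable
    (ae_of_all _ hB)) (hLi.bdd_mul hF.aestronglyMeasurable (ae_of_all _ hB))]
  have hpt : ∀ x, ‖F x * mDens G θ D δ k x - F x * lDens G θ D δ k x‖ ≤
      B * ((qDens G θ D δ k x - 2 * lDens G θ D δ k x + mDens G θ D δ k x) / (2 * √δ) +
        √δ / 2 * mDens G θ D δ k x) := by
    intro x
    rw [← mul_sub, Real.norm_eq_abs, abs_mul]
    refine mul_le_mul (hB x) ?_ (abs_nonneg _) hB0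
    set M := mDens G θ D δ k x
    set L := lDens G θ D δ k x
    have hM : 0 < M := exp_pos _
    have hq : qDens G θ D δ k x - 2 * L + M = (M - L) ^ 2 / M := by
      show L ^ 2 / M - 2 * L + M = (M - L) ^ 2 / M
      field_simp; ring
    rw [hq, div_div, div_add' _ _ _ (by positivity), le_div_iff₀ (by positivity)]
    nlinarith [sq_nonneg (|M - L| - √δ * M), sq_abs (M - L), hM, hs]
  refine (norm_integral_le_of_norm_le (f := fun x => F x * mDens G θ D δ k x - F x * lDens G θ D δ k x)
    (Integrable.const_mul ((((hQi.sub (hLi.const_mul 2)).add hMi).div_const _).add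
      (hMi.const_mul _)) B) (ae_of_all _ hpt)).trans ?_
  have i1 : Integrable (fun x => qDens G θ D δ k x - 2 * lDens G θ D δ k x) (gN (ℕ × V)) :=
    hQi.sub (hLi.const_mul 2)
  have i2 : Integrable (fun x => qDens G θ D δ k x - 2 * lDens G θ D δ k x + mDens G θ D δ k x)
      (gN (ℕ × V)) := i1.add hMi
  simp only [Pi.add_apply, Pi.sub_apply]
  rw [integral_const_mul, integral_add (i2.div_const _) (hMi.const_mul _), integral_div,
    integral_add i1 hMi, integral_sub hQi (hLi.const_mul 2), integral_const_mul,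
    integral_const_mul, hM1, integral_lDens hT h0 h1 hδ.le hD k]
  refine mul_le_mul_of_nonneg_left ?_ hB0
  rw [mul_one, mul_one, div_add_div _ _ (by positivity) two_ne_zero, div_le_iff₀ (by positivity)]
  nlinarith [Real.mul_self_sqrt hδ.le, hQ1, hc, hT0, hδ]

/-! ## Lipschitz dependence on the noise -/

theorem scheme_lip (hT : RTree G d) (h0 : 0 ≤ θ) (h1 : θ < 1) (hδ : 0 ≤ δ) {D : Finset V}
    (hD : Conn G D) {a C : ℝ} (ha : 0 ≤ a) (hC0 : 0 ≤ C)
    (hC : ∀ v w, ∑ u ∈ D, θ ^ G.dist v u * a ^ G.dist u w ≤ C * a ^ G.dist v w)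
    (z z' : ℕ × V → ℝ) (k : ℕ) :
    ∀ v ∈ D, |scheme G θ D δ z k v - scheme G θ D δ z' k v| ≤
      (1 + δ * C) ^ k * √δ * ∑ p ∈ coords D k, a ^ G.dist v p.2 * |z p - z' p| := by
  induction k with
  | zero => intro v _; simp [scheme, coords]
  | succ k ih =>
    intro v hv
    set E := fun u => ∑ p ∈ coords D k, a ^ G.dist u p.2 * |z p - z' p| with hE
    have hE0 : ∀ u, 0 ≤ E u := fun u =>
      Finset.sum_nonneg fun p _ => mul_nonneg (pow_nonneg ha _) (abs_nonneg _)
    have hmag := mag_lip hT h0 h1 hD hv (scheme G θ D δ z k) (scheme G θ D δ z' k)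
    have hconv : ∑ u ∈ D, θ ^ G.dist v u * E u ≤ C * E v := by
      simp only [hE, Finset.mul_sum]
      rw [Finset.sum_comm]
      refine Finset.sum_le_sum fun p _ => ?_
      calc ∑ u ∈ D, θ ^ G.dist v u * (a ^ G.dist u p.2 * |z p - z' p|)
          = (∑ u ∈ D, θ ^ G.dist v u * a ^ G.dist u p.2) * |z p - z' p| := by
            rw [Finset.sum_mul]; exact Finset.sum_congr rfl fun u _ => by ring
        _ ≤ (C * a ^ G.dist v p.2) * |z p - z' p| :=
            mul_le_mul_of_nonneg_right (hC v p.2) (abs_nonneg _)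
        _ = _ := by ring
    set P := (1 + δ * C) ^ k * √δ with hP
    have hP0 : 0 ≤ P := by positivity
    have h2 : |mag G θ D (scheme G θ D δ z k) v - mag G θ D (scheme G θ D δ z' k) v| ≤
        P * (C * E v) := by
      refine hmag.trans ?_
      calc ∑ u ∈ D, θ ^ G.dist v u * |scheme G θ D δ z k u - scheme G θ D δ z' k u|
          ≤ ∑ u ∈ D, θ ^ G.dist v u * (P * E u) := Finset.sum_le_sum fun u hu =>
            mul_le_mul_of_nonneg_left (ih u hu) (pow_nonneg h0 _)
        _ = P * ∑ u ∈ D, θ ^ G.dist v u * E u := by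
            rw [Finset.mul_sum]; exact Finset.sum_congr rfl fun u _ => by ring
        _ ≤ _ := mul_le_mul_of_nonneg_left hconv hP0
    have hnew : |z (k, v) - z' (k, v)| ≤
        ∑ w ∈ D, a ^ G.dist v w * |z (k, w) - z' (k, w)| := by
      refine le_trans (le_of_eq ?_) (Finset.single_le_sum (f := fun w =>
        a ^ G.dist v w * |z (k, w) - z' (k, w)|)
        (fun w _ => mul_nonneg (pow_nonneg ha _) (abs_nonneg _)) hv)
      simp
    have hsplit : ∑ p ∈ coords D (k + 1), a ^ G.dist v p.2 * |z p - z' p| =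
        E v + ∑ w ∈ D, a ^ G.dist v w * |z (k, w) - z' (k, w)| := by
      simp only [hE, coords, Finset.sum_product, Finset.sum_range_succ]
    have h1C : 1 ≤ (1 + δ * C) ^ (k + 1) := one_le_pow₀ (by nlinarith)
    calc |scheme G θ D δ z (k + 1) v - scheme G θ D δ z' (k + 1) v|
        = |(scheme G θ D δ z k v - scheme G θ D δ z' k v) +
            δ * (mag G θ D (scheme G θ D δ z k) v - mag G θ D (scheme G θ D δ z' k) v) +
            √δ * (z (k, v) - z' (k, v))| := by
          simp only [scheme, if_pos hv]; ring_nf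
      _ ≤ P * E v + δ * (P * (C * E v)) +
            √δ * ∑ w ∈ D, a ^ G.dist v w * |z (k, w) - z' (k, w)| := by
          refine (abs_add_three _ _ _).trans ?_
          rw [abs_mul, abs_mul, abs_of_nonneg hδ, abs_of_nonneg (Real.sqrt_nonneg _)]
          exact add_le_add (add_le_add (ih v hv) (mul_le_mul_of_nonneg_left h2 hδ))
            (mul_le_mul_of_nonneg_left hnew (Real.sqrt_nonneg _))
      _ ≤ _ := by
          rw [hsplit]
          have h3 : √δ * ∑ w ∈ D, a ^ G.dist v w * |z (k, w) - z' (k, w)| ≤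
              (1 + δ * C) ^ (k + 1) * √δ * ∑ w ∈ D, a ^ G.dist v w * |z (k, w) - z' (k, w)| :=
            mul_le_mul_of_nonneg_right (le_mul_of_one_le_left (Real.sqrt_nonneg _) h1C)
              (Finset.sum_nonneg fun w _ => mul_nonneg (pow_nonneg ha _) (abs_nonneg _))
          have h4 : (1 + δ * C) ^ (k + 1) * √δ * E v = P * E v + δ * (P * (C * E v)) := by
            rw [hP, pow_succ]; ring
          linarith

/-- Halving the step changes the scheme by little. -/
theorem scheme_refine (hT : RTree G d) (h0 : 0 ≤ θ) (h1 : θ < 1) (hδ : 0 ≤ δ) {D : Finset V}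
    (hD : Conn G D) {z z' : ℕ × V → ℝ}
    (hzz : ∀ k v, z (k, v) = (z' (2 * k, v) + z' (2 * k + 1, v)) / √2) (k : ℕ) :
    ∑ v ∈ D, |scheme G θ D δ z k v - scheme G θ D (δ / 2) z' (2 * k) v| ≤
      (1 + δ * D.card) ^ k *
        ∑ j ∈ range k, δ / 2 * D.card * ∑ w ∈ D, (δ / 2 + √(δ / 2) * |z' (2 * j, w)|) := by
  induction k with
  | zero => simp [scheme]
  | succ k ih =>
    set e := fun v => scheme G θ D δ z k v - scheme G θ D (δ / 2) z' (2 * k) v with he
    set S := ∑ v ∈ D, |e v| with hS
    set R := δ / 2 * D.card * ∑ w ∈ D, (δ / 2 + √(δ / 2) * |z' (2 * k, w)|) with hR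
    have hlip : ∀ v ∈ D, ∀ h h' : V → ℝ,
        |mag G θ D h v - mag G θ D h' v| ≤ ∑ u ∈ D, |h u - h' u| := fun v hv h h' =>
      (mag_lip hT h0 h1 hD hv h h').trans (Finset.sum_le_sum fun u _ =>
        mul_le_of_le_one_left (abs_nonneg _) (pow_le_one₀ h0 h1.le))
    have hstep : ∀ v ∈ D,
        |scheme G θ D δ z (k + 1) v - scheme G θ D (δ / 2) z' (2 * (k + 1)) v| ≤
          |e v| + δ * S + δ / 2 * ∑ w ∈ D, (δ / 2 + √(δ / 2) * |z' (2 * k, w)|) := by
      intro v hv
      set h2k := scheme G θ D (δ / 2) z' (2 * k) with hh2k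
      set h2k1 := scheme G θ D (δ / 2) z' (2 * k + 1) with hh2k1
      have eq2 : √δ = √2 * √(δ / 2) := by
        rw [← Real.sqrt_mul (by norm_num : (0 : ℝ) ≤ 2)]; congr 1; ring
      have heq : scheme G θ D δ z (k + 1) v - scheme G θ D (δ / 2) z' (2 * (k + 1)) v =
          e v + δ * (mag G θ D (scheme G θ D δ z k) v - mag G θ D h2k v) +
            δ / 2 * (mag G θ D h2k v - mag G θ D h2k1 v) := by
        have hs2 : √(2 : ℝ) ≠ 0 := by positivity
        rw [show 2 * (k + 1) = (2 * k + 1) + 1 by ring]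
        simp only [scheme, if_pos hv, he, hh2k, hh2k1, hzz, eq2]
        field_simp
        ring
      have hb1 : |mag G θ D (scheme G θ D δ z k) v - mag G θ D h2k v| ≤ S := hlip v hv _ _
      have hb2 : |mag G θ D h2k v - mag G θ D h2k1 v| ≤
          ∑ w ∈ D, (δ / 2 + √(δ / 2) * |z' (2 * k, w)|) := by
        refine (hlip v hv _ _).trans (Finset.sum_le_sum fun u hu => ?_)
        simp only [hh2k1, scheme, if_pos hu, hh2k]
        rw [sub_add_cancel_left, abs_neg]
        refine (abs_add_le _ _).trans ?_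
        rw [abs_mul, abs_mul, abs_of_nonneg (Real.sqrt_nonneg _),
          abs_of_nonneg (by linarith : 0 ≤ δ / 2)]
        exact add_le_add (mul_le_of_le_one_right (by linarith) (abs_mag_le h0 h1 D _ u)) le_rfl
      rw [heq]
      refine (abs_add_three _ _ _).trans ?_
      rw [abs_mul, abs_mul, abs_of_nonneg hδ, abs_of_nonneg (by linarith : 0 ≤ δ / 2)]
      exact add_le_add (add_le_add le_rfl (mul_le_mul_of_nonneg_left hb1 hδ))
        (mul_le_mul_of_nonneg_left hb2 (by linarith))
    refine (Finset.sum_le_sum hstep).trans ?_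
    rw [Finset.sum_add_distrib, Finset.sum_add_distrib, Finset.sum_const, Finset.sum_const,
      nsmul_eq_mul, nsmul_eq_mul, Finset.sum_range_succ]
    have hR0 : 0 ≤ R := by
      rw [hR]
      exact mul_nonneg (by positivity) (Finset.sum_nonneg fun w _ => by positivity)
    have h1N : (1 : ℝ) ≤ (1 + δ * D.card) ^ (k + 1) := one_le_pow₀ (by
      have : 0 ≤ δ * D.card := by positivity
      linarith)
    have h3 : R ≤ (1 + δ * D.card) ^ (k + 1) * R := le_mul_of_one_le_left hR0 h1N
    have h4 : (1 + δ * D.card) * S ≤ (1 + δ * D.card) *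
        ((1 + δ * D.card) ^ k * ∑ j ∈ range k, δ / 2 * D.card *
          ∑ w ∈ D, (δ / 2 + √(δ / 2) * |z' (2 * j, w)|)) :=
      mul_le_mul_of_nonneg_left ih (by positivity)
    rw [← hS, mul_add]
    rw [← mul_assoc, ← pow_succ'] at h4
    nlinarith [h3, h4]

end Vale.Agent.P161
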