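import Vale.Agent.P161.Defs
import Mathlib.Combinatorics.SimpleGraph.Connectivity.Subgraph
import Mathlib.Algebra.Order.BigOperators.Group.Finset
import Mathlib.Tactic.Linarith
import Mathlib.Tactic.Positivity
import Mathlib.Tactic.FieldSimp
import Mathlib.Analysis.SpecificLimits.Basic

/-!
# Elementary geometry of the regular tree
-/

open Finset
open scoped Classical

noncomputable section

namespace Vale.Agent.P161

variable {V : Type*} {G : SimpleGraph V} {d : ℕ}

/-- Structure collecting the standing hypotheses. -/
structure RTree (G : SimpleGraph V) (d : ℕ) : Prop where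
  tree : G.IsTree
  deg : ∀ v, (G.neighborSet v).ncard = d
  three : 3 ≤ d

namespace RTree

theorem finite_nbr (hT : RTree G d) (v : V) : (G.neighborSet v).Finite :=
  Set.finite_of_ncard_ne_zero (by have := hT.three; rw [hT.deg]; omega)

theorem conn (hT : RTree G d) : G.Connected := hT.tree.connected

end RTree

/-- The neighbours of `v`, as a finite set. -/
def nbr (G : SimpleGraph V) (v : V) : Finset V :=
  if h : (G.neighborSet v).Finite then h.toFinset else ∅

theorem mem_nbr (hT : RTree G d) {v w : V} : w ∈ nbr G v ↔ G.Adj v w := by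
  simp [nbr, hT.finite_nbr v]

theorem card_nbr (hT : RTree G d) (v : V) : (nbr G v).card = d := by
  rw [nbr, dif_pos (hT.finite_nbr v), ← Set.ncard_eq_toFinset_card _ (hT.finite_nbr v), hT.deg]

theorem exists_closer (hT : RTree G d) {v u : V} (h : u ≠ v) :
    ∃ w, G.Adj u w ∧ G.dist v u = G.dist v w + 1 := by
  obtain ⟨p, hp⟩ := hT.conn.exists_walk_length_eq_dist u v
  cases p with
  | nil => exact absurd rfl h
  | @cons _ w _ hadj q =>
    refine ⟨w, hadj, ?_⟩
    have h1 : G.dist w v ≤ q.length := SimpleGraph.dist_le q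
    have h2 : G.dist u v ≤ G.dist w v + 1 := by
      have := hT.conn.dist_triangle (u := u) (v := w) (w := v)
      rw [SimpleGraph.dist_eq_one_iff_adj.2 hadj] at this
      omega
    rw [SimpleGraph.Walk.length_cons] at hp
    rw [SimpleGraph.dist_comm (u := v), SimpleGraph.dist_comm (u := v)]
    omega

theorem dist_adj_cases (hT : RTree G d) {v x : V} (h : G.Adj v x) (u : V) :
    G.dist v u = G.dist x u + 1 ∨ G.dist x u = G.dist v u + 1 := by
  have := hT.tree.dist_eq_dist_add_one_of_adj u h
  rw [SimpleGraph.dist_comm (u := v), SimpleGraph.dist_comm (u := x)]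
  exact this

/-- Distances add across an edge separating the two endpoints. -/
theorem dist_through (hT : RTree G d) {v x u w : V} (h : G.Adj v x)
    (hu : G.dist x u = G.dist v u + 1) (hw : G.dist v w = G.dist x w + 1) :
    G.dist u w = G.dist u v + 1 + G.dist x w := by
  obtain ⟨p, hp, hpl⟩ := hT.conn.exists_path_of_dist u v
  obtain ⟨q, hq, hql⟩ := hT.conn.exists_path_of_dist x w
  -- vertices on the first geodesic lie strictly closer to `v`
  have side1 : ∀ y ∈ p.support, G.dist x y = G.dist v y + 1 := by
    intro y hy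
    rcases dist_adj_cases hT h y with h' | h'
    · exfalso
      have e1 : G.dist u y + G.dist y v ≤ p.length := by
        have l1 := SimpleGraph.dist_le (p.takeUntil y hy)
        have l2 := SimpleGraph.dist_le (p.dropUntil y hy)
        have l3 := congrArg SimpleGraph.Walk.length (p.take_spec hy)
        rw [SimpleGraph.Walk.length_append] at l3
        omega
      have e2 := hT.conn.dist_triangle (u := x) (v := y) (w := u)
      rw [SimpleGraph.dist_comm (u := y) (v := u)] at e2
      rw [hpl, SimpleGraph.dist_comm (u := y) (v := v)] at e1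
      rw [SimpleGraph.dist_comm (u := u) (v := v)] at e1
      omega
    · exact h'
  have side2 : ∀ y ∈ q.support, G.dist v y = G.dist x y + 1 := by
    intro y hy
    rcases dist_adj_cases hT h y with h' | h'
    · exact h'
    · exfalso
      have e1 : G.dist x y + G.dist y w ≤ q.length := by
        have l1 := SimpleGraph.dist_le (q.takeUntil y hy)
        have l2 := SimpleGraph.dist_le (q.dropUntil y hy)
        have l3 := congrArg SimpleGraph.Walk.length (q.take_spec hy)
        rw [SimpleGraph.Walk.length_append] at l3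
        omega
      have e2 := hT.conn.dist_triangle (u := v) (v := y) (w := w)
      rw [hql] at e1
      omega
  have hpath : (p.append (SimpleGraph.Walk.cons h q)).IsPath := by
    rw [SimpleGraph.Walk.isPath_def, SimpleGraph.Walk.support_append,
      SimpleGraph.Walk.support_cons, List.tail_cons, List.nodup_append]
    refine ⟨hp.support_nodup, hq.support_nodup, ?_⟩
    intro a ha b hb hab
    subst hab
    have := side1 a ha
    have := side2 a hb
    omega
  obtain ⟨r, hr, hrl⟩ := hT.conn.exists_path_of_dist u w
  have : r = p.append (SimpleGraph.Walk.cons h q) :=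
    congrArg Subtype.val (hT.tree.isAcyclic.path_unique ⟨r, hr⟩ ⟨_, hpath⟩)
  rw [← hrl, this, SimpleGraph.Walk.length_append, SimpleGraph.Walk.length_cons, hpl, hql]
  omega

/-! ## Balls -/

/-- The ball of radius `n` around `v`. -/
def ball (G : SimpleGraph V) (v : V) : ℕ → Finset V
  | 0 => {v}
  | n + 1 => ball G v n ∪ (ball G v n).biUnion (nbr G)

theorem mem_ball (hT : RTree G d) {v u : V} {n : ℕ} : u ∈ ball G v n ↔ G.dist v u ≤ n := by
  induction n generalizing u with
  | zero =>
    simp only [ball, Finset.mem_singleton, Nat.le_zero]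
    rw [hT.conn.dist_eq_zero_iff]
    exact eq_comm
  | succ n ih =>
    simp only [ball, Finset.mem_union, Finset.mem_biUnion, ih, mem_nbr hT]
    constructor
    · rintro (h | ⟨w, hw, hadj⟩)
      · omega
      · have := hT.conn.dist_triangle (u := v) (v := w) (w := u)
        rw [SimpleGraph.dist_eq_one_iff_adj.2 hadj] at this
        omega
    · intro h
      by_cases huv : u = v
      · left; simp [huv]
      · obtain ⟨w, hadj, hw⟩ := exists_closer hT huv
        right
        exact ⟨w, by omega, hadj.symm⟩

theorem self_mem_ball (hT : RTree G d) (v : V) (n : ℕ) : v ∈ ball G v n := by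
  simp [mem_ball hT]

theorem ball_mono (hT : RTree G d) (v : V) {m n : ℕ} (h : m ≤ n) :
    ball G v m ⊆ ball G v n := fun u hu => by
  rw [mem_ball hT] at hu ⊢; omega

theorem ball_subset_ball (hT : RTree G d) {v w : V} {m n : ℕ} (h : G.dist v w + m ≤ n) :
    ball G w m ⊆ ball G v n := fun u hu => by
  rw [mem_ball hT] at hu ⊢
  have := hT.conn.dist_triangle (u := v) (v := w) (w := u)
  omega

theorem exists_ball_superset (hT : RTree G d) (v : V) (S : Finset V) :
    ∃ n, S ⊆ ball G v n :=
  ⟨S.sup (G.dist v), fun u hu => by rw [mem_ball hT]; exact Finset.le_sup hu⟩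

theorem card_sphere_le (hT : RTree G d) (v : V) (n : ℕ) :
    (((ball G v n).filter (fun u => G.dist v u = n)).card : ℝ) ≤ 2 * ((d : ℝ) - 1) ^ n := by
  have hd : (3 : ℝ) ≤ d := by exact_mod_cast hT.three
  induction n with
  | zero =>
    have : (ball G v 0).filter (fun u => G.dist v u = 0) ⊆ {v} := by
      simp only [ball]; exact Finset.filter_subset _ _
    have h1 := Finset.card_le_card this
    simp only [Finset.card_singleton] at h1
    have h2 : (((ball G v 0).filter (fun u => G.dist v u = 0)).card : ℝ) ≤ 1 := by exact_mod_cast h1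
    simp only [pow_zero, mul_one]
    linarith
  | succ n ih =>
    have hsub : (ball G v (n + 1)).filter (fun u => G.dist v u = n + 1) ⊆
        ((ball G v n).filter (fun u => G.dist v u = n)).biUnion
          (fun w => (nbr G w).filter (fun u => G.dist v u = n + 1)) := by
      intro u hu
      simp only [Finset.mem_filter, mem_ball hT] at hu
      have huv : u ≠ v := by rintro rfl; simp at hu
      obtain ⟨w, hadj, hw⟩ := exists_closer hT huv
      simp only [Finset.mem_biUnion, Finset.mem_filter, mem_ball hT, mem_nbr hT]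
      exact ⟨w, ⟨by omega, by omega⟩, hadj.symm, hu.2⟩
    have h1 := (Finset.card_le_card hsub).trans Finset.card_biUnion_le
    rcases Nat.eq_zero_or_pos n with rfl | hn
    · have h2 : ((ball G v (0 + 1)).filter (fun u => G.dist v u = 0 + 1)).card ≤ d := by
        refine h1.trans ?_
        have hs : (ball G v 0).filter (fun u => G.dist v u = 0) = {v} := by
          simp [ball]
        rw [hs, Finset.sum_singleton]
        exact (Finset.card_filter_le _ _).trans (card_nbr hT v).le
      have h3 : (((ball G v (0 + 1)).filter (fun u => G.dist v u = 0 + 1)).card : ℝ) ≤ d := by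
        exact_mod_cast h2
      simp only [zero_add, pow_one] at h3 ⊢
      linarith
    · have hstep : ∀ w ∈ (ball G v n).filter (fun u => G.dist v u = n),
          ((nbr G w).filter (fun u => G.dist v u = n + 1)).card ≤ d - 1 := by
        intro w hw
        simp only [Finset.mem_filter] at hw
        have hwv : w ≠ v := by rintro rfl; simp at hw; omega
        obtain ⟨z, hadj, hz⟩ := exists_closer hT hwv
        have hzn : z ∈ nbr G w := (mem_nbr hT).2 hadj
        have : (nbr G w).filter (fun u => G.dist v u = n + 1) ⊆ (nbr G w).erase z := by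
          intro u hu
          simp only [Finset.mem_filter] at hu
          refine Finset.mem_erase.2 ⟨?_, hu.1⟩
          rintro rfl
          omega
        refine (Finset.card_le_card this).trans ?_
        rw [Finset.card_erase_of_mem hzn, card_nbr hT]
      have h2 := h1.trans (Finset.sum_le_card_nsmul _ _ _ hstep)
      rw [smul_eq_mul] at h2
      have h3 : (((ball G v (n + 1)).filter (fun u => G.dist v u = n + 1)).card : ℝ) ≤
          (((ball G v n).filter (fun u => G.dist v u = n)).card : ℝ) * ((d : ℝ) - 1) := by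
        have h4 : (((ball G v (n + 1)).filter (fun u => G.dist v u = n + 1)).card : ℝ) ≤
          ((((ball G v n).filter (fun u => G.dist v u = n)).card * (d - 1) : ℕ) : ℝ) := by
          exact_mod_cast h2
        rw [Nat.cast_mul, Nat.cast_sub (by have := hT.three; omega), Nat.cast_one] at h4
        exact h4
      refine h3.trans ?_
      rw [pow_succ, ← mul_assoc]
      exact mul_le_mul_of_nonneg_right ih (by linarith)

theorem sum_pow_dist_le (hT : RTree G d) (v : V) {q : ℝ} (hq : 0 ≤ q)
    (hq1 : ((d : ℝ) - 1) * q < 1) (D : Finset V) :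
    ∑ u ∈ D, q ^ G.dist v u ≤ 2 / (1 - ((d : ℝ) - 1) * q) := by
  set c := ((d : ℝ) - 1) * q with hc
  have hd : (3 : ℝ) ≤ d := by exact_mod_cast hT.three
  have hc0 : 0 ≤ c := by rw [hc]; exact mul_nonneg (by linarith) hq
  set M := D.sup (G.dist v) + 1 with hM
  have hmaps : ∀ u ∈ D, G.dist v u ∈ Finset.range M := fun u hu => by
    rw [Finset.mem_range, hM]
    have := Finset.le_sup (f := G.dist v) hu
    omega
  rw [← Finset.sum_fiberwise_of_maps_to hmaps]
  calc ∑ n ∈ Finset.range M, ∑ u ∈ D with G.dist v u = n, q ^ G.dist v u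
      ≤ ∑ n ∈ Finset.range M, 2 * c ^ n := by
        refine Finset.sum_le_sum fun n _ => ?_
        have h1 : ∑ u ∈ D with G.dist v u = n, q ^ G.dist v u
            = ((D.filter (fun u => G.dist v u = n)).card : ℝ) * q ^ n := by
          rw [Finset.sum_congr rfl (g := fun _ => q ^ n)
            (fun u hu => by rw [(Finset.mem_filter.1 hu).2]), Finset.sum_const, nsmul_eq_mul]
        have h2 : (D.filter (fun u => G.dist v u = n)) ⊆
            (ball G v n).filter (fun u => G.dist v u = n) := fun u hu => by
          simp only [Finset.mem_filter, mem_ball hT] at hu ⊢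
          exact ⟨hu.2.le, hu.2⟩
        have h3 : ((D.filter (fun u => G.dist v u = n)).card : ℝ) ≤ 2 * ((d : ℝ) - 1) ^ n :=
          le_trans (by exact_mod_cast Finset.card_le_card h2) (card_sphere_le hT v n)
        rw [h1, hc, mul_pow, ← mul_assoc]
        exact mul_le_mul_of_nonneg_right h3 (pow_nonneg hq n)
    _ ≤ 2 / (1 - c) := by
        rw [← Finset.mul_sum, div_eq_mul_inv]
        refine mul_le_mul_of_nonneg_left ?_ (by norm_num)
        rw [← tsum_geometric_of_lt_one hc0 hq1]
        exact (summable_geometric_of_lt_one hc0 hq1).sum_le_tsum _ (fun n _ => pow_nonneg hc0 n)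

theorem sum_conv_le (hT : RTree G d) {a b : ℝ} (hb : 0 ≤ b) (hba : b < a)
    (hab : ((d : ℝ) - 1) * (a * b) < 1) (D : Finset V) (v w : V) :
    ∑ u ∈ D, a ^ G.dist v u * b ^ G.dist u w ≤
      2 / (1 - ((d : ℝ) - 1) * (a * b)) * a / (a - b) * a ^ G.dist v w := by
  set S0 := 2 / (1 - ((d : ℝ) - 1) * (a * b)) with hS0
  have hS0' : 0 ≤ S0 := by rw [hS0]; exact div_nonneg (by norm_num) (by linarith)
  have ha : 0 ≤ a := by linarith
  suffices key : ∀ n : ℕ, ∀ v : V, ∀ D : Finset V, G.dist v w = n →
      ∑ u ∈ D, a ^ G.dist v u * b ^ G.dist u w ≤ S0 * (a ^ (n + 1) - b ^ (n + 1)) / (a - b) by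
    refine (key _ v D rfl).trans ?_
    rw [div_mul_eq_mul_div (S0 * a), mul_assoc, ← pow_succ']
    refine div_le_div_of_nonneg_right (mul_le_mul_of_nonneg_left ?_ hS0') (by linarith)
    have : 0 ≤ b ^ (G.dist v w + 1) := pow_nonneg hb _
    linarith
  intro n
  induction n with
  | zero =>
    intro v D hvw
    obtain rfl := hT.conn.dist_eq_zero_iff.1 hvw
    simp only [zero_add, pow_one]
    rw [mul_div_assoc, div_self (by linarith), mul_one]
    refine le_trans (le_of_eq (Finset.sum_congr rfl fun u _ => ?_))
      (sum_pow_dist_le hT v (mul_nonneg ha hb) hab D)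
    rw [mul_pow, SimpleGraph.dist_comm (u := u)]
  | succ n ih =>
    intro v D hvw
    have hne : v ≠ w := by rintro rfl; simp at hvw
    obtain ⟨x, hadj, hx⟩ := exists_closer hT hne
    rw [SimpleGraph.dist_comm (u := w), SimpleGraph.dist_comm (u := w) (v := x)] at hx
    rw [← Finset.sum_filter_add_sum_filter_not D (fun u => G.dist x u = G.dist v u + 1)]
    have h1 : ∑ u ∈ D.filter (fun u => G.dist x u = G.dist v u + 1),
        a ^ G.dist v u * b ^ G.dist u w ≤ S0 * b ^ (n + 1) := by
      calc ∑ u ∈ D.filter (fun u => G.dist x u = G.dist v u + 1), a ^ G.dist v u * b ^ G.dist u w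
          = (∑ u ∈ D.filter (fun u => G.dist x u = G.dist v u + 1), (a * b) ^ G.dist v u)
              * b ^ (n + 1) := by
            rw [Finset.sum_mul]
            refine Finset.sum_congr rfl fun u hu => ?_
            have h := dist_through hT hadj (Finset.mem_filter.1 hu).2 hx
            rw [h, SimpleGraph.dist_comm (u := u) (v := v),
              show G.dist v u + 1 + G.dist x w = G.dist v u + (n + 1) by omega, pow_add, mul_pow]
            ring
        _ ≤ S0 * b ^ (n + 1) := mul_le_mul_of_nonneg_right
            (sum_pow_dist_le hT v (mul_nonneg ha hb) hab _) (pow_nonneg hb _)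
    have h2 : ∑ u ∈ D.filter (fun u => ¬G.dist x u = G.dist v u + 1),
        a ^ G.dist v u * b ^ G.dist u w ≤ a * (S0 * (a ^ (n + 1) - b ^ (n + 1)) / (a - b)) := by
      refine le_trans (le_of_eq ?_)
        (mul_le_mul_of_nonneg_left (ih x (D.filter (fun u => ¬G.dist x u = G.dist v u + 1))
          (by omega)) ha)
      rw [Finset.mul_sum]
      refine Finset.sum_congr rfl fun u hu => ?_
      rcases dist_adj_cases hT hadj u with h | h
      · rw [h, pow_succ]; ring
      · exact absurd h (Finset.mem_filter.1 hu).2
    refine (add_le_add h1 h2).trans (le_of_eq ?_)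
    have : a - b ≠ 0 := by linarith
    field_simp
    ring

/-! ## Connected finite sets -/

/-- Connectedness of a finite vertex set. -/
def Conn (G : SimpleGraph V) (D : Finset V) : Prop := (G.induce (D : Set V)).Connected

theorem Conn.nonempty {D : Finset V} (h : Conn G D) : D.Nonempty := by
  obtain ⟨⟨x, hx⟩⟩ := SimpleGraph.Connected.nonempty h
  exact ⟨x, hx⟩

theorem conn_singleton (v : V) : Conn G {v} := by
  have : Subsingleton (({v} : Finset V) : Set V) := by simp
  have : Nonempty (({v} : Finset V) : Set V) := ⟨⟨v, by simp⟩⟩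
  exact ⟨SimpleGraph.Preconnected.of_subsingleton⟩

theorem conn_insert {D : Finset V} {v p : V} (hD : Conn G D) (hp : p ∈ D) (h : G.Adj v p) :
    Conn G (insert v D) := by
  rw [Conn, Finset.coe_insert, ← Set.singleton_union]
  refine SimpleGraph.connected_induce_union (v := v) (w := p) ?_ hD.preconnected (by simp) hp h
  exact SimpleGraph.Preconnected.of_subsingleton

theorem conn_ball (hT : RTree G d) (v : V) (n : ℕ) : Conn G (ball G v n) := by
  have hv : v ∈ (ball G v n : Set V) := Finset.mem_coe.2 (self_mem_ball hT v n)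
  have key : ∀ k u, G.dist v u = k → ∀ hu : u ∈ (ball G v n : Set V),
      (G.induce (ball G v n : Set V)).Reachable ⟨v, hv⟩ ⟨u, hu⟩ := by
    intro k
    induction k with
    | zero =>
      intro u hu _
      obtain rfl := hT.conn.dist_eq_zero_iff.1 hu
      exact SimpleGraph.Reachable.rfl
    | succ k ih =>
      intro u hu humem
      have huv : u ≠ v := by rintro rfl; simp at hu
      obtain ⟨w, hadj, hw⟩ := exists_closer hT huv
      have hwmem : w ∈ (ball G v n : Set V) := by
        rw [Finset.mem_coe, mem_ball hT] at humem ⊢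
        omega
      refine (ih w (by omega) hwmem).trans (SimpleGraph.Adj.reachable ?_)
      exact hadj.symm
  have : Nonempty (ball G v n : Set V) := ⟨⟨v, hv⟩⟩
  refine SimpleGraph.Connected.mk fun a b => ?_
  exact ((key _ _ rfl a.2).symm).trans (key _ _ rfl b.2)

theorem unique_nbr (hT : RTree G d) {E : Finset V} (hE : Conn G E) {v p q : V} (hv : v ∉ E)
    (hp : p ∈ E) (hq : q ∈ E) (h1 : G.Adj v p) (h2 : G.Adj v q) : q = p := by
  by_contra hne
  obtain ⟨w, hw⟩ :=
    (SimpleGraph.Connected.preconnected hE ⟨p, hp⟩ ⟨q, hq⟩).exists_isPath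
  let f : (G.induce (E : Set V)) ↪g G := SimpleGraph.Embedding.induce _
  have hwp : (w.map f.toHom).IsPath := hw.map f.injective
  let r : G.Walk p q := SimpleGraph.Walk.cons h1.symm (SimpleGraph.Walk.cons h2 .nil)
  have hr : r.IsPath := by
    simp [r, SimpleGraph.Walk.cons_isPath_iff, h1.ne', h2.ne, Ne.symm hne]
  have hsupp : ∀ y ∈ (w.map f.toHom).support, y ∈ E := by
    intro y hy
    rw [SimpleGraph.Walk.support_map, List.mem_map] at hy
    obtain ⟨⟨z, hz⟩, -, rfl⟩ := hy
    exact hz
  have heq : (w.map f.toHom) = r :=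
    congrArg Subtype.val (hT.tree.isAcyclic.path_unique ⟨_, hwp⟩ ⟨r, hr⟩)
  refine hv (hsupp v ?_)
  rw [heq]
  change v ∈ (SimpleGraph.Walk.cons h1.symm (SimpleGraph.Walk.cons h2 .nil) : G.Walk p q).support
  rw [SimpleGraph.Walk.support_cons, SimpleGraph.Walk.support_cons]
  simp

/-- Connected sets grow from connected subsets one leaf at a time. -/
theorem grow_induction (hT : RTree G d) (P : Finset V → Prop) {D D' : Finset V}
    (hD : Conn G D) (hD' : Conn G D') (hsub : D ⊆ D') (base : P D)
    (step : ∀ E v p, Conn G E → D ⊆ E → insert v E ⊆ D' → v ∉ E → p ∈ E → G.Adj v p →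
      (∀ q ∈ E, G.Adj v q → q = p) → P E → P (insert v E)) : P D' := by
  suffices key : ∀ k, ∀ E, Conn G E → D ⊆ E → E ⊆ D' → (D' \ E).card = k → P E → P D' from
    key _ D hD subset_rfl hsub rfl base
  intro k
  induction k with
  | zero =>
    intro E _ _ hED' hcard hPE
    have : D' ⊆ E := Finset.sdiff_eq_empty_iff_subset.1 (Finset.card_eq_zero.1 hcard)
    rwa [Finset.Subset.antisymm this hED']
  | succ k ih =>
    intro E hEc hDE hED' hcard hPE
    obtain ⟨z, hz⟩ := Finset.card_pos.1 (by omega : 0 < (D' \ E).card)
    rw [Finset.mem_sdiff] at hz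
    obtain ⟨a, ha⟩ := hEc.nonempty
    obtain ⟨w⟩ := SimpleGraph.Connected.preconnected hD' ⟨a, hED' ha⟩ ⟨z, hz.1⟩
    obtain ⟨e, -, he1, he2⟩ := w.exists_boundary_dart {y | (y : V) ∈ E} ha hz.2
    set v := (e.snd : V)
    set p := (e.fst : V)
    have hadj : G.Adj v p := (e.adj).symm
    have hvD' : v ∈ D' := e.snd.2
    have hins : insert v E ⊆ D' := Finset.insert_subset hvD' hED'
    refine ih (insert v E) (conn_insert hEc he1 hadj) (hDE.trans (Finset.subset_insert _ _)) hins
      ?_ (step E v p hEc hDE hins he2 he1 hadj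
        (fun q hq hvq => unique_nbr hT hEc he2 he1 hq hadj hvq) hPE)
    rw [Finset.sdiff_insert, Finset.card_erase_of_mem (Finset.mem_sdiff.2 ⟨hvD', he2⟩)]
    omega

/-! ## Automorphisms -/

theorem iso_dist (hT : RTree G d) (g : G ≃g G) (u v : V) :
    G.dist (g u) (g v) = G.dist u v := by
  have key : ∀ (g : G ≃g G) u v, G.dist (g u) (g v) ≤ G.dist u v := by
    intro g u v
    obtain ⟨p, hp⟩ := hT.conn.exists_walk_length_eq_dist u v
    have := SimpleGraph.dist_le (p.map g.toHom)
    rw [SimpleGraph.Walk.length_map, hp] at this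
    exact this
  refine le_antisymm (key g u v) ?_
  simpa using key g.symm (g u) (g v)

theorem ball_map (hT : RTree G d) (g : G ≃g G) (v : V) (n : ℕ) :
    ball G (g v) n = (ball G v n).map g.toEquiv.toEmbedding := by
  ext u
  rw [Finset.mem_map_equiv, mem_ball hT, mem_ball hT]
  conv_lhs => rw [show u = g (g.symm u) by simp, iso_dist hT]
  rfl

end Vale.Agent.P161
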